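import Crest.Agent.X262.FG.NvDefs
import Crest.Agent.X262.Coh.Defs
import Crest.Agent.X262.K3c80.Main_Mg
import Crest.Agent.X262.Rl57.LemB
import Crest.Agent.X262.Fam17.Main
import Crest.Agent.X262.G3Num.Econ_Mg
import Crest.Agent.X262.RR.All
import Crest.Agent.X262.KV.Srf
import Crest.Agent.X262.Int23.K3
import Crest.Agent.X262.Min33.Out
import Crest.Agent.X262.Mono15.Main
import Crest.Agent.X262.Chn.Blk
import Crest.Agent.X262.Rul.NoPG
import Crest.Agent.X262.Form88.All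
import Crest.Agent.X262.Int23.Bcg
import Crest.Agent.X262.R139.Main
import Crest.Agent.X262.RR.Main
import Crest.Agent.X262.Qt.Main
import Crest.Agent.X277.Cns.PBL
import Crest.Agent.X277.Cns.Lift
import Crest.Agent.X277.BD.BrA
import Crest.Agent.X262.Top.Defs
import Crest.Agent.X262.Brg.Hyp0
import Crest.Agent.X262.Lin62.Bez
import Crest.Agent.X262.Hx56.Form
import Crest.Agent.X277.Unf.Main
import Crest.Agent.X262.Brg.Cubic
import Crest.Agent.X262.Brg.Main
import Crest.Agent.X262.Fano21.Chart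
import Crest.Agent.X262.Fano.Rho
import Crest.Agent.X262.Rho82.Nef
import Crest.Agent.X262.Loc95.Prj
import Crest.Agent.X277.BD.Mdl
import Crest.Agent.X262.FG.Prm0
import Crest.Agent.X262.Fam17.Pl

-- ▼ part X262/FG/NsCoh
section

/-!
# Row 262, FG (helper81): finite rank of the numerical classes from a cohomology theory

* `ns_of : C.MAN → C.PD → NSStmt`.
-/

set_option autoImplicit false
set_option linter.style.haveILetI false

noncomputable section

namespace Crest.Agent.X262.FG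

open Crest.Agent.X277 Crest.Agent.X277.Lef Crest.Agent.X277.BD Crest.Agent.X262.Coh

/-- the numerical classes of a smooth projective model have finite rank -/
theorem ns_of (C : Th) (hM : C.MAN) (hP : C.PD) : NSStmt := by
  intro F _ _ _ P
  haveI := (hP (sv P)).1
  letI : Module ℝ (C.H (sv P)) := Module.compHom _ (algebraMap ℝ ℂ)
  haveI : IsScalarTower ℝ ℂ (C.H (sv P)) :=
    ⟨fun r c x => by
      change (r • c) • x = (algebraMap ℝ ℂ r) • c • x
      rw [← mul_smul, ← Algebra.smul_def]⟩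
  haveI : Module.Finite ℝ (C.H (sv P)) := Module.Finite.trans ℂ _
  refine ⟨Module.finrank ℝ (C.H (sv P)), fun a ha => ?_⟩
  have hdep : ¬ LinearIndependent ℝ fun i => C.c1 (sv P) (a i) := fun h => by
    simpa using h.fintype_card_le_finrank
  obtain ⟨m, hm, i₀, hi₀⟩ := Fintype.not_linearIndependent_iff.1 hdep
  refine ⟨m, fun h => hi₀ (congrFun h i₀), fun l hl => ?_⟩
  have h1 : C.itg (sv P) ((∑ i, m i • C.c1 (sv P) (a i)) * (l.map (C.c1 (sv P))).prod) = 0 := by
    rw [hm, zero_mul, map_zero]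
  rw [Finset.sum_mul, map_sum] at h1
  have h2 : ∀ i, C.itg (sv P) (m i • C.c1 (sv P) (a i) * (l.map (C.c1 (sv P))).prod) =
      ((m i * (bnum (a i :: l) : ℝ) : ℝ) : ℂ) := fun i => by
    have h3 := hM.c1_num (sv P) (a i :: l) (by
      intro x hx
      rcases List.mem_cons.1 hx with rfl | hx
      · exact ha i
      · exact hl x hx)
    rw [List.map_cons, List.prod_cons] at h3
    change C.itg (sv P) ((algebraMap ℝ ℂ (m i)) • C.c1 (sv P) (a i) * _) = _
    rw [smul_mul_assoc, map_smul, h3]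
    simp
  simp_rw [h2] at h1
  exact_mod_cast h1

end Crest.Agent.X262.FG
end
end

-- ▼ part X262/Bnd/Main1
section

/-!
# Row 262, BND (helper51): the birational layer from the cohomology theory
-/

set_option autoImplicit false

namespace Crest.Agent.X262.Bnd

open Crest.Agent.X262.Surf Crest.Agent.X262.RR

theorem resStmt : ResStmt := fun _ _ _ _ T => X277.Unf.exists_on T

theorem kStmt : KStmt := Min33.kStmt rrStmt serStmt

theorem minStmt : Int23.MinStmt := Min33.minStmt rrStmt serStmt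

variable {C : Coh.Th} (A : C.Ax)

include A

theorem g3_of1 (hM : MonoStmt) (hC : CmpStmt) : G3Stmt :=
  g3_of
    { ser := serStmt, kv := KV.kvStmt, bir := chiBirStmt, flag := Sg1.flagStmt, up := Sg1.upStmt
      low := Sg1.lowStmt, pure := Pure.pureStmt, mono := hM, res := resStmt
      kexc := Hor83.kExcStmt, rr := rrStmt, gen := Gen.genStmt, cmp := hC
      norm := Gal71.normStmt, chi := K3c.k3ChiStmt rrStmt, trk := Int23.trkStmt A minStmt
      kk := kStmt, unim := unimStmt A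
      econ := G3Num.econStmt (Min33.thMinStmt rrStmt serStmt resStmt) rrStmt serStmt KV.kvStmt
        (unimStmt A) }

/-- the birational layer from the cohomology theory and the open leaves -/
theorem birStmt_of1 (hM : MonoStmt) (hC : CmpStmt) (hS : SubStmt) : Top.BirStmt :=
  birStmt_of0 (FG.ns_of C A.man A.pd) Rl57.lemA hS
    (Fam.fam_of volStmt kStmt (g3_of1 A hM hC) End95.pgStmt)

end Crest.Agent.X262.Bnd
end

-- ▼ part X262/Bnd/Main2
section

/-!
# Row 262, BND (helper51): the birational layer from the cohomology theory and `SubStmt`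
-/

set_option autoImplicit false

namespace Crest.Agent.X262.Bnd

/-- the birational layer from the cohomology theory and the local analysis -/
theorem birStmt_of2 {C : Coh.Th} (A : C.Ax) (hS : SubStmt) : Top.BirStmt :=
  birStmt_of1 A Mono15.monoStmt Mono15.cmpStmt hS

end Crest.Agent.X262.Bnd
end

-- ▼ part X262/Chn/Main
section

/-!
# Row 262, CHN (helper49): the glue

* `amb`, `sys` : the cohomological system on the models of `K`;
* `gwl_of`     : `GWLStmt` from the statements of `Chn/Defs`.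
-/

set_option autoImplicit false

open scoped KaehlerDifferential

noncomputable section

namespace Crest.Agent.X262.Chn

open Crest.Agent.X277 Crest.Agent.X277.Lef Crest.Agent.X277.AN.G1 Crest.Agent.X277.BD
open Crest.Agent.X277.BD.Br (On oP)
open Crest.Agent.X277.BD.Cyc (Rf)
open Crest.Agent.X277.Pst (Prm Dvs)
open Crest.Agent.X262.Coh Crest.Agent.X262.Top

variable {C : Th} {K : Type} [Field K] [Algebra ℂ K] {U V : PModel ℂ K}

/-- form, restrictions and roots on one model -/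
def amb (A : C.Ax) (R : Roots K C) (U : PModel ℂ K) : Amb (Om C U) (RZ ℂ K) where
  β := AddMonoidHom.mk' (fun x => AddMonoidHom.mk' (fun y => hf C (sv U) x y)
    fun y y' => hf_add_right _ _ _) fun x x' => AddMonoidHom.ext fun y => hf_add_left _ _ _
  symm x y h := (hf_symm A _ _).trans (by rw [show hf C (sv U) x y = 0 from h, map_zero])
  Kr W := ⨅ (_ : Dvs W) (Q : SV) (u : Hom Q (sv U)) (_ : Alg u W),
    LinearMap.ker ((C.pb u).toLinearMap ∘ₗ (Om C U).subtype)
  Rt := {x | (x : C.H (sv U)) ∈ R.Rt U}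

theorem mem_Kr {A : C.Ax} {R : Roots K C} {W : RZ ℂ K} {x : Om C U} : x ∈ (amb A R U).Kr W ↔
    (Dvs W → ∀ (Q : SV) (u : Hom Q (sv U)), Alg u W → C.pb u x = 0) := by
  simp [amb, Submodule.mem_iInf]

/-- the pull-back on classes of type `(3,1)` -/
def pbO (A : C.Ax) (h : Ge U V) : Om C V →ₗ[ℂ] Om C U :=
  (C.pb (mor h)).toLinearMap.restrict fun x hx => A.typ.pb _ x hx


theorem mem_range_pbO {A : C.Ax} {h : Ge U V} {x : Om C U} :
    x ∈ LinearMap.range (pbO A h) ↔ (x : C.H (sv U)) ∈ up C h (Om C V) :=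
  ⟨fun ⟨y, hy⟩ => ⟨y, y.2, congrArg Subtype.val hy⟩,
    fun ⟨y, h1, h2⟩ => ⟨⟨y, h1⟩, Subtype.ext h2⟩⟩

theorem map_pbO (A : C.Ax) (h : Ge U V) {N : Submodule ℂ (C.H (sv V))} (hN : N ≤ Om C V) :
    ((N.comap (Om C V).subtype).map (pbO A h)).map (Om C U).subtype = up C h N := by
  ext x
  constructor
  · rintro ⟨_, ⟨y, hy, rfl⟩, rfl⟩
    exact ⟨y, hy, rfl⟩
  · rintro ⟨y, hy, rfl⟩
    exact ⟨_, ⟨⟨y, hN hy⟩, hy, rfl⟩, rfl⟩

/-- **the cohomological system** -/
def sys (A : C.Ax) (F : Frm C) (hq : Qt.QtStmt) (hm : ModStmt)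
    (β : Module.Basis (Fin 4) K Ω[K⁄ℂ]) (R : Roots K C) :
    Sys (geo hq hm β R.Sp R.ex) fun U => Om C U where
  amb := amb A R
  pb h := pbO A h
  blk b := (b.1.blk C).comap (Om C b.1.hi).subtype
  pb_pb h h' x := Subtype.ext (pb_mor A h h' x)
  β_pb h x y := hf_pb A (bim_mor h) x y
  fact {U V} h := by
    ext x
    refine Amb.mem_TS.trans (Iff.trans ?_ (mem_range_pbO (A := A) (h := h)).symm)
    refine ⟨fun h1 => mem_up A F h x.2 fun W Q u h2 h3 hu => mem_Kr.1 (h1 W h3) h2.dvs Q u hu, ?_⟩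
    rintro ⟨y, hy, h1⟩ W hW
    refine mem_Kr.2 fun h2 Q u hu => ?_
    rw [← h1]
    exact (A.man.pb_comp (mor h) u y).symm.trans (F.exc _ W (hu.comp h) h2 hW 3 1
      (by simpa using (Module.finrank_eq_card_basis β).symm) y hy)
  span b x := by
    obtain ⟨x₀, h1, c, h2, h3⟩ := Bw.span A F (R.lh _ b.2) x.2
    exact ⟨⟨x₀, h1⟩, ⟨c, b.1.blk_le A h2⟩, h2, Subtype.ext h3⟩
  orth b x₀ c hc := by
    obtain ⟨σ, -, h⟩ := hc
    exact (congrArg (hf C _ _) h).symm.trans (b.1.orth A x₀.2 σ)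
  junk b U h W _ hW c hc := mem_Kr.2 fun _ Q u hu =>
    (A.man.pb_comp (mor h) u c).symm.trans (Bw.junk A F hW (hu.comp h) hc)
  rt h x hx := R.rt h x x.2 hx
  bl b c hc hn := R.bl _ b.2 c.1 hc hn
  pr b x hx hn := (R.pr _ b.2 x.1 x.2 hx hn).imp_left (mem_range_pbO (A := A)).2

/-- **the glue** -/
theorem gwl_of (A : C.Ax) (F : Frm C) (hq : Qt.QtStmt) (hm : ModStmt) (hR : RootStmt C)
    (h31 : H31Stmt C) (hN : NZStmt C) (hM : MatchStmt C) (hT : TransStmt C) : GWLStmt := by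
  intro D
  obtain ⟨D', hT⟩ := hT D
  refine ⟨D', fun G hG hX K _ _ Y X hB => ?_⟩
  obtain ⟨β⟩ := Brg.Hyp0.basis_of_free (Rul.hyp_free Y).1 (Rul.hyp_free Y).2
  obtain ⟨R⟩ := hR K ⟨Y⟩
  have hd : BD.dim ℂ K = 4 := by simpa using Module.finrank_eq_card_basis β
  let s := sys A F hq hm β R
  refine (s.count Y.P X.P (fun x => ?_) ?_ (τ := fun V => Typ D (Rf V))
    (Φ := fun U N => (∃ x ∈ N, (s.amb U).NI x) ∧ ∀ (b : {b // R.Sp b}) (h : Ge U b.1.hi),
      N.map (Om C U).subtype = up C h (b.1.blk C) → Typ D (Rf b.1.V))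
    (fun _ _ h => h.1) (fun b U h _ _ => ⟨fun h1 => ⟨?_, fun b' h' h2 => ?_⟩, fun h1 =>
      h1.2 b h (map_pbO A h (b.1.blk_le A))⟩) fun U h _ N h1 h2 => ⟨h2, fun b h' h3 => ?_⟩).ne
    (hB _ (inv_typ D) fun _ h => h)
  · exact Subtype.ext ((Submodule.eq_bot_iff _).1 (om_eq_bot A Y) x x.2)
  · obtain ⟨x, h1, h2⟩ := exists_ni A (X := sv X.P) (p := 3) (q := 1) hd.symm (h31 G hG K X)
    exact ⟨⟨x, h1⟩, h2⟩
  · obtain ⟨x, h2, h3⟩ := Bw.exists_ni_blk A (R.lh _ b.2) (hN K D b.1 h1)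
    exact ⟨_, ⟨⟨x, b.1.blk_le A h2⟩, h2, rfl⟩, (ni_pb A (bim_mor h)).2 h3⟩
  · exact hM K D b.1 b'.1 U h h' (R.lh _ b.2) (R.lh _ b'.2)
      ((map_pbO A h (b.1.blk_le A)).symm.trans h2) h1
  · refine hT G hG hX K X ⟨Y⟩ b.1 U h' h (R.lh _ b.2) (fun h4 => ?_) ?_
    · obtain ⟨x, h5, h6⟩ := h2
      have h7 : (x : C.H (sv U)) ∈ up C h' (b.1.blk C) := h3 ▸ ⟨x, h5, rfl⟩
      rw [Bw.blk, h4, Submodule.map_bot, up, Submodule.map_bot] at h7
      exact NI.ne_zero h6 h7
    · rw [← h3]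
      rintro _ ⟨x, h4, rfl⟩
      exact (mem_range_pbO (A := A)).1 (h1 h4)

end Crest.Agent.X262.Chn
end
end

-- ▼ part X262/Chn/Fin
section

/-!
# Row 262, CHN (helper49): `GWLStmt` from the leaves which are still open
-/

set_option autoImplicit false

namespace Crest.Agent.X262.Chn

open Crest.Agent.X262.Coh

/-- `GWLStmt` from the axioms of the cohomology theory, the roots, `H31`, `ISO` -/
theorem gwl_fin {C : Th} (A : C.Ax) (hR : RootStmt C) (h31 : H31Stmt C)
    (hI : Hx56.IsoStmt C) : Top.GWLStmt :=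
  have hM : Int23.MinStmt := Min33.minStmt RR.rrStmt RR.serStmt
  gwl_of A (Form88.frm_of A) Qt.qtStmt R139.model2 hR h31 (Int23.nzStmt A)
    (Int23.match_of A hM) (Int23.trans_of A hM hI)

end Crest.Agent.X262.Chn
end

-- ▼ part X262/Hx56/Ln
section

/-!
# Row 262, ISO (helper56): points on the members of a family of lines

* `Hm φ α`   : the map of points `φ` is induced by the field map `α`;
* `OnL`      : a point lies on the line of the family at a place;
* `lift1`    : every point of the line is a position of the moving point;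
* `exists_pair` : pairs of points on one line lift to the fibre square;
* `dia_nonneg`, `dia_supp` : the diagonal of the fibre square.
-/

set_option autoImplicit false
set_option linter.unusedSectionVars false

noncomputable section

namespace Crest.Agent.X262.Hx56

open Crest.Agent.X277 Crest.Agent.X277.Lef Crest.Agent.X277.AN.G1 Crest.Agent.X277.BD
open Crest.Agent.X277.BD.Br (At On oP at_mxf gn_of_mem)
open Crest.Agent.X277.Cns

variable {L E E' K : Type} [Field L] [Algebra ℂ L] [Field E] [Algebra ℂ E] [Field E']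
  [Algebra ℂ E'] [Field K] [Algebra ℂ K]

/-- the local place `R'` lies over `R` -/
abbrev Dm (R : LP L) (π : L →ₐ[ℂ] E) (R' : LP E) : Prop := R.Dom (R'.comap (Plc.ofHom π))

theorem Dm.mem {R : LP L} {π : L →ₐ[ℂ] E} {R' : LP E} (h : Dm R π R') {f : L} (hf : f ∈ R.O) :
    π f ∈ R'.O := (h.le hf).2

theorem Dm.v {R : LP L} {π : L →ₐ[ℂ] E} {R' : LP E} (h : Dm R π R') {f : L} (hf : f ∈ R.O) :
    R'.v (π f) = R.v f := h.eq f hf

theorem dm_of {R : LP L} {π : L →ₐ[ℂ] E} {R' : LP E}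
    (h : ∀ f ∈ R.O, π f ∈ R'.O ∧ R'.v (π f) = R.v f) : Dm R π R' :=
  ⟨fun f hf => ⟨trivial, (h f hf).1⟩, fun f hf => (h f hf).2⟩

theorem Dm.comp {R : LP L} {π : L →ₐ[ℂ] E} {R' : LP E} {ρ : E →ₐ[ℂ] E'} {R'' : LP E'}
    (h : Dm R π R') (h' : Dm R' ρ R'') : Dm R (ρ.comp π) R'' :=
  dm_of fun _ hf => ⟨h'.mem (h.mem hf), (h'.v (h.mem hf)).trans (h.v hf)⟩

/-- the map of points `φ` is induced by `α` -/
def Hm {Q : PModel ℂ E} {P : PModel ℂ L} (φ : Pts Q → Pts P) (α : L →ₐ[ℂ] E) : Prop :=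
  ∀ x, Dm (lp (φ x)) α (lp x)

section Hm

variable {Q : PModel ℂ E} {P : PModel ℂ L} {Q' : PModel ℂ E'} {φ φ' : Pts Q → Pts P}
  {α : L →ₐ[ℂ] E}

theorem hm_of {μ : Mor Q P} (h : μ.p = Plc.ofHom α) : Hm μ.map α := hom_dom h

theorem Hm.comp {ψ : Pts Q' → Pts Q} {β : E →ₐ[ℂ] E'} (h : Hm φ α) (h' : Hm ψ β) :
    Hm (fun x => φ (ψ x)) (β.comp α) := fun x => (h _).comp (h' x)

theorem Hm.eq {α' : L →ₐ[ℂ] E} (h : Hm φ α) (h' : Hm φ' α') (e : α = α') (x : Pts Q) :
    φ x = φ' x := eq_of_dom (h x) (e ▸ h' x)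

/-- the centre of a local place -/
theorem exists_ctr (Q : PModel ℂ E) (R : LP E) : ∃ w : Pts Q, ∀ {L : Type} [Field L] [Algebra ℂ L]
    {P : PModel ℂ L} {φ : Pts Q → Pts P} {α : L →ₐ[ℂ] E}, Hm φ α → ∀ y, Dm (lp y) α R → φ w = y := by
  obtain ⟨V, h1, h2⟩ := exists_val_dom R
  obtain ⟨w, hw⟩ := exists_ov Q (KV.of_le h1)
  refine ⟨w, fun {_ _ _ _ φ α} h y hy => eq_of_ov (V := cm α V) (fun f hf => hw _ ((h w).mem hf))
    (fun f hf => h1 _ (hy.mem hf)) fun f hf hu => ?_⟩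
  have h3 := (h2 _ (hy.mem hf)).1 ⟨(map_ne_zero α).2 hu.1, hu.2.1, by rw [← map_inv₀]; exact hu.2.2⟩
  rwa [hy.v hf] at h3

end Hm

theorem isRF_mob {π : L →ₐ[ℂ] E} {t : E} (h : IsRF π t) {a b c d : L} (h0 : a * d - c * b ≠ 0) :
    IsRF π ((π c + t * π d) / (π a + t * π b)) := by
  by_cases hb : b = 0
  · subst hb
    rw [mul_zero, sub_zero, mul_ne_zero_iff] at h0
    have := (h.scale (div_ne_zero h0.2 h0.1)).add (c / a)
    convert this using 1
    have h1 := (map_ne_zero π).2 h0.1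
    rw [map_zero, map_div₀, map_div₀, mul_zero, add_zero]
    ring
  · have h1 := (h.scale hb).add a
    have := (h1.inv.scale (div_ne_zero (neg_ne_zero.2 h0) hb)).add (d / b)
    convert this using 1
    have h2 := (map_ne_zero π).2 hb
    have h3 := h1.t_ne
    rw [map_div₀, map_div₀, map_neg, map_sub, map_mul, map_mul, add_comm (π a), mul_comm t (π b),
      ← div_eq_mul_inv, div_add' _ _ _ h3]
    congr 1
    field_simp
    ring

variable {ι : Type}

/-- the Plücker coordinates -/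
def pk (p q : ι → L) (ij : ι × ι) : L := p ij.1 * q ij.2 - p ij.2 * q ij.1

/-- the moving point -/
def mv (π : L →ₐ[ℂ] E) (t : E) (p q : ι → L) (k : ι) : E := π (p k) + t * π (q k)

theorem mv_eq (π : L →ₐ[ℂ] E) (t : E) {p q : ι → L} {i j : ι} (h : pk p q (i, j) ≠ 0) (k : ι) :
    mv π t p q k = mv π t p q i * π (pk p q (k, j) / pk p q (i, j)) +
      mv π t p q j * π (pk p q (i, k) / pk p q (i, j)) := by
  have h1 := (map_ne_zero π).2 h
  rw [map_div₀, map_div₀]
  field_simp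
  simp only [mv, pk, map_sub, map_mul]
  ring

theorem map_pk (ρ : L →ₐ[ℂ] E) (p q : ι → L) (ij : ι × ι) :
    pk (fun k => ρ (p k)) (fun k => ρ (q k)) ij = ρ (pk p q ij) := by
  simp only [pk, map_sub, map_mul]

/-- the point `a` lies on the line at the place `R` -/
structure OnL (R : LP L) (p q : ι → L) (i j : ι) (a : ι → ℂ) : Prop where
  ne : pk p q (i, j) ≠ 0
  mem : ∀ kl, pk p q kl / pk p q (i, j) ∈ R.O
  eq : ∀ k, a k = a i * R.v (pk p q (k, j) / pk p q (i, j)) +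
    a j * R.v (pk p q (i, k) / pk p q (i, j))

variable {R : LP L} {p q : ι → L} {i j : ι} {a : ι → ℂ}

theorem pk_swap (p q : ι → L) (i j : ι) : pk p q (j, i) = -pk p q (i, j) := by simp [pk]

theorem OnL.symm (h : OnL R p q i j a) : OnL R p q j i a := by
  refine ⟨by rw [pk_swap]; exact neg_ne_zero.2 h.ne, fun kl => ?_, fun k => ?_⟩
  · rw [pk_swap p q i j, div_neg]
    exact neg_mem (h.mem kl)
  · rw [pk_swap p q i j, pk_swap p q i k, pk_swap p q k j, neg_div_neg_eq, neg_div_neg_eq, add_comm]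
    exact h.eq k

theorem OnL.map (h : OnL R p q i j a) {ρ : L →ₐ[ℂ] E} {R' : LP E} (hρ : Dm R ρ R') :
    OnL R' (fun k => ρ (p k)) (fun k => ρ (q k)) i j a := by
  refine ⟨by rw [map_pk]; exact (map_ne_zero ρ).2 h.ne, fun kl => ?_, fun k => ?_⟩
  · rw [map_pk, map_pk, ← map_div₀]
    exact hρ.mem (h.mem kl)
  · rw [map_pk, map_pk, map_pk, ← map_div₀, ← map_div₀, hρ.v (h.mem _), hρ.v (h.mem _)]
    exact h.eq k

variable {π : L →ₐ[ℂ] E} {t : E}

theorem lift0 (ht : IsRF π t) (h : OnL R p q i j a) (hi : a i ≠ 0) : ∃ R' : LP E, Dm R π R' ∧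
    ∀ k, mv π t p q k / mv π t p q i ∈ R'.O ∧ R'.v (mv π t p q k / mv π t p q i) = a k / a i := by
  have h1 : IsRF π (mv π t p q j / mv π t p q i) := isRF_mob ht h.ne
  have h2 : mv π t p q i ≠ 0 := (div_ne_zero_iff.1 h1.t_ne).2
  have h3 : Dm R π (lpR h1 R (a j / a i)) := dom_lpR h1 R _
  refine ⟨_, h3, fun k => ?_⟩
  have h4 : mv π t p q k / mv π t p q i = π (pk p q (k, j) / pk p q (i, j)) +
      mv π t p q j / mv π t p q i * π (pk p q (i, k) / pk p q (i, j)) := by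
    rw [mv_eq π t h.ne k]
    field_simp
  have h5 := mul_mem (τ_mem_lpR h1 (L := R) (c := a j / a i)) (h3.mem (h.mem (i, k)))
  refine ⟨h4 ▸ add_mem (h3.mem (h.mem _)) h5, ?_⟩
  rw [h4, LP.v_add _ (h3.mem (h.mem _)) h5, LP.v_mul _ (τ_mem_lpR h1) (h3.mem (h.mem _)),
    lpR_v_τ, h3.v (h.mem _), h3.v (h.mem _), h.eq k]
  field_simp

section Pt

variable {X : PModel ℂ K} {p q : Fin (X.N + 1) → L} {i j n : Fin (X.N + 1)} {κ : K →ₐ[ℂ] E}
  {x : Pts X}

/-- **every point of the line is a position of the moving point** -/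
theorem lift1 (ht : IsRF π t) (hκ : ∀ k l, κ (X.y k / X.y l) = mv π t p q k / mv π t p q l)
    (hx : x ∈ pat X n) (h : OnL R p q i j fun k => ev (X.y k / X.y n) x) :
    ∃ R' : LP E, Dm R π R' ∧ Dm (lp x) κ R' := by
  have key : ∀ i j, OnL R p q i j (fun k => ev (X.y k / X.y n) x) → ev (X.y i / X.y n) x ≠ 0 →
      ∃ R' : LP E, Dm R π R' ∧ Dm (lp x) κ R' := fun i j h hi => by
    obtain ⟨R', h1, h2⟩ := lift0 ht h hi
    refine ⟨R', h1, lp_dom ((mem_pat_iff hx).2 hi) (fun k => ⟨trivial, ?_⟩) fun k => ?_⟩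
    · rw [Plc.ofHom_π, hκ]
      exact (h2 k).1
    · rw [LP.comap_v, Plc.ofHom_π, hκ, (h2 k).2,
        ← div_div_div_cancel_right₀ (X.y_ne n) (X.y k) (X.y i)]
      exact (LP.v_div (y_mem hx k) hi).symm
  by_cases hi : ev (X.y i / X.y n) x = 0
  · refine key j i h.symm fun hj => ?_
    have h1 := h.eq n
    simp only [hi, hj, zero_mul, add_zero, div_self (X.y_ne n)] at h1
    exact one_ne_zero ((lp x).v_one.symm.trans h1)
  · exact key i j h hi

/-- the moving point lies on the line -/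
theorem onL_of (hκ : ∀ k l, κ (X.y k / X.y l) = mv π t p q k / mv π t p q l) (hx : x ∈ pat X n)
    {R' : LP E} (h1 : Dm R π R') (h2 : Dm (lp x) κ R') (h3 : pk p q (i, j) ≠ 0)
    (h4 : ∀ kl, pk p q kl / pk p q (i, j) ∈ R.O) :
    OnL R p q i j fun k => ev (X.y k / X.y n) x := by
  refine ⟨h3, h4, fun k => ?_⟩
  have h5 : κ (X.y k / X.y n) = κ (X.y i / X.y n) * π (pk p q (k, j) / pk p q (i, j)) +
      κ (X.y j / X.y n) * π (pk p q (i, k) / pk p q (i, j)) := by
    rw [hκ, hκ, hκ, mv_eq π t h3 k]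
    ring
  have h6 := fun k => h2.mem (y_mem hx k)
  have h7 := fun kl => h1.mem (h4 kl)
  have h8 := congrArg R'.v h5
  rwa [R'.v_add (mul_mem (h6 _) (h7 _)) (mul_mem (h6 _) (h7 _)), R'.v_mul (h6 _) (h7 _),
    R'.v_mul (h6 _) (h7 _), h2.v (y_mem hx _), h2.v (y_mem hx _), h2.v (y_mem hx _), h1.v (h4 _),
    h1.v (h4 _)] at h8

/-- **pairs of points on one line lift to the fibre square** -/
theorem exists_pair {Y : PModel ℂ L} {P : PModel ℂ E} {W : PModel ℂ E'} (ht : IsRF π t)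
    (hκ : ∀ k l, κ (X.y k / X.y l) = mv π t p q k / mv π t p q l) (hg : Gn Y (pk p q))
    {ε₁ ε₂ : E →ₐ[ℂ] E'} (ht' : IsRF ε₁ (ε₂ t)) (hε : ∀ a, ε₂ (π a) = ε₁ (π a))
    {pm : Pts P → Pts Y} {u : Pts P → Pts X} {e₁ e₂ : Pts W → Pts P} (hp : Hm pm π) (hu : Hm u κ)
    (h₁ : Hm e₁ ε₁) (h₂ : Hm e₂ ε₂) (z₁ z₂ : Pts P) (hz : pm z₁ = pm z₂) :
    ∃ w, pm (e₁ w) = pm z₁ ∧ u (e₁ w) = u z₁ ∧ u (e₂ w) = u z₂ := by
  obtain ⟨⟨i, j⟩, h3, h4⟩ := hg (pm z₁)
  obtain ⟨n₁, hn₁⟩ := exists_pat (u z₁)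
  obtain ⟨n₂, hn₂⟩ := exists_pat (u z₂)
  obtain ⟨R₁, a1, a2⟩ := lift1 ht hκ hn₁ (onL_of hκ hn₁ (hp z₁) (hu z₁) h3 h4)
  obtain ⟨R₂, b1, b2⟩ := lift1 (κ := ε₂.comp κ) ht' (fun k l => by
    rw [AlgHom.comp_apply, hκ]
    simp only [mv, map_div₀, map_add, map_mul, hε]) hn₂
    ((onL_of hκ hn₂ (hz ▸ hp z₂) (hu z₂) h3 h4).map a1)
  obtain ⟨w, hw⟩ := exists_ctr W R₂
  exact ⟨w, hw (hp.comp h₁) _ (a1.comp b1), hw (hu.comp h₁) _ (a2.comp b1), hw (hu.comp h₂) _ b2⟩

end Pt

section Dia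

variable {W : PModel ℂ E} [Fintype ι] {s s' : ι → E}

theorem dia_at (h : Gn W s) (h' : Gn W s') (h'' : Gn W (pk s s')) (w : Pts W) :
    ∃ a b kl, s a ≠ 0 ∧ s' b ≠ 0 ∧ pk s s' kl ≠ 0 ∧ (∀ k, s k / s a ∈ (lp w).O) ∧
      (∀ k, s' k / s' b ∈ (lp w).O) ∧ (∀ k, pk s s' k / pk s s' kl ∈ (lp w).O) ∧
      pk s s' kl / (s a * s' b) ∈ (lp w).O ∧
      At (mxf ℂ s + mxf ℂ s' - mxf ℂ (pk s s')) w (s a * s' b / pk s s' kl) := by
  obtain ⟨a, h1, h2⟩ := h w
  obtain ⟨b, h3, h4⟩ := h' w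
  obtain ⟨kl, h5, h6⟩ := h'' w
  refine ⟨a, b, kl, h1, h3, h5, h2, h4, h6, ?_,
    ((at_mxf h1 h2).add (at_mxf h3 h4)).sub (at_mxf h5 h6)⟩
  rw [pk, sub_div, ← div_mul_div_comm, ← div_mul_div_comm]
  exact sub_mem (mul_mem (h2 _) (h4 _)) (mul_mem (h2 _) (h4 _))

theorem dia_nonneg (h : Gn W s) (h' : Gn W s') (h'' : Gn W (pk s s')) :
    0 ≤ mxf ℂ s + mxf ℂ s' - mxf ℂ (pk s s') := Br.le_of_at (P := W) fun w => by
  obtain ⟨a, b, kl, -, -, -, -, -, -, h1, h2⟩ := dia_at h h' h'' w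
  exact ⟨1, _, Br.at_zero w, h2, by rwa [one_div, inv_div]⟩

end Dia

theorem dia_supp {X : PModel ℂ K} {W : PModel ℂ E} {s s' : Fin (X.N + 1) → E} (h : Gn W s)
    (h' : Gn W s') (h'' : Gn W (pk s s')) {κ κ' : K →ₐ[ℂ] E}
    (hκ : ∀ k l, κ (X.y k / X.y l) = s k / s l) (hκ' : ∀ k l, κ' (X.y k / X.y l) = s' k / s' l)
    {u u' : Pts W → Pts X} (hu : Hm u κ) (hu' : Hm u' κ') (w : Pts W)
    (hw : ¬ At (mxf ℂ s + mxf ℂ s' - mxf ℂ (pk s s')) w 1) : u w = u' w := by
  obtain ⟨a, b, kl, h1, h2, h3, h4, h5, h6, h7, h8⟩ := dia_at h h' h'' w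
  have h9 : (lp w).v (pk s s' kl / (s a * s' b)) = 0 := by
    by_contra h0
    exact hw (h8.of_ev' (by rwa [one_div, inv_div]))
  have h10 : ∀ k l, (lp w).v (s k / s a) * (lp w).v (s' l / s' b) =
      (lp w).v (s l / s a) * (lp w).v (s' k / s' b) := fun k l => by
    have e : s k / s a * (s' l / s' b) - s l / s a * (s' k / s' b) =
        pk s s' (k, l) / pk s s' kl * (pk s s' kl / (s a * s' b)) := by
      rw [div_mul_div_cancel₀ h3, pk]
      field_simp
    rw [← sub_eq_zero, ← LP.v_mul _ (h4 _) (h5 _), ← LP.v_mul _ (h4 _) (h5 _),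
      ← LP.v_sub (mul_mem (h4 _) (h5 _)) (mul_mem (h4 _) (h5 _)), e, LP.v_mul _ (h6 _) h7, h9,
      mul_zero]
  have h11 : ∀ {κ : K →ₐ[ℂ] E} {u : Pts W → Pts X}, Hm u κ → ∀ c,
      (∀ k, κ (X.y k / X.y c) ∈ (lp w).O) → u w ∈ pat X c := fun {κ u} hu c hc =>
    mem_pat_of_dom (hu w) fun k => ⟨trivial, hc k⟩
  have ha := h11 hu a fun k => (hκ k a).symm ▸ h4 k
  have hb := h11 hu' b fun k => (hκ' k b).symm ▸ h5 k
  have h12 : ∀ k, ev (X.y k / X.y a) (u w) = (lp w).v (s k / s a) := fun k => by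
    rw [← hκ, (hu w).v (y_mem ha k)]
  have h13 : ∀ k, ev (X.y k / X.y b) (u' w) = (lp w).v (s' k / s' b) := fun k => by
    rw [← hκ', (hu' w).v (y_mem hb k)]
  have h14 : (lp w).v (s' a / s' b) ≠ 0 := fun h0 => by
    have := h10 a b
    rw [h0, mul_zero, div_self h1, div_self h2, LP.v_one, mul_one] at this
    exact one_ne_zero this
  refine pt_ext ha ((mem_pat_iff hb).2 (h13 a ▸ h14)) fun k => ?_
  have h15 := h10 k a
  rw [div_self h1, LP.v_one, one_mul] at h15
  rw [h12, ← div_div_div_cancel_right₀ (X.y_ne b) (X.y k)]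
  refine Eq.trans ?_ (LP.v_div (y_mem hb k) (show ev _ _ ≠ 0 from h13 a ▸ h14)).symm
  change _ = ev _ _ / ev _ _
  rw [h13, h13, ← h15, mul_div_cancel_right₀ _ h14]

end Crest.Agent.X262.Hx56
end
end

-- ▼ part X262/Hx56/Fld
section

/-!
# Row 262, ISO (helper56): the fields of the family of lines

* `isPF_lines` : `L` is the field of `S × S`;
* `exists_kap` : the moving point is the generic point of the cubic;
* `rf_map`     : functoriality of the rational function field;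
* `num_e`, `num_N` : the two fibre degrees.
-/

set_option autoImplicit false
set_option linter.unusedSectionVars false
set_option linter.style.haveILetI false

open scoped TensorProduct

noncomputable section

namespace Crest.Agent.X262.Hx56

open Crest.Agent.X277 Crest.Agent.X277.Lef Crest.Agent.X277.AN.G1 Crest.Agent.X277.BD
open Crest.Agent.X277.Cns Crest.Agent.R274.Prod1_134 Crest.Agent.X262.Top

variable {F L E E' K : Type} [Field F] [Algebra ℂ F] [Field L] [Algebra ℂ L] [Field E]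
  [Algebra ℂ E] [Field E'] [Algebra ℂ E'] [Field K] [Algebra ℂ K]

theorem inj_of_trdeg {A : Type} [CommRing A] [IsDomain A] [Algebra ℂ A] (Φ : A →ₐ[ℂ] L)
    (h : IntermediateField.adjoin ℂ (Set.range Φ) = ⊤) {d : ℕ} (hA : Algebra.trdeg ℂ A ≤ d)
    (hL : Algebra.trdeg ℂ L = d) : Function.Injective Φ := by
  have := Lin62.alg_of_top h
  obtain ⟨t, h1, h2⟩ := exists_isTranscendenceBasis_subset (R := ℂ) (Set.range Φ)
  choose x hx using fun i : t => h1 i.2
  have h3 : AlgebraicIndependent ℂ (Φ ∘ x) := by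
    convert h2.1
    exact funext hx
  have h4 := h3.of_comp.isTranscendenceBasis_of_trdeg_le (hA.trans_lt Cardinal.natCast_lt_aleph0)
    (hA.trans (hL.symm.trans h2.cardinalMk_eq_trdeg.symm).le)
  refine (injective_iff_map_eq_zero _).2 fun a ha => by_contra fun h0 => ?_
  obtain ⟨⟨b, hb⟩, h5, h6⟩ := (Submodule.ne_bot_iff _).1 (Ideal.comap_ne_bot_of_algebraic_mem
    (I := RingHom.ker Φ) h0 ha (h4.isAlgebraic.isAlgebraic a))
  rw [Algebra.adjoin_range_eq_range_aeval] at hb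
  obtain ⟨p, rfl⟩ := hb
  have h7 : MvPolynomial.aeval (Φ ∘ x) p = 0 :=
    (MvPolynomial.comp_aeval_apply x Φ p).symm.trans h5
  exact h6 (Subtype.ext (by simp [algebraicIndependent_iff.1 h3 p h7]))

variable {G : MvPolynomial (Fin 6) ℂ}

theorem isPF_lines (Λ : Lines G F L) (h : Algebra.trdeg ℂ (PF ℂ F F) = 4) :
    IsPF Λ.ι (Λ.τ.comp Λ.ι) := by
  have h1 : IntermediateField.adjoin ℂ
      (Set.range (Algebra.TensorProduct.productMap Λ.ι (Λ.τ.comp Λ.ι))) = ⊤ :=
    top_unique (Λ.gen ▸ IntermediateField.adjoin.mono _ _ _ (Set.union_subset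
      (by rintro _ ⟨a, rfl⟩; exact ⟨a ⊗ₜ 1, by simp⟩) (by rintro _ ⟨a, rfl⟩; exact ⟨1 ⊗ₜ a, by simp⟩)))
  refine isPF_of_isFr ⟨inj_of_trdeg _ h1 (d := 4) ((trdeg_le_of_injective
    (IsScalarTower.toAlgHom ℂ (F ⊗[ℂ] F) (PF ℂ F F)) (IsFractionRing.injective _ _)).trans h.le)
    Λ.dim, fun x => ?_⟩
  obtain ⟨r, hr, s, hs, e⟩ := IntermediateField.mem_adjoin_iff_div.1
    (h1 ▸ IntermediateField.mem_top : x ∈ IntermediateField.adjoin ℂ _)
  rw [← AlgHom.coe_range, Algebra.adjoin_eq] at hr hs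
  obtain ⟨a, rfl⟩ := hr
  obtain ⟨b, rfl⟩ := hs
  exact ⟨a, b, e⟩

theorem exists_kap (X : Hyp 5 G K) (hG : G.IsHomogeneous 3) {x : Fin 6 → E} (h0 : x 0 ≠ 0)
    (hx : Brg.Hyp0.GP G x) : ∃ κ : K →ₐ[ℂ] E, ∀ k l, κ (X.y k / X.y l) = x k / x l := by
  have h1 : IntermediateField.adjoin ℂ (Set.range ((X.y 0)⁻¹ • X.y)) = ⊤ := top_unique fun f _ => by
    obtain ⟨a, ha, c, hc, -, rfl⟩ := X.frac f
    have h2 : chart ℂ X.y 0 ≤
        (IntermediateField.adjoin ℂ (Set.range ((X.y 0)⁻¹ • X.y))).toSubalgebra :=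
      Algebra.adjoin_le (by
        rintro _ ⟨i, rfl⟩
        exact IntermediateField.subset_adjoin _ _ ⟨i, (div_eq_inv_mul _ _).symm⟩)
    exact div_mem (h2 ha) (h2 hc)
  obtain ⟨κ, hκ⟩ := Lin62.exists_hom h1 (ρ := (x 0)⁻¹ • x) fun q => by
    have h3 := SetLike.ext_iff.1 ((hx.ker hG h0).trans
      (Brg.Hyp0.GP.ker (G := G) (y := X.y) X.ker hG (X.y_ne 0)).symm) q
    rwa [RingHom.mem_ker, RingHom.mem_ker, Subtype.ext_iff, Subtype.ext_iff, Brg.Hyp0.coe_pres,
      Brg.Hyp0.coe_pres] at h3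
  refine ⟨κ, fun k l => ?_⟩
  rw [← mul_div_mul_left (X.y k) _ (inv_ne_zero (X.y_ne 0)), ← mul_div_mul_left (x k) _
    (inv_ne_zero h0), map_div₀]
  exact congrArg₂ _ (hκ k) (hκ l)

/-- functoriality of the rational function field -/
theorem rf_map {π : F →ₐ[ℂ] E} {t : E} (h : IsRF π t) {π' : L →ₐ[ℂ] E'} {t' : E'} (h' : IsRF π' t')
    (ρ : F →ₐ[ℂ] L) : ∃ σ : E →ₐ[ℂ] E', (∀ a, σ (π a) = π' (ρ a)) ∧ σ t = t' := by
  have hi : Function.Injective (evp (π'.comp ρ) t') := (injective_iff_map_eq_zero _).2 fun p hp =>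
    (Polynomial.map_eq_zero (ρ : F →+* L)).1 (h'.eq_zero (by
      rw [evp_apply, Polynomial.eval₂_map]
      exact hp))
  exact ⟨h.lift _ _ hi, h.lift_π _ _ hi, h.lift_t _ _ hi⟩

theorem eft_rat (L : Type) [Field L] : Algebra.EssFiniteType L (RatFunc L) :=
  have := Algebra.EssFiniteType.of_isLocalization (R := Polynomial L) (RatFunc L)
    (nonZeroDivisors (Polynomial L))
  Algebra.EssFiniteType.comp L (Polynomial L) (RatFunc L)

theorem eft_rat' (L : Type) [Field L] [Algebra ℂ L] [Algebra.EssFiniteType ℂ L] :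
    Algebra.EssFiniteType ℂ (RatFunc L) :=
  have := eft_rat L
  Algebra.EssFiniteType.comp ℂ L (RatFunc L)

theorem dim_rat (L : Type) [Field L] [Algebra ℂ L] [Algebra.EssFiniteType ℂ L] :
    dim ℂ (RatFunc L) = dim ℂ L + 1 := by
  have : CharZero L := charZero_of_injective_algebraMap (algebraMap ℂ L).injective
  have := eft_rat L
  have := eft_rat' L
  rw [Loc.dim_tower ℂ L (RatFunc L), Loc.dim_rat RatFunc.transcendental_X RatFunc.adjoin_X]

theorem lin_mxf {k F : Type} [Field k] [Field F] [Algebra k F] {ι : Type} [Fintype ι] {s : ι → F}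
    (h0 : ∃ i, s i ≠ 0) {c : F} (hc : c ≠ 0) : Lin (mxf k fun i => c * s i) (mxf k s) :=
  ⟨c, hc, (eq_mxf (fun i => by
    rw [mul_comm]
    exact mul_mem_Sec (mem_Sec_mxf s i) (mem_Sec_pr c)) fun V => by
      obtain ⟨i, hi⟩ := exists_val_mxf (k := k) h0 V
      exact ⟨i, by rw [val_add, val_pr hc, ← hi, map_mul, mul_comm]⟩).symm⟩

/-- the inclusion of the constants -/
def cst (L : Type) [Field L] [Algebra ℂ L] : L →ₐ[ℂ] RatFunc L :=
  IsScalarTower.toAlgHom ℂ L (RatFunc L)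

theorem pt_eq (Λ : Lines G F L) : Λ.pt = mv (cst L) RatFunc.X Λ.p Λ.q := rfl

theorem pt_zero (Λ : Lines G F L) : Λ.pt 0 = 1 := by simp [Lines.pt, Lines.p, Lines.q]

theorem pt_one (Λ : Lines G F L) : Λ.pt 1 = RatFunc.X := by simp [Lines.pt, Lines.p, Lines.q]

theorem plk_one (Λ : Lines G F L) : pk Λ.p Λ.q (0, 1) = 1 := by simp [pk, Lines.p, Lines.q]

/-- a line has degree one -/
theorem num_e [Algebra.EssFiniteType ℂ L] [Algebra.EssFiniteType ℂ (RatFunc L)] (Λ : Lines G F L)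
    {l : List (BD ℂ L)} (hl : l.length = dim ℂ L) :
    bnum (Λ.xi :: l.map (pb (cst L))) = bnum l := by
  have : CharZero L := charZero_of_injective_algebraMap (algebraMap ℂ L).injective
  have := eft_rat L
  have h1 := Loc.bnum_prj (k := ℂ) (K := L) [Λ.xi] hl
  have h2 : mxf L Λ.pt = mxf L ![1, RatFunc.X] := by
    refine Lin62.mxf_congr ⟨0, pt_zero Λ ▸ one_ne_zero⟩ (fun i => ?_) fun j => ?_
    · have h3 : Λ.pt i = Λ.p i • (1 : RatFunc L) + Λ.q i • RatFunc.X := by
        rw [Lines.pt, Algebra.smul_def, Algebra.smul_def, mul_one, mul_comm]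
        rfl
      rw [h3]
      exact add_mem (Submodule.smul_mem _ _ (Submodule.subset_span ⟨0, rfl⟩))
        (Submodule.smul_mem _ _ (Submodule.subset_span ⟨1, rfl⟩))
    · fin_cases j
      exacts [Submodule.subset_span ⟨0, pt_zero Λ⟩, Submodule.subset_span ⟨1, pt_one Λ⟩]
  rw [List.map_singleton, Lines.xi, up_mxf, h2,
    Loc.bnum_pole_rat RatFunc.transcendental_X RatFunc.adjoin_X, mul_one] at h1
  exact h1

/-- the degree of a class on the fibres -/
theorem num_N [Algebra.EssFiniteType ℂ K] [Algebra.EssFiniteType ℂ E] (κ : K →ₐ[ℂ] E) (g : BD ℂ E)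
    {l : List (BD ℂ K)} (hl : l.length = dim ℂ K) :
    ∃ N : ℤ, bnum (g :: l.map (pb κ)) = bnum l * N := by
  have : CharZero K := charZero_of_injective_algebraMap (algebraMap ℂ K).injective
  letI := κ.toRingHom.toAlgebra
  haveI : IsScalarTower ℂ K E := IsScalarTower.of_algebraMap_eq fun c => (κ.commutes c).symm
  haveI := Algebra.EssFiniteType.of_comp ℂ K E
  exact ⟨_, Loc.bnum_prj (k := ℂ) (K := K) [g] hl⟩

end Crest.Agent.X262.Hx56
end
end

-- ▼ part X262/Hx56/Geo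
section

/-!
# Row 262, ISO (helper56): the models of the family of lines

* `exists_mdl` : a model on which finitely many rational maps are morphisms;
* `exists_ge`  : the geometric data.
-/

set_option autoImplicit false
set_option linter.unusedSectionVars false
set_option linter.style.haveILetI false

noncomputable section

namespace Crest.Agent.X262.Hx56

open Crest.Agent.X277 Crest.Agent.X277.Lef Crest.Agent.X277.AN.G1 Crest.Agent.X277.BD
open Crest.Agent.X277.BD.Br (At On oP morOf morOf_p pb_mem_On oP_mem gn_of_mem)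
open Crest.Agent.X277.Cns Crest.Agent.R274.Prod1_134 Crest.Agent.X262.Top Crest.Agent.X262.Coh

theorem eft (X : SV) : Algebra.EssFiniteType ℂ X.F := inferInstance

theorem exists_mdl {E : Type} [Field E] [Algebra ℂ E] [Algebra.EssFiniteType ℂ E] {A B : SV}
    (α : A.F →ₐ[ℂ] E) (β : B.F →ₐ[ℂ] E) (g : BD ℂ E) : ∃ (Q : PModel ℂ E) (μ : Hom (sv Q) A)
      (ν : Hom (sv Q) B), μ.p = Plc.ofHom α ∧ ν.p = Plc.ofHom β ∧ g ∈ On Q := by
  classical
  obtain ⟨Q, h⟩ := Unf.exists_on {pb α A.h, pb β B.h, g}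
  exact ⟨Q, morOf α (h _ (by simp)), morOf β (h _ (by simp)), rfl, rfl, h _ (by simp)⟩

variable {G : MvPolynomial (Fin 6) ℂ} {F L K : Type} [Field F] [Algebra ℂ F] [Field L]
  [Algebra ℂ L] [Field K] [Algebra ℂ K]

set_option maxHeartbeats 1000000 in
theorem exists_ge (hL : LinStmt) (hG : SmCub G) (Λ : Lines G F L) (S : PModel ℂ F)
    (X : Hyp 5 G K) {U : SV} {q : Hom U (sv X.P)} (hq : Bim q) (dS : dim ℂ F = 2)
    (dK : dim ℂ K = 4) (dSS : ((sv S).prod (sv S)).dim = 4) : Nonempty (Ge q (sv S)) := by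
  haveI : Algebra.EssFiniteType ℂ K := eft (sv X.P)
  haveI : Algebra.EssFiniteType ℂ (PF ℂ F F) := eft ((sv S).prod (sv S))
  have hpf := isPF_lines Λ (by rw [trdeg_eq_dim]; exact_mod_cast dSS)
  set ρ := pfEquiv (isPF ℂ F F) hpf
  haveI : Algebra.EssFiniteType ℂ L := (Algebra.EssFiniteType.iff_of_algEquiv ρ).1 inferInstance
  haveI := eft_rat' L
  haveI := eft_rat' (RatFunc L)
  have dL : dim ℂ L = 4 := by exact_mod_cast trdeg_eq_dim.symm.trans Λ.dim
  obtain ⟨l1, l2, l3⟩ := hL G F L Λ hG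
  obtain ⟨κ, hκ⟩ := exists_kap X hG.1 (pt_zero Λ ▸ one_ne_zero) l1
  obtain ⟨α, hα, hα'⟩ := hq
  let α' := (AlgEquiv.ofBijective α ⟨α.toRingHom.injective, hα'⟩).symm
  have hαα : (κ.comp (α' : U.F →ₐ[ℂ] K)).comp α = κ := AlgHom.ext fun f =>
    congrArg κ ((AlgEquiv.ofBijective α ⟨α.toRingHom.injective, hα'⟩).symm_apply_apply f)
  have rf : IsRF (cst L) RatFunc.X := isRF_ratFunc
  have rf' : IsRF (cst (RatFunc L)) RatFunc.X := isRF_ratFunc
  obtain ⟨σ, σ1, σ2⟩ := rf_map rf rf Λ.τ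
  obtain ⟨ε, ε1, ε2⟩ := rf_map rf rf' (cst L)
  have σ3 : Function.Surjective σ := fun x => ⟨σ x, AlgHom.congr_fun
    (rf.ext (γ := σ.comp σ) (γ' := AlgHom.id ℂ _) (fun a => by simp [σ1, Λ.inv]) (by simp [σ2])) x⟩
  have τa : ∀ i, Λ.τ (Λ.a i) = Λ.a i := fun i =>
    (Λ.fix _).2 (IntermediateField.subset_adjoin _ _ ⟨i, rfl⟩)
  have σ4 : ∀ k, σ (Λ.pt k) = Λ.pt k := fun k => by
    have h1 : Λ.τ (Λ.p k) = Λ.p k := by fin_cases k <;> simp [Lines.p, τa]
    have h2 : Λ.τ (Λ.q k) = Λ.q k := by fin_cases k <;> simp [Lines.q, τa]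
    rw [pt_eq, mv, map_add, map_mul, σ1, σ1, σ2, h1, h2]
  have hpk : ∃ ij, pk Λ.p Λ.q ij ≠ 0 := ⟨(0, 1), plk_one Λ ▸ one_ne_zero⟩
  obtain ⟨Y, r, -, hr, -, hg⟩ := exists_mdl (A := (sv S).prod (sv S)) (B := sv S)
    (ρ : PF ℂ F F →ₐ[ℂ] L) Λ.ι (mxf ℂ (pk Λ.p Λ.q))
  obtain ⟨P, p, uU, hp, huU, -⟩ := exists_mdl (A := sv Y) (B := U) (cst L) (κ.comp α') 0
  obtain ⟨P', n1, n2, hn1, hn2, -⟩ := exists_mdl (A := sv P) (B := sv P) (AlgHom.id ℂ _) σ 0
  obtain ⟨W, e1, e2, he1, he2, -⟩ := exists_mdl (A := sv P) (B := sv P) (cst (RatFunc L)) ε 0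
  set a : BD ℂ K := mxf ℂ fun k => X.y k / X.y 0 with ha
  have la : Lin a (oP X.P) := by
    simp only [ha, div_eq_inv_mul]
    exact lin_mxf (k := ℂ) ⟨0, X.y_ne 0⟩ (inv_ne_zero (X.y_ne 0))
  have ka : pb κ a = Λ.xi := by
    rw [ha, pb_mxf]
    simp only [hκ, pt_zero, div_one]
    rfl
  have hu0 : Hm (Mor.comp q uU).map κ := fun z => by
    rw [Mor.comp_map, ← hαα]
    exact (hm_of hα).comp (hm_of huU) z
  have aon : a ∈ On X.P := la.mem_On oP_mem
  have kon : pb κ (oP X.P) ∈ On P := by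
    rw [← hαα, ← pb_pb]
    exact pb_mem_On huU (pb_mem_On hα oP_mem)
  set u : Hom (sv P) (sv X.P) := morOf κ kon
  have hu : u.p = Plc.ofHom κ := rfl
  have xon : Λ.xi ∈ On P := ka ▸ pb_mem_On hu aon
  have cx : ∀ C : Th, C.MAN → C.pb u (C.hc (sv X.P)) = C.c1 (sv P) Λ.xi := fun C hM => by
    rw [← ka, ← hM.c1_dmn hu aon, hM.c1_lin la oP_mem]
  have σκ : σ.comp κ = κ := by
    have h1 : ∀ f ∈ X.P.A 0, σ (κ f) = κ f := fun f hf =>
      (AlgHom.mem_equalizer (σ.comp κ) κ f).1 (Algebra.adjoin_le (S := AlgHom.equalizer _ _) (by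
        rintro _ ⟨k, rfl⟩
        change σ (κ (_ / _)) = κ (_ / _)
        rw [hκ, map_div₀, σ4, σ4]) hf)
    ext f
    obtain ⟨b, hb, c, hc, -, rfl⟩ := X.frac f
    rw [AlgHom.comp_apply, map_div₀, map_div₀, h1 b hb, h1 c hc]
  set s : Fin 6 → RatFunc (RatFunc L) := fun k => cst _ (Λ.pt k) with hs
  set s' : Fin 6 → RatFunc (RatFunc L) := fun k => ε (Λ.pt k) with hs'
  have m1 : mxf ℂ s = pb (cst _) Λ.xi := (pb_mxf _ _).symm
  have m2 : mxf ℂ s' = pb ε Λ.xi := (pb_mxf _ _).symm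
  have m3 : Lin (mxf ℂ (pk s s')) (pb (cst _) (pb (cst L) (mxf ℂ (pk Λ.p Λ.q)))) := by
    have h1 : (RatFunc.X - cst _ RatFunc.X : RatFunc (RatFunc L)) ≠ 0 := by
      simpa only [map_neg, ← sub_eq_add_neg] using (rf'.add (-RatFunc.X)).t_ne
    rw [pb_mxf, pb_mxf]
    convert lin_mxf (k := ℂ) (s := fun ij => cst _ (cst L (pk Λ.p Λ.q ij)))
      (hpk.imp fun _ h => (map_ne_zero _).2 ((map_ne_zero _).2 h)) h1 with ij
    simp only [hs, hs', pt_eq, mv, pk, map_add, map_mul, map_sub, ε1, ε2]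
    ring
  have o1 : pb (cst _) Λ.xi ∈ On W := pb_mem_On he1 xon
  have o2 : pb ε Λ.xi ∈ On W := pb_mem_On he2 xon
  have o3 := pb_mem_On he1 (pb_mem_On hp hg)
  have p0 : Λ.pt 0 ≠ 0 := pt_zero Λ ▸ one_ne_zero
  have g1 : Gn W s := gn_of_mem ⟨0, (map_ne_zero _).2 p0⟩ (m1 ▸ o1)
  have g2 : Gn W s' := gn_of_mem ⟨0, (map_ne_zero _).2 p0⟩ (m2 ▸ o2)
  have g3 : Gn W (pk s s') := gn_of_mem ⟨(0, 1), by
    simpa [pk, hs, hs', pt_zero, pt_one, ε2, ← sub_eq_add_neg] using
      (rf'.add (-RatFunc.X)).t_ne⟩ (m3.mem_On o3)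
  obtain ⟨N, hN⟩ := num_N κ (pb (cst L) (mxf ℂ (pk Λ.p Λ.q))) (l := [a, a, a, a]) dK.symm
  have n0 : 0 ≤ bnum [a, a, a, a] := bnum_nonneg (by simpa using (free_mxf _).nef)
  have n1' : bnum [Λ.xi, Λ.xi, Λ.xi, Λ.xi, Λ.g] = bnum [a, a, a, a] * N := by
    rw [← hN, pb_mxf]
    simp only [List.map_cons, List.map_nil, ka]
    exact bnum_comm [_, _, _, _] [_]
  rw [n1'] at l2 l3
  have n3 : 0 < N := (pos_iff_pos_of_mul_pos l2).1 (n0.lt_of_ne fun h => by simp [← h] at l2)
  have n4 : N ≤ 36 := by nlinarith [(pos_iff_pos_of_mul_pos l2).2 n3]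
  have hf : Hm (fst (sv S) (sv S)).map (pα ℂ F F) := hm_of rfl
  have hn : Hm (snd (sv S) (sv S)).map (pβ ℂ F F) := hm_of rfl
  refine ⟨{
    Y := sv Y, P := sv P, P' := sv P', W := sv W, r := r, p := p, uU := uU, u := u, n1 := n1
    n2 := n2, e1 := e1, e2 := e2, g := mxf ℂ (pk Λ.p Λ.q)
    D := mxf ℂ s + mxf ℂ s' - mxf ℂ (pk s s'), N := N, dX := dK, dS := dS, dY := dL
    dP := (dim_rat L).trans (by rw [dL])
    dW := (dim_rat _).trans (by rw [dim_rat L, dL])
    r_bim := ⟨_, hr, ρ.surjective⟩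
    p_dmn := ⟨_, hp⟩
    uU_dmn := ⟨_, huU⟩
    qu := fun z => (Mor.comp_map q uU z).symm.trans (hu0.eq (hm_of hu) rfl z)
    n1_bim := ⟨_, hn1, Function.surjective_id⟩
    n2_bim := ⟨_, hn2, σ3⟩
    nu := ((hm_of hu).comp (hm_of hn1)).eq ((hm_of hu).comp (hm_of hn2)) σκ.symm
    nr1 := (((hf.comp (hm_of hr)).comp (hm_of hp)).comp (hm_of hn1)).eq
      (((hn.comp (hm_of hr)).comp (hm_of hp)).comp (hm_of hn2)) (AlgHom.ext fun f => ?_)
    nr2 := (((hn.comp (hm_of hr)).comp (hm_of hp)).comp (hm_of hn1)).eq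
      (((hf.comp (hm_of hr)).comp (hm_of hp)).comp (hm_of hn2)) (AlgHom.ext fun f => ?_)
    ee := ((hm_of hp).comp (hm_of he1)).eq ((hm_of hp).comp (hm_of he2))
      (AlgHom.ext fun f => (ε1 f).symm)
    rng := exists_pair (X := X.P) rf hκ (gn_of_mem hpk hg) (ε2 ▸ rf') ε1 (hm_of hp) (hm_of hu)
      (hm_of he1) (hm_of he2)
    g_on := hg
    D_on := sub_mem (add_mem (m1 ▸ o1) (m2 ▸ o2)) (m3.mem_On o3)
    D_nn := dia_nonneg g1 g2 g3
    supp := dia_supp (X := X.P) g1 g2 g3 (fun k l => by rw [AlgHom.comp_apply, hκ, map_div₀])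
      (fun k l => by rw [AlgHom.comp_apply, hκ, map_div₀]) ((hm_of hu).comp (hm_of he1))
      ((hm_of hu).comp (hm_of he2))
    cD := fun C hM => ?_
    ne := fun C hM => ?_
    nN := fun C hM => ?_
    N_pos := n3
    N_le := n4 }⟩
  · simp [ρ, σ1, Λ.inv]
  · simp [ρ, σ1]
  · rw [m1, m2, hM.c1_sub (X := sv W) (add_mem o1 o2) (m3.mem_On o3), hM.c1_lin (X := sv W) m3 o3,
      hM.c1_add (sv W) _ o1 _ o2, cx C hM, hM.c1_dmn he1 xon, hM.c1_dmn he2 xon, hM.c1_dmn hp hg,
      hM.c1_dmn he1 (pb_mem_On hp hg)]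
  · have h1 := hM.c1_num (sv P) (Λ.xi :: [oP Y, oP Y, oP Y, oP Y].map (pb (cst L))) (by
      simpa using ⟨xon, pb_mem_On hp oP_mem⟩)
    have h2 := hM.c1_num (sv Y) [oP Y, oP Y, oP Y, oP Y] (by simpa using oP_mem)
    rw [num_e Λ (l := [oP Y, oP Y, oP Y, oP Y]) dL.symm, ← h2] at h1
    rw [cx C hM, map_pow, hM.c1_dmn hp oP_mem]
    convert h1 using 2 <;> simp only [List.map_cons, List.map_nil, List.prod_cons, List.prod_nil] <;>
      ring
  · have h1 := hM.c1_num (sv P) (pb (cst L) (mxf ℂ (pk Λ.p Λ.q)) :: [a, a, a, a].map (pb κ)) (by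
      simpa using ⟨pb_mem_On hp hg, pb_mem_On hu aon⟩)
    have h2 := hM.c1_num (sv X.P) [a, a, a, a] (by simpa using aon)
    rw [hN, Int.cast_mul, ← h2, mul_comm] at h1
    rw [map_pow, cx C hM, hM.c1_dmn hp hg, Th.hc, ← hM.c1_lin la oP_mem]
    convert h1 using 2
    · simp only [List.map_cons, List.map_nil, List.prod_cons, List.prod_nil, ka]
      ring
    · simp only [List.map_cons, List.map_nil, List.prod_cons, List.prod_nil]
      congr 1
      ring

end Crest.Agent.X262.Hx56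
end
end

-- ▼ part X262/Lin62/Tri
section

/-!
# Row 262, LIN (helper62), part 1: the trilinear form of a cubic, smoothness over extension fields,
no linear `P³` on a smooth cubic fourfold
-/

set_option autoImplicit false
set_option linter.unusedSectionVars false

open MvPolynomial Finset

noncomputable section

namespace Crest.Agent.X262.Lin62

variable {σ : Type} [Fintype σ]

theorem pderiv_comm (i j : σ) (p : MvPolynomial σ ℂ) :
    pderiv i (pderiv j p) = pderiv j (pderiv i p) := by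
  classical
  induction p using MvPolynomial.induction_on with
  | C a => simp
  | add p q hp hq => simp [hp, hq]
  | mul_X p l hp =>
    simp only [Derivation.leibniz, smul_eq_mul, map_add, hp, pderiv_X, Pi.single_apply]
    split_ifs <;> simp <;> ring

/-- the coefficients of the polar form -/
def cf (G : MvPolynomial σ ℂ) (i j l : σ) : ℂ :=
  6⁻¹ * coeff 0 (pderiv l (pderiv j (pderiv i G)))

theorem cf_12 (G : MvPolynomial σ ℂ) (i j l : σ) : cf G i j l = cf G j i l := by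
  rw [cf, cf, pderiv_comm j i]

theorem cf_23 (G : MvPolynomial σ ℂ) (i j l : σ) : cf G i j l = cf G i l j := by
  rw [cf, cf, pderiv_comm l j]

variable {R : Type} [CommRing R] [Algebra ℂ R]

/-- the polar form -/
def tri (G : MvPolynomial σ ℂ) (x y z : σ → R) : R :=
  ∑ i, ∑ j, ∑ l, algebraMap ℂ R (cf G i j l) * (x i * y j * z l)

variable {G : MvPolynomial σ ℂ}

theorem tri_12 (x y z : σ → R) : tri G x y z = tri G y x z := by
  rw [tri, tri, sum_comm]
  exact sum_congr rfl fun i _ => sum_congr rfl fun j _ => sum_congr rfl fun l _ => by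
    rw [cf_12]; ring

theorem tri_23 (x y z : σ → R) : tri G x y z = tri G x z y := by
  refine sum_congr rfl fun i _ => ?_
  rw [sum_comm]
  exact sum_congr rfl fun j _ => sum_congr rfl fun l _ => by rw [cf_23]; ring

theorem tri_13 (x y z : σ → R) : tri G x y z = tri G z y x := by
  rw [tri_12, tri_23, tri_12]

theorem tri_add1 (x x' y z : σ → R) : tri G (x + x') y z = tri G x y z + tri G x' y z := by
  simp only [tri, Pi.add_apply, add_mul, mul_add, sum_add_distrib]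

theorem tri_smul1 (c : R) (x y z : σ → R) : tri G (c • x) y z = c * tri G x y z := by
  simp only [tri, Pi.smul_apply, smul_eq_mul, mul_sum]
  exact sum_congr rfl fun i _ => sum_congr rfl fun j _ => sum_congr rfl fun l _ => by ring

theorem tri_add2 (x y y' z : σ → R) : tri G x (y + y') z = tri G x y z + tri G x y' z := by
  rw [tri_12, tri_add1, tri_12 y, tri_12 y']

theorem tri_smul2 (c : R) (x y z : σ → R) : tri G x (c • y) z = c * tri G x y z := by
  rw [tri_12, tri_smul1, tri_12]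

theorem tri_add3 (x y z z' : σ → R) : tri G x y (z + z') = tri G x y z + tri G x y z' := by
  rw [tri_13, tri_add1, tri_13 z, tri_13 z']

theorem tri_smul3 (c : R) (x y z : σ → R) : tri G x y (c • z) = c * tri G x y z := by
  rw [tri_13, tri_smul1, tri_13]

theorem map_tri {S : Type} [CommRing S] [Algebra ℂ S] (φ : R →ₐ[ℂ] S) (x y z : σ → R) :
    φ (tri G x y z) = tri G (fun i => φ (x i)) (fun i => φ (y i)) fun i => φ (z i) := by
  simp [tri]

/-- the polar form is linear in the last variable -/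
theorem tri_eq_sum [DecidableEq σ] (x y z : σ → R) :
    tri G x y z = ∑ l, tri G x y (Pi.single l 1) * z l := by
  have h : ∀ l, tri G x y (Pi.single l 1) =
      ∑ i, ∑ j, algebraMap ℂ R (cf G i j l) * (x i * y j) := fun l =>
    sum_congr rfl fun i _ => sum_congr rfl fun j _ => by
      rw [sum_eq_single l] <;> simp +contextual
  simp only [h, sum_mul]
  rw [sum_comm]
  refine sum_congr rfl fun i _ => ?_
  rw [sum_comm]
  exact sum_congr rfl fun j _ => sum_congr rfl fun l _ => by ring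

/-- the cube of a sum -/
theorem tri_cube (c : R) (x v : σ → R) : tri G (c • x + v) (c • x + v) (c • x + v) =
    c ^ 3 * tri G x x x + 3 * c ^ 2 * tri G x x v + 3 * c * tri G v v x + tri G v v v := by
  simp only [tri_add1, tri_add2, tri_add3, tri_smul1, tri_smul2, tri_smul3]
  rw [tri_23 x v x, tri_13 v x x, tri_13 x v v, tri_23 v x v]
  ring

section Hom

variable (hG : G.IsHomogeneous 3)
include hG

theorem pd3 (i j l : σ) : pderiv l (pderiv j (pderiv i G)) = C (6 * cf G i j l) := by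
  have h : (pderiv l (pderiv j (pderiv i G))).IsHomogeneous 0 := hG.pderiv.pderiv.pderiv
  rw [← totalDegree_zero_iff_isHomogeneous, totalDegree_eq_zero_iff_eq_C] at h
  rw [h, cf]
  congr 1
  simp

theorem pd2 (i j : σ) : pderiv j (pderiv i G) = ∑ l, C (6 * cf G i j l) * X l := by
  have h : (pderiv j (pderiv i G)).IsHomogeneous 1 := hG.pderiv.pderiv
  rw [← one_smul ℕ (pderiv j (pderiv i G)), ← h.sum_X_mul_pderiv]
  exact sum_congr rfl fun l _ => by rw [pd3 hG, mul_comm]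

theorem pd1 (i : σ) : pderiv i G = ∑ j, ∑ l, C (3 * cf G i j l) * (X j * X l) := by
  have h : (pderiv i G).IsHomogeneous 2 := hG.pderiv
  have h2 := h.sum_X_mul_pderiv
  refine smul_right_injective _ (two_ne_zero (α := ℂ)) ?_
  simp only [smul_sum]
  rw [two_smul, ← two_nsmul, ← h2]
  refine sum_congr rfl fun j _ => ?_
  rw [pd2 hG, mul_sum]
  refine sum_congr rfl fun l _ => ?_
  rw [smul_eq_C_mul, ← mul_assoc (C 2), ← C_mul]
  ring_nf

theorem aeval_pd [DecidableEq σ] (x : σ → R) (i : σ) :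
    aeval x (pderiv i G) = 3 * tri G x x (Pi.single i 1) := by
  have h : tri G (Pi.single i 1) x x = ∑ j, ∑ l, algebraMap ℂ R (cf G i j l) * (x j * x l) := by
    rw [tri, sum_eq_single i] <;> simp +contextual
  rw [tri_13, h, pd1 hG]
  simp only [map_sum, map_mul, aeval_C, aeval_X, mul_sum, map_ofNat]
  exact sum_congr rfl fun j _ => sum_congr rfl fun l _ => by ring

theorem aeval_eq (x : σ → R) : aeval x G = tri G x x x := by
  classical
  have h : G = ∑ i, ∑ j, ∑ l, C (cf G i j l) * (X i * X j * X l) := by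
    refine smul_right_injective _ (three_ne_zero (α := ℂ)) ?_
    simp only [smul_sum]
    rw [show (3 : ℂ) • G = 3 • G by rw [← Nat.cast_smul_eq_nsmul ℂ]; rfl, ← hG.sum_X_mul_pderiv]
    refine sum_congr rfl fun i _ => ?_
    rw [pd1 hG, mul_sum]
    refine sum_congr rfl fun j _ => ?_
    rw [mul_sum]
    refine sum_congr rfl fun l _ => ?_
    rw [smul_eq_C_mul, C_mul]
    ring
  conv_lhs => rw [h]
  simp [tri]

end Hom

/-- no singular point over any extension field -/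
def SmF (G : MvPolynomial σ ℂ) : Prop := ∀ (E : Type) [Field E] [Algebra ℂ E] (y : σ → E),
  (∀ u, tri G y y u = 0) → y = 0

theorem smF (hG : G.IsHomogeneous 3)
    (hs : ∀ p : σ → ℂ, p ≠ 0 → eval p G = 0 → ∃ i, eval p (pderiv i G) ≠ 0) : SmF G := by
  classical
  intro E _ _ y hy
  ext a
  let I : Ideal (MvPolynomial σ ℂ) := Ideal.span (Set.range fun i => pderiv i G)
  have h1 : (X a : MvPolynomial σ ℂ) ∈ vanishingIdeal ℂ (zeroLocus ℂ I) := by
    rw [mem_vanishingIdeal_iff]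
    intro p hp
    have h2 : ∀ i, aeval p (pderiv i G) = 0 := fun i => hp _ (Ideal.subset_span ⟨i, rfl⟩)
    have h3 : aeval p G = 0 := by
      rw [aeval_eq hG, tri_eq_sum]
      refine sum_eq_zero fun l _ => ?_
      have := h2 l
      rw [aeval_pd hG] at this
      rw [(mul_eq_zero.1 this).resolve_left three_ne_zero, zero_mul]
    by_contra h0
    obtain ⟨i, hi⟩ := hs p (fun h => h0 (by simp [h])) h3
    exact hi (h2 i)
  rw [vanishingIdeal_zeroLocus_eq_radical] at h1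
  obtain ⟨n, hn⟩ := h1
  have h4 : I ≤ RingHom.ker (aeval y : MvPolynomial σ ℂ →ₐ[ℂ] E) := Ideal.span_le.2 (by
    rintro _ ⟨i, rfl⟩
    change aeval y (pderiv i G) = 0
    rw [aeval_pd hG, hy, mul_zero])
  have h5 : aeval y ((X a : MvPolynomial σ ℂ) ^ n) = 0 := h4 hn
  rw [map_pow, aeval_X] at h5
  exact eq_zero_of_pow_eq_zero h5

theorem coeffs_zero {E : Type} [Field E] [CharZero E] {a b c d : E}
    (h : ∀ t : E, t ^ 3 * a + 3 * t ^ 2 * b + 3 * t * c + d = 0) :
    a = 0 ∧ b = 0 ∧ c = 0 ∧ d = 0 := by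
  have h0 := h 0
  have h1 := h 1
  have h2 := h (-1)
  have h3 := h 2
  have hd : d = 0 := by linear_combination h0
  have hb : b = 0 := by linear_combination (h1 + h2 - 2 * h0) / 6
  have hc : c = 0 := by linear_combination (8 * h1 - h3 - 7 * h0 - 12 * hb) / 18
  exact ⟨by linear_combination h1 - 3 * hb - 3 * hc - hd, hb, hc, hd⟩

/-- a smooth cubic contains no linear space of small codimension -/
theorem no_lin (hs : SmF G) {Ω : Type} [Field Ω] [Algebra ℂ Ω] [IsAlgClosed Ω]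
    (W : Submodule Ω (σ → Ω)) (hW : Fintype.card σ < 2 * Module.finrank Ω W)
    (h : ∀ y ∈ W, tri G y y y = 0) : False := by
  classical
  have : CharZero Ω := charZero_of_injective_algebraMap (algebraMap ℂ Ω).injective
  obtain ⟨W', hW'⟩ := W.exists_isCompl
  have hr := Submodule.finrank_add_eq_of_isCompl hW'
  rw [Module.finrank_fintype_fun_eq_card] at hr
  let b := Module.finBasis Ω W
  let u := Module.finBasis Ω W'
  let Y : σ → MvPolynomial (Fin (Module.finrank Ω W)) Ω := fun i => ∑ a, X a * C ((b a : σ → Ω) i)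
  let Q : Fin (Module.finrank Ω W') → MvPolynomial (Fin (Module.finrank Ω W)) Ω :=
    fun r => tri G Y Y fun i => C ((u r : σ → Ω) i)
  have hev : ∀ c r, eval c (Q r) = tri G (∑ a, c a • (b a : σ → Ω)) (∑ a, c a • (b a : σ → Ω))
      (u r : σ → Ω) := fun c r => by
    have := map_tri (G := G) ((aeval c : MvPolynomial _ Ω →ₐ[Ω] Ω).restrictScalars ℂ) Y Y
      fun i => C ((u r : σ → Ω) i)
    have e : (fun i => (aeval c : MvPolynomial _ Ω →ₐ[Ω] Ω).restrictScalars ℂ (Y i)) =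
        ∑ a, c a • (b a : σ → Ω) := by
      ext i; simp [Y]
    rw [e] at this
    simpa [Q] using this
  obtain ⟨c, hc, hq⟩ := Brg.Cubic.exists_common_zero (univ.image Q)
    ((card_image_le.trans_eq (by simp)).trans_lt (by omega : Module.finrank Ω W' < _)) 0 (by
      intro g hg
      obtain ⟨r, -, rfl⟩ := mem_image.1 hg
      rw [hev]
      simp [tri])
  set y := ∑ a, c a • (b a : σ → Ω) with hy
  have hyW : y ∈ W := W.sum_mem fun a _ => W.smul_mem _ (b a).2
  have h1 : ∀ w ∈ W, tri G y y w = 0 := fun w hw =>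
    (coeffs_zero fun t => by rw [← tri_cube]; exact h _ (W.add_mem (W.smul_mem t hyW) hw)).2.1
  have h2 : ∀ w ∈ W', tri G y y w = 0 := fun w hw => by
    have e := congrArg (fun z : W' => (z : σ → Ω)) (u.sum_repr ⟨w, hw⟩)
    simp only [Submodule.coe_sum, Submodule.coe_smul] at e
    rw [← e]
    refine Finset.sum_induction _ (fun z => tri G y y z = 0) (fun a b ha hb => by
      rw [tri_add3, ha, hb, add_zero]) (by simp [tri]) fun r _ => ?_
    rw [tri_smul3, ← hev, hq _ (mem_image_of_mem _ (mem_univ r)), mul_zero]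
  have h3 : y = 0 := hs Ω y fun z => by
    obtain ⟨w, hw, w', hw', rfl⟩ := Submodule.mem_sup.1 (hW'.sup_eq_top ▸ Submodule.mem_top (x := z))
    rw [tri_add3, h1 w hw, h2 w' hw', add_zero]
  refine hc (funext fun a => Fintype.linearIndependent_iff.1 b.linearIndependent c ?_ a)
  exact Subtype.ext (by simpa [hy] using h3)

end Crest.Agent.X262.Lin62
end
end

-- ▼ part X262/Lin62/Cone
section

/-!
# Row 262, LIN (helper62), part 3: the cone of the lines through a point of a smooth cubic fourfold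

For a point `x = (1 : ⋯)` of the cubic the directions `y = (0 : 1 : ⋯)` tangent at `x` are
parametrised by `pv`; the lines through `x` are cut by a quadric `Qt` and a cubic `Ct`.
* `not_dvd_Ct` : they have no common factor;
* `eckardt`    : the quadric is not zero at the generic point of a line.
-/

set_option autoImplicit false
set_option linter.unusedSectionVars false

open MvPolynomial Finset

noncomputable section

namespace Crest.Agent.X262.Lin62

variable {k R : Type} [Field k] [Field R] [Algebra ℂ k] [Algebra ℂ R]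
  {G : MvPolynomial (Fin 6) ℂ}

/-- the gradient -/
def gm (G : MvPolynomial (Fin 6) ℂ) (x : Fin 6 → R) (i : Fin 6) : R := tri G x x (Pi.single i 1)

theorem tri_gm (x y : Fin 6 → R) : tri G x x y = ∑ i, gm G x i * y i := tri_eq_sum x x y

/-- generators of the hyperplane `γ = 0` -/
def ee (γ : Fin 6 → R) (J i : Fin 6) : Fin 6 → R := Pi.single i 1 - (γ i / γ J) • Pi.single J 1

/-- the free coordinates -/
def sg (j : Fin 4) (r : Fin 3) : Fin 6 := (j.succAbove r).succ.succ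

/-- the tangent directions -/
def pv (γ : Fin 6 → R) (j : Fin 4) (w : Fin 3 → R) : Fin 6 → R :=
  ee γ j.succ.succ 1 + ∑ r, w r • ee γ j.succ.succ (sg j r)

/-- the generic tangent direction -/
def qv (γ : Fin 6 → k) (j : Fin 4) (i : Fin 6) : MvPolynomial (Fin 3) k :=
  C (ee γ j.succ.succ 1 i) + ∑ r, X r * C (ee γ j.succ.succ (sg j r) i)

/-- the quadric -/
def Qt (G : MvPolynomial (Fin 6) ℂ) (x : Fin 6 → k) (j : Fin 4) : MvPolynomial (Fin 3) k :=
  tri G (qv (gm G x) j) (qv (gm G x) j) fun i => C (x i)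

/-- the cubic -/
def Ct (G : MvPolynomial (Fin 6) ℂ) (x : Fin 6 → k) (j : Fin 4) : MvPolynomial (Fin 3) k :=
  tri G (qv (gm G x) j) (qv (gm G x) j) (qv (gm G x) j)

theorem tri_ee {x : Fin 6 → R} {J : Fin 6} (h : gm G x J ≠ 0) (i : Fin 6) :
    tri G x x (ee (gm G x) J i) = 0 := by
  rw [ee, sub_eq_add_neg, ← neg_smul, tri_add3, tri_smul3]
  change gm G x i + _ * gm G x J = 0
  field_simp
  ring

theorem tri_pv {x : Fin 6 → R} {j : Fin 4} (h : gm G x j.succ.succ ≠ 0) (w : Fin 3 → R) :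
    tri G x x (pv (gm G x) j w) = 0 := by
  simp only [pv, Fin.sum_univ_three, tri_add3, tri_smul3, tri_ee h, mul_zero, add_zero]

theorem eq_pv {γ y : Fin 6 → R} {j : Fin 4} (h : γ j.succ.succ ≠ 0) (h0 : y 0 = 0) (h1 : y 1 = 1)
    (h2 : ∑ i, γ i * y i = 0) : y = pv γ j fun r => y (sg j r) := by
  have h3 : ∑ i, y i • ee γ j.succ.succ i = y := by
    simp only [ee, smul_sub, sum_sub_distrib, smul_smul, ← sum_smul, mul_comm (y _),
      div_mul_eq_mul_div, ← sum_div, h2, zero_div, zero_smul, sub_zero]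
    ext i
    simp [Pi.single_apply]
  have h4 : ee γ j.succ.succ j.succ.succ = 0 := by rw [ee, div_self h, one_smul, sub_self]
  conv_lhs => rw [← h3, Fin.sum_univ_succ, Fin.sum_univ_succ, Fin.sum_univ_succAbove _ j]
  rw [h0, h4, zero_smul, smul_zero, zero_add, zero_add, Fin.succ_zero_eq_one, h1, one_smul]
  rfl

theorem deg_tri {a b c : Fin 6 → MvPolynomial (Fin 3) k} {l m n : ℕ}
    (ha : ∀ i, (a i).totalDegree ≤ l) (hb : ∀ i, (b i).totalDegree ≤ m)
    (hc : ∀ i, (c i).totalDegree ≤ n) : (tri G a b c).totalDegree ≤ l + m + n := by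
  refine totalDegree_finsetSum_le fun i _ => totalDegree_finsetSum_le fun j _ =>
    totalDegree_finsetSum_le fun r _ => (totalDegree_mul _ _).trans ?_
  rw [MvPolynomial.algebraMap_apply, totalDegree_C, zero_add]
  exact (totalDegree_mul _ _).trans (add_le_add
    ((totalDegree_mul _ _).trans (add_le_add (ha i) (hb j))) (hc r))

theorem deg_qv (γ : Fin 6 → k) (j : Fin 4) (i : Fin 6) : (qv γ j i).totalDegree ≤ 1 := by
  refine (totalDegree_add _ _).trans (max_le (by simp) (totalDegree_finsetSum_le fun r _ =>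
    (totalDegree_mul _ _).trans (by simp)))

theorem deg_Qt (x : Fin 6 → k) (j : Fin 4) : (Qt G x j).totalDegree ≤ 2 :=
  deg_tri (l := 1) (m := 1) (n := 0) (deg_qv _ j) (deg_qv _ j) fun i => by simp

theorem deg_Ct (x : Fin 6 → k) (j : Fin 4) : (Ct G x j).totalDegree ≤ 3 :=
  deg_tri (l := 1) (m := 1) (n := 1) (deg_qv _ j) (deg_qv _ j) (deg_qv _ j)

section Map

variable [Algebra k R] [IsScalarTower ℂ k R]

theorem map_gm (x : Fin 6 → k) (i : Fin 6) :
    algebraMap k R (gm G x i) = gm G (fun i => algebraMap k R (x i)) i := by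
  refine (map_tri (IsScalarTower.toAlgHom ℂ k R) _ _ _).trans ?_
  congr 1
  funext l
  simp [Pi.single_apply]

theorem aeval_qv (x : Fin 6 → k) (j : Fin 4) (w : Fin 3 → R) :
    (fun i => (aeval w : _ →ₐ[k] R).restrictScalars ℂ (qv (gm G x) j i)) =
      pv (gm G fun i => algebraMap k R (x i)) j w := by
  funext i
  simp [qv, pv, ee, ← map_gm, Pi.single_apply, apply_ite (algebraMap k R)]

theorem aeval_Qt (x : Fin 6 → k) (j : Fin 4) (w : Fin 3 → R) : aeval w (Qt G x j) =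
    tri G (pv (gm G fun i => algebraMap k R (x i)) j w)
      (pv (gm G fun i => algebraMap k R (x i)) j w) fun i => algebraMap k R (x i) := by
  refine (map_tri ((aeval w : _ →ₐ[k] R).restrictScalars ℂ) _ _ _).trans ?_
  rw [aeval_qv]
  simp

theorem aeval_Ct (x : Fin 6 → k) (j : Fin 4) (w : Fin 3 → R) : aeval w (Ct G x j) =
    tri G (pv (gm G fun i => algebraMap k R (x i)) j w)
      (pv (gm G fun i => algebraMap k R (x i)) j w)
      (pv (gm G fun i => algebraMap k R (x i)) j w) := by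
  refine (map_tri ((aeval w : _ →ₐ[k] R).restrictScalars ℂ) _ _ _).trans ?_
  rw [aeval_qv]

end Map

/-- the cubic does not contain an affine hyperplane of an affine hyperplane -/
theorem no_aff (hs : SmF G) [IsAlgClosed R] {b : Fin 5 → Fin 6 → R} (hb : LinearIndependent R b)
    (β : Fin 5 → R) {y1 : Fin 5 → R} (h0 : y1 0 = 1) (h1 : ∑ i, β i * y1 i = 0)
    (h : ∀ y : Fin 5 → R, y 0 = 1 → ∑ i, β i * y i = 0 →
      tri G (∑ i, y i • b i) (∑ i, y i • b i) (∑ i, y i • b i) = 0) : False := by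
  have : CharZero R := charZero_of_injective_algebraMap (algebraMap ℂ R).injective
  let φ := Fintype.linearCombination R b
  let ψ := Fintype.linearCombination R β
  have hψ : ∀ y, ψ y = ∑ i, β i * y i := fun y => by
    simp [ψ, Fintype.linearCombination_apply, mul_comm]
  refine no_lin hs ((LinearMap.ker ψ).map φ) ?_ ?_
  · have h2 := ψ.finrank_range_add_finrank_ker
    have h3 := (LinearMap.range ψ).finrank_le
    rw [← (Submodule.equivMapOfInjective φ hb.fintypeLinearCombination_injective _).finrank_eq]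
    simp only [Module.finrank_self, Module.finrank_fintype_fun_eq_card, Fintype.card_fin] at h2 h3 ⊢
    omega
  · rintro _ ⟨y, hy, rfl⟩
    have h2 := coeffs_zero (a := tri G (φ (y - y 0 • y1)) (φ (y - y 0 • y1)) (φ (y - y 0 • y1)))
      fun t => by
        rw [← tri_cube (v := φ y1), ← map_smul, ← map_add]
        refine h _ (by simp [h0]) ?_
        rw [← hψ, map_add, map_smul, map_sub, map_smul, hψ y1, h1, LinearMap.mem_ker.1 hy]
        simp
    have h3 : φ y = y 0 • φ y1 + φ (y - y 0 • y1) := by simp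
    rw [h3, tri_cube, h2.1, h2.2.1, h2.2.2.1, h2.2.2.2]
    simp

theorem aff {l : MvPolynomial (Fin 3) k} (h : l.totalDegree ≤ 1) :
    ∃ (a : k) (b : Fin 3 → k), l = C a + ∑ i, b i • X i := by
  obtain ⟨b, hb⟩ := (Submodule.mem_span_range_iff_exists_fun k).1
    ((homogeneousSubmodule_one_eq_span_X (σ := Fin 3) (R := k)).le (homogeneousComponent_mem 1 l))
  refine ⟨coeff 0 l, b, ?_⟩
  rw [hb, ← homogeneousComponent_zero, ← sum_range_one fun i => homogeneousComponent i l,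
    ← sum_range_succ fun i => homogeneousComponent i l]
  conv_lhs => rw [← sum_homogeneousComponent l]
  exact sum_subset (range_subset_range.2 (by omega)) fun i _ hi =>
    homogeneousComponent_eq_zero _ _ (by simpa using hi)

theorem indep {γ x : Fin 6 → R} (j : Fin 4) (h0 : x 0 = 1) : LinearIndependent R
    (Fin.cons (ee γ j.succ.succ 1) (Fin.cons x fun r => ee γ j.succ.succ (sg j r)) :
      Fin 5 → Fin 6 → R) := by
  rw [Fintype.linearIndependent_iff]
  intro g hg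
  rw [Fin.sum_univ_succ, Fin.sum_univ_succ] at hg
  have h1 : g (Fin.succ 0) = 0 := by
    simpa [ee, sg, h0, Pi.single_apply, (Fin.succ_ne_zero _).symm] using congrFun hg 0
  have h2 : ∀ i : Fin 4, (1 : Fin 6) ≠ i.succ.succ := fun i =>
    (Fin.succ_injective _).ne (Fin.succ_ne_zero i).symm
  refine Fin.cases ?_ (Fin.cases h1 fun r => ?_)
  · have := congrFun hg 1
    rw [h1] at this
    simpa [ee, sg, Pi.single_apply, h2] using this
  · have := congrFun hg (sg j r)
    rw [h1] at this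
    simpa [ee, sg, Pi.single_apply, (h2 _).symm] using this

/-- the quadric and the cubic have no common factor -/
theorem not_dvd_Ct (hs : SmF G) {x : Fin 6 → k} {j : Fin 4} (h0 : x 0 = 1)
    (hx : tri G x x x = 0) (hj : gm G x j.succ.succ ≠ 0) (hQ : Qt G x j ≠ 0)
    {f : MvPolynomial (Fin 3) k} (hf : Prime f) (h1 : f ∣ Qt G x j) : ¬ f ∣ Ct G x j := by
  have : CharZero k := charZero_of_injective_algebraMap (algebraMap ℂ k).injective
  rintro ⟨l, hl⟩
  obtain ⟨r, hr⟩ := h1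
  have key : ∃ (α a : k) (b : Fin 3 → k), (α ≠ 0 ∨ ∃ i, b i ≠ 0) ∧
      ∀ (c : AlgebraicClosure k) (w : Fin 3 → AlgebraicClosure k),
        algebraMap k _ α * c + aeval w (C a + ∑ i, b i • X i) = 0 →
          3 * c * aeval w (Qt G x j) + aeval w (Ct G x j) = 0 := by
    by_cases hd : f.totalDegree ≤ 1
    · obtain ⟨a, b, rfl⟩ := aff hd
      refine ⟨0, a, b, Or.inr (by_contra fun h => hf.not_isUnit ?_), fun c w h => ?_⟩
      · have h2 : ∀ i, b i = 0 := fun i => not_not.1 (not_exists.1 h i)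
        have h3 := hf.ne_zero
        simp only [h2, zero_smul, sum_const_zero, add_zero] at h3 ⊢
        exact (Ne.isUnit (C_ne_zero.1 h3)).map C
      · rw [map_zero, zero_mul, zero_add] at h
        rw [hr, hl, map_mul, map_mul, h]
        simp
    · have h2 : r ≠ 0 := fun h => hQ (by rw [hr, h, mul_zero])
      have h3 := deg_Qt (G := G) x j
      rw [hr, totalDegree_mul_of_isDomain hf.ne_zero h2] at h3
      have h4 := totalDegree_eq_zero_iff_eq_C.1 (show r.totalDegree = 0 by omega)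
      have h5 : l.totalDegree ≤ 1 := by
        by_cases h : l = 0
        · simp [h]
        · have h3 := deg_Ct (G := G) x j
          rw [hl, totalDegree_mul_of_isDomain hf.ne_zero h] at h3
          omega
      obtain ⟨a, b, rfl⟩ := aff h5
      refine ⟨3 * coeff 0 r, a, b, Or.inl (mul_ne_zero three_ne_zero fun h => h2 (by
        rw [h4, h, map_zero])), fun c w h => ?_⟩
      rw [hr, hl, h4, map_mul, map_mul, aeval_C]
      rw [map_mul, map_ofNat] at h
      linear_combination aeval w f * h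
  obtain ⟨α, a, b, h2, h3⟩ := key
  let Ω := AlgebraicClosure k
  let x' : Fin 6 → Ω := fun i => algebraMap k Ω (x i)
  let β : Fin 5 → Ω := fun i => algebraMap k Ω ((Fin.cons a (Fin.cons α b) : Fin 5 → k) i)
  obtain ⟨i, hi⟩ : ∃ i : Fin 4, β i.succ ≠ 0 := by
    rcases h2 with h | ⟨i, h⟩
    · exact ⟨0, (map_ne_zero _).2 h⟩
    · exact ⟨i.succ, (map_ne_zero _).2 h⟩
  refine no_aff hs (indep (γ := gm G x') (x := x') j (by simp [x', h0])) β
    (y1 := Fin.cons 1 (Pi.single i (-β 0 / β i.succ))) rfl ?_ fun y hy hβ => ?_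
  · rw [Fin.sum_univ_succ, sum_eq_single i (by simp +contextual) (by simp)]
    simp only [Fin.cons_zero, Fin.cons_succ, Pi.single_eq_same]
    rw [mul_div_cancel₀ _ hi, mul_one, add_neg_cancel]
  · have h4 : ∑ i, y i • (Fin.cons (ee (gm G x') j.succ.succ 1) (Fin.cons x' fun r =>
        ee (gm G x') j.succ.succ (sg j r)) : Fin 5 → Fin 6 → Ω) i =
        y (Fin.succ 0) • x' + pv (gm G x') j fun r => y r.succ.succ := by
      rw [Fin.sum_univ_succ, Fin.sum_univ_succ, hy, one_smul, pv, add_left_comm]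
      rfl
    have h5 : tri G x' x' x' = 0 :=
      (map_tri (IsScalarTower.toAlgHom ℂ k Ω) x x x).symm.trans (by rw [hx, map_zero])
    have h6 := h3 (y (Fin.succ 0)) (fun r => y r.succ.succ) (by
      rw [Fin.sum_univ_succ, Fin.sum_univ_succ, hy] at hβ
      simp only [β, Fin.cons_zero, Fin.cons_succ] at hβ
      simp only [map_add, map_sum, map_smul, aeval_C, aeval_X]
      simp only [Algebra.smul_def]
      linear_combination hβ)
    rw [aeval_Qt, aeval_Ct] at h6
    rw [h4, tri_cube, h5, tri_pv (by rw [← map_gm]; exact (map_ne_zero _).2 hj)]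
    linear_combination h6

/-- the generic point of a line is not an Eckardt point -/
theorem eckardt (hs : SmF G) [Algebra k R] [IsScalarTower ℂ k R] {p q : Fin 6 → k}
    (hp : p 0 = 1) (hq0 : q 0 = 0) (hq1 : q 1 = 1) {z : R} (hz : Transcendental k z)
    {x v : Fin 6 → R} (hx : x = z • v + fun i => algebraMap k R (p i))
    (hv : v = fun i => algebraMap k R (q i)) (h1 : tri G x x x = 0) (h2 : tri G x x v = 0)
    (h : ∀ y : Fin 6 → R, y 0 = 0 → y 1 = 1 → tri G x x y = 0 → tri G y y x = 0) : False := by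
  have : CharZero R := charZero_of_injective_algebraMap (algebraMap ℂ R).injective
  have x0 : x 0 = 1 := by simp [hx, hv, hp, hq0]
  have v0 : v 0 = 0 := by simp [hv, hq0]
  have v1 : v 1 = 1 := by simp [hv, hq1]
  have h3 : ∀ u, tri G x x u = 0 → tri G x v u = 0 := fun u hu => by
    obtain ⟨c, d, u', rfl, h4, h5⟩ : ∃ (c d : R) (u' : Fin 6 → R), u = c • x + d • v + u' ∧
        u' 0 = 0 ∧ u' 1 = 0 := ⟨u 0, u 1 - u 0 * x 1, u - (u 0 • x + (u 1 - u 0 * x 1) • v),
          by simp, by simp [x0, v0], by simp [v1]⟩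
    have h6 := h v v0 v1 h2
    rw [tri_add3, tri_add3, tri_smul3, tri_smul3, h1, h2] at hu
    have h7 : ∀ t : R, tri G (t • u' + v) (t • u' + v) x = 0 := fun t =>
      h _ (by simp [h4, v0]) (by simp [h5, v1]) (by
        rw [tri_add3, tri_smul3, h2]
        linear_combination t * hu)
    have h8 := h7 1
    have h9 := h7 (-1)
    simp only [tri_add1, tri_add2, tri_smul1, tri_smul2, tri_12 v u' x] at h8 h9
    rw [tri_add3, tri_add3, tri_smul3, tri_smul3, tri_23 x v x, h2, tri_13 x v v, h6, tri_13]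
    linear_combination (h8 - h9) / 4
  have hB : ∀ i, algebraMap k R (tri G p q (Pi.single i 1)) =
      tri G (fun i => algebraMap k R (p i)) v (Pi.single i 1) := fun i => by
    refine (map_tri (IsScalarTower.toAlgHom ℂ k R) _ _ _).trans ?_
    rw [hv]
    congr 1
    funext l
    simp [Pi.single_apply]
  have h4 : ∀ i, gm G x i = z ^ 2 * algebraMap k R (gm G q i) +
      2 * z * algebraMap k R (tri G p q (Pi.single i 1)) + algebraMap k R (gm G p i) := fun i => by
    rw [hB, map_gm, map_gm, ← hv, gm, gm, gm, hx]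
    simp only [tri_add1, tri_add2, tri_smul1, tri_smul2, tri_12 v fun i => algebraMap k R (p i)]
    ring
  have h5 : ∀ i, tri G x v (Pi.single i 1) = z * algebraMap k R (gm G q i) +
      algebraMap k R (tri G p q (Pi.single i 1)) := fun i => by
    rw [hB, map_gm, ← hv, gm, hx, tri_add1, tri_smul1]
  have h6 : ∀ i j, tri G p q (Pi.single j 1) * gm G q i = tri G p q (Pi.single i 1) * gm G q j ∧
      gm G p j * gm G q i = gm G p i * gm G q j := fun i j => by
    have h7 := h3 (gm G x j • Pi.single i 1 + (-gm G x i) • Pi.single j 1) (by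
      rw [tri_add3, tri_smul3, tri_smul3]
      change _ * gm G x i + _ * gm G x j = 0
      ring)
    rw [tri_add3, tri_smul3, tri_smul3, h4, h4, h5, h5] at h7
    have h8 := transcendental_iff.1 hz (Polynomial.C (tri G p q (Pi.single j 1) * gm G q i -
      tri G p q (Pi.single i 1) * gm G q j) * Polynomial.X ^ 2 + Polynomial.C
      (gm G p j * gm G q i - gm G p i * gm G q j) * Polynomial.X + Polynomial.C
      (gm G p j * tri G p q (Pi.single i 1) - gm G p i * tri G p q (Pi.single j 1))) (by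
        simp only [map_add, Polynomial.aeval_mul, Polynomial.aeval_C, Polynomial.aeval_X,
          map_pow]
        simp only [map_sub, map_mul]
        linear_combination h7)
    have h9 := congrArg (Polynomial.coeff · 2) h8
    have h10 := congrArg (Polynomial.coeff · 1) h8
    simp only [Polynomial.coeff_add, Polynomial.coeff_C_mul, Polynomial.coeff_X_pow,
      Polynomial.coeff_X, Polynomial.coeff_C] at h9 h10
    exact ⟨by simpa [sub_eq_zero] using h9, by simpa [sub_eq_zero] using h10⟩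
  obtain ⟨i, hi⟩ : ∃ i, gm G q i ≠ 0 := by_contra fun h => by
    have h7 := hs k q fun u => by
      rw [tri_gm]
      exact sum_eq_zero fun i _ => by rw [not_not.1 (not_exists.1 h i), zero_mul]
    simp [h7] at hq1
  let Ω := AlgebraicClosure k
  let φ := IsScalarTower.toAlgHom ℂ k Ω
  obtain ⟨t, ht⟩ := IsAlgClosed.exists_aeval_eq_zero Ω (Polynomial.C (gm G q i) * Polynomial.X ^ 2 +
    Polynomial.C (2 * tri G p q (Pi.single i 1)) * Polynomial.X + Polynomial.C (gm G p i))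
    (by rw [Polynomial.degree_quadratic hi]; simp)
  simp only [map_add, map_mul, Polynomial.aeval_C, Polynomial.aeval_X, map_pow, map_ofNat] at ht
  have h7 := hs Ω (t • (fun i => φ (q i)) + fun i => φ (p i)) fun u => by
    rw [tri_gm]
    refine sum_eq_zero fun j _ => mul_eq_zero_of_left ?_ _
    have e : ∀ a b : Fin 6 → k, tri G (fun i => φ (a i)) (fun i => φ (b i)) (Pi.single j 1) =
        algebraMap k Ω (tri G a b (Pi.single j 1)) := fun a b => by
      refine Eq.trans ?_ (map_tri φ _ _ _).symm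
      congr 1
      funext l
      simp [Pi.single_apply]
    simp only [gm, tri_add1, tri_add2, tri_smul1, tri_smul2, e, tri_12 q p]
    refine mul_left_cancel₀ ((map_ne_zero (algebraMap k Ω)).2 hi) ?_
    have e1 := congrArg (algebraMap k Ω) (h6 i j).1
    have e2 := congrArg (algebraMap k Ω) (h6 i j).2
    simp only [map_mul, gm] at e1 e2 ht ⊢
    linear_combination 2 * t * e1 + e2 + algebraMap k Ω (tri G q q (Pi.single j 1)) * ht
  simpa [hp, hq0] using congrFun h7 0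

end Crest.Agent.X262.Lin62
end
end

-- ▼ part X262/Lin62/Main
section

/-!
# Row 262, LIN (helper62), part 4: the statement `Top.LinStmt`
-/

set_option autoImplicit false
set_option linter.unusedSectionVars false

noncomputable section

namespace Crest.Agent.X262.Lin62

open Crest.Agent.X277 Crest.Agent.X277.BD Crest.Agent.X262.Top Crest.AlgGeometry MvPolynomial
open List (replicate)
open IntermediateField (adjoin)
open Set (range)

theorem exists_prime_ker {R S : Type} [CommRing R] [IsDomain R] [UniqueFactorizationMonoid R]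
    [Field S] (χ : R →+* S) {a : R} (h0 : a ≠ 0) (h : χ a = 0) :
    ∃ π : R, Prime π ∧ π ∣ a ∧ χ π = 0 := by
  induction a using UniqueFactorizationMonoid.induction_on_prime with
  | h₁ => exact absurd rfl h0
  | h₂ u hu => exact absurd h (hu.map χ).ne_zero
  | h₃ a π ha hπ ih =>
    rcases mul_eq_zero.1 ((map_mul χ π a).symm.trans h) with h | h
    · exact ⟨π, hπ, dvd_mul_right _ _, h⟩
    · obtain ⟨π', h1, h2, h3⟩ := ih ha h
      exact ⟨π', h1, h2.mul_left _, h3⟩

theorem pos_mx1 {k E : Type} [Field k] [Field E] [Algebra k E] [CharZero k]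
    [Algebra.EssFiniteType k E] {n : ℕ} {s : Fin n → E} (hs : adjoin k (range s) = ⊤) :
    0 < bnum (replicate (dim k E) (mx1 k s)) := by
  have h : (mx1 k s).sf = ⊤ := top_unique (hs ▸ IntermediateField.adjoin_le_iff.2 (by
    rintro _ ⟨i, rfl⟩
    simpa using div_mem_sf (mem_mx1 s i) (nonneg_iff.1 (mx1_nonneg s))))
  exact bnum_pos (by simp) (all_rp (N := fun x => Nef x ∧ Big x)
    ⟨(free_mx1 s).nef, (free_mx1 s).big (h ▸ inferInstance)⟩ _)

attribute [local irreducible] mxf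

/-- the lines through a point of the cubic -/
theorem cone {G : MvPolynomial (Fin 6) ℂ} (hs : SmF G) {k K : Type} [Field k] [Field K]
    [Algebra ℂ k] [Algebra ℂ K] [Algebra k K] [IsScalarTower ℂ k K] [CharZero k]
    [Algebra.EssFiniteType k K] {y : Fin 6 → k} {x v : Fin 6 → K}
    (hx : x = fun i => algebraMap k K (y i)) (y0 : y 0 = 1) (v0 : v 0 = 0) (v1 : v 1 = 1)
    (h1 : tri G x x x = 0) (h2 : tri G x x v = 0) (h3 : tri G v v x = 0) (h4 : tri G v v v = 0)
    (h5 : ¬ ∀ u : Fin 6 → K, u 0 = 0 → u 1 = 1 → tri G x x u = 0 → tri G u u x = 0) :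
    ∃ E : IntermediateField k K, (∀ i, v i ∈ E) ∧ dim k E ≤ 1 ∧ (dim k E = 1 → ∃ a : BD k E,
      0 < bnum [a] ∧ bnum [a] ≤ 6 ∧
        mxf k (fun ij : Fin 6 × Fin 6 => x ij.1 * v ij.2 - x ij.2 * v ij.1) = pb E.val a) := by
  have x0 : x 0 = 1 := by simp [hx, y0]
  obtain ⟨j, hj⟩ : ∃ j : Fin 4, gm G x j.succ.succ ≠ 0 := by_contra fun h => by
    have h6 : ∀ j : Fin 4, gm G x j.succ.succ = 0 := fun j => not_not.1 (not_exists.1 h j)
    rw [tri_gm, Fin.sum_univ_succ, Fin.sum_univ_succ] at h1 h2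
    have h7 : gm G x (Fin.succ 0) = 0 := by simpa [h6, v0, v1] using h2
    have h8 : gm G x 0 = 0 := by simpa only [h6, h7, x0, zero_mul, Finset.sum_const_zero,
      add_zero, mul_one] using h1
    have h9 : ∀ i, gm G x i = 0 := Fin.cases h8 (Fin.cases h7 h6)
    have h10 := hs K x fun u => by simp [tri_gm, h9]
    simp [h10] at x0
  have hj' : gm G y j.succ.succ ≠ 0 := fun h => hj (by rw [hx, ← map_gm, h, map_zero])
  have hv := eq_pv hj v0 v1 (by rwa [← tri_gm])
  set w : Fin 3 → K := fun r => v (sg j r) with hw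
  have hQ : Qt G y j ≠ 0 := fun h => h5 fun u u0 u1 hu => by
    have h6 := aeval_Qt (G := G) y j fun r => u (sg j r)
    rw [h, map_zero, ← hx, ← eq_pv hj u0 u1 (by rwa [← tri_gm])] at h6
    exact h6.symm
  have hvq : ∀ i, v i = aeval w (qv (gm G y) j i) := fun i => by
    rw [hv, hx, ← aeval_qv]
    rfl
  let E := adjoin k (range w)
  let u : Fin 3 → E := fun r => ⟨w r, IntermediateField.subset_adjoin _ _ ⟨r, rfl⟩⟩
  have hu : adjoin k (range u) = ⊤ := adjoin_sub w
  have he : ∀ c : MvPolynomial (Fin 3) k, (aeval u c : E) = aeval w c := fun c =>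
    (aeval_algebraMap_apply K u c).symm
  obtain ⟨f, hf, h6, h7⟩ := exists_prime_ker (aeval u : _ →ₐ[k] E).toRingHom hQ
    (Subtype.ext ((he _).trans (by rw [aeval_Qt, ← hx, ← hv, h3]; rfl)))
  have h8 := bez2 hu hf h7 (not_dvd_Ct hs y0 ((map_eq_zero_iff _ (algebraMap k K).injective).1
    ((map_tri (IsScalarTower.toAlgHom ℂ k K) y y y).trans (hx ▸ h1))) hj' hQ hf h6)
    (Subtype.ext ((he _).trans (by rw [aeval_Ct, ← hx, ← hv, h4]; rfl))) (deg_Ct y j)
    ((totalDegree_le_of_dvd_of_isDomain h6 hQ).trans (deg_Qt y j))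
  refine ⟨E, fun i => hvq i ▸ he _ ▸ (aeval u _ : E).2, by omega, fun hd => ⟨mx1 k u, ?_, ?_, ?_⟩⟩
  · simpa [hd] using pos_mx1 hu
  · simpa [hd] using h8.2 (by omega)
  · have h9 : ∀ i l, x i * v l ∈ (mx1 k w).Sec := fun i l => by
      rw [hx, ← Algebra.smul_def, hvq]
      exact Submodule.smul_mem _ _ (one_nsmul (mx1 k w) ▸ aeval_mem w (deg_qv _ j l))
    obtain ⟨s, hs⟩ : ∃ s : Fin 6 × Fin 6 → K,
      s = fun ij => x ij.1 * v ij.2 - x ij.2 * v ij.1 := ⟨_, rfl⟩
    have h10 : ∀ i, s (0, i) = v i := fun i => by simp [hs, x0, v0]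
    have h11 : ∃ i, s i ≠ 0 := ⟨(0, 1), by simp [h10, v1]⟩
    have h12 : ∀ ij, s ij ∈ (mx1 k w).Sec := fun ij => hs ▸ sub_mem (h9 _ _) (h9 _ _)
    have h13 : ∀ i, v i ∈ (mxf k s).Sec := fun i => h10 i ▸ mem_Sec_mxf s (0, i)
    rw [pb_mx1, ← hs]
    have h14 := h13 1
    rw [v1] at h14
    exact le_antisymm (mxf_le h11 h12)
      (mxf_le ⟨0, one_ne_zero⟩ (Fin.cases h14 fun r => h13 (sg j r)))

variable {G : MvPolynomial (Fin 6) ℂ} {F L : Type} [Field F] [Algebra ℂ F] [Field L] [Algebra ℂ L]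
  (Λ : Lines G F L)

theorem on_line {K : Type} [Field K] [Algebra ℂ K] (φ : L →ₐ[ℂ] K) (s t : K) :
    aeval (fun i => s * φ (Λ.p i) + t * φ (Λ.q i)) G = 0 := by
  have h1 : aevalTower (φ.comp (aeval Λ.a)) ![s, t] (lineSubst G) = 0 := by
    change eval₂ _ _ _ = 0
    rw [eval₂_eq]
    refine Finset.sum_eq_zero fun d _ => mul_eq_zero_of_left ?_ _
    change φ (aeval Λ.a _) = 0
    rw [Λ.on _ (Ideal.subset_span ⟨d, rfl⟩), map_zero]
  rw [lineSubst, ← AlgHom.comp_apply, comp_aeval] at h1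
  rw [← h1]
  congr 2
  funext i
  fin_cases i <;> simp [linePoint, Lines.p, Lines.q]

theorem exists_theta : ∃ θ : L, θ ^ 2 ∈ adjoin ℂ (range Λ.a) ∧
    ∀ y : L, ∃ a ∈ adjoin ℂ (range Λ.a), ∃ b ∈ adjoin ℂ (range Λ.a), y = a + b * θ := by
  have : CharZero L := charZero_of_injective_algebraMap (algebraMap ℂ L).injective
  by_cases h : ∀ y, Λ.τ y = y
  · exact ⟨0, by simp, fun y => ⟨y, (Λ.fix y).1 (h y), 0, zero_mem _, by simp⟩⟩
  · obtain ⟨y0, h⟩ := not_forall.1 h
    have h0 : y0 - Λ.τ y0 ≠ 0 := sub_ne_zero.2 (Ne.symm h)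
    have h1 : Λ.τ y0 - y0 ≠ 0 := sub_ne_zero.2 h
    refine ⟨y0 - Λ.τ y0, (Λ.fix _).1 ?_, fun y => ⟨(y + Λ.τ y) / 2, (Λ.fix _).1 ?_,
      (y - Λ.τ y) / (2 * (y0 - Λ.τ y0)), (Λ.fix _).1 ?_, ?_⟩⟩
    · rw [map_pow, map_sub, Λ.inv]
      ring
    · rw [map_div₀, map_add, Λ.inv, map_ofNat, add_comm]
    · rw [map_div₀, map_mul, map_sub, map_sub, Λ.inv, Λ.inv, map_ofNat]
      field_simp
      ring
    · field_simp
      ring

theorem finrank_le {k : Type} [Field k] [Algebra ℂ k] [Algebra k (RatFunc L)]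
    [IsScalarTower ℂ k (RatFunc L)] (E : IntermediateField k (RatFunc L))
    (hX : RatFunc.X ∈ E) (ha : ∀ i, RatFunc.C (Λ.a i) ∈ E) :
    Module.Finite E (RatFunc L) ∧ Module.finrank E (RatFunc L) ≤ 2 := by
  obtain ⟨θ, h1, h2⟩ := exists_theta Λ
  have h3 : ∀ y ∈ adjoin ℂ (range Λ.a), RatFunc.C y ∈ E := fun y hy =>
    (IntermediateField.adjoin_le_iff (T := (E.restrictScalars ℂ).comap
      (IsScalarTower.toAlgHom ℂ L (RatFunc L)))).2 (Set.range_subset_iff.2 ha) hy
  have h4 : adjoin E {RatFunc.C θ} = ⊤ := by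
    have h5 : ∀ z ∈ E, z ∈ adjoin E {RatFunc.C θ} := fun z hz =>
      (adjoin E {RatFunc.C θ}).algebraMap_mem ⟨z, hz⟩
    have h6 : ∀ p : Polynomial L, algebraMap _ (RatFunc L) p ∈ adjoin E {RatFunc.C θ} := fun p => by
      induction p using Polynomial.induction_on with
      | C y =>
        obtain ⟨a, ha, b, hb, rfl⟩ := h2 y
        rw [RatFunc.algebraMap_C, map_add, map_mul]
        exact add_mem (h5 _ (h3 a ha)) (mul_mem (h5 _ (h3 b hb))
          (IntermediateField.mem_adjoin_simple_self _ _))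
      | add p q hp hq => exact map_add (algebraMap _ (RatFunc L)) p q ▸ add_mem hp hq
      | monomial n y h =>
        rw [pow_succ, ← mul_assoc, map_mul, RatFunc.algebraMap_X]
        exact mul_mem h (h5 _ hX)
    refine top_unique fun z _ => ?_
    induction z using RatFunc.induction_on with
    | f p q _ => exact div_mem (h6 p) (h6 q)
  have h5 : Polynomial.aeval (RatFunc.C θ)
      (Polynomial.X ^ 2 - Polynomial.C (⟨_, h3 _ h1⟩ : E)) = 0 := by simp
  have h6 := Polynomial.monic_X_pow_sub_C (⟨_, h3 _ h1⟩ : E) two_ne_zero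
  have h7 : IsIntegral E (RatFunc.C θ) := ⟨_, h6, h5⟩
  have h8 := IntermediateField.adjoin.finiteDimensional h7
  have h9 := IntermediateField.adjoin.finrank h7
  rw [h4] at h8 h9
  refine ⟨Module.Finite.equiv IntermediateField.topEquiv.toLinearEquiv, ?_⟩
  rw [← IntermediateField.finrank_top', h9]
  exact (Polynomial.natDegree_le_natDegree (minpoly.min _ _ h6 h5)).trans
    Polynomial.natDegree_X_pow_sub_C.le

theorem linStmt : LinStmt := by
  intro G F L _ _ _ _ _ Λ hG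
  have : CharZero L := charZero_of_injective_algebraMap (algebraMap ℂ L).injective
  have hs := smF hG.1 hG.2
  let φ := IsScalarTower.toAlgHom ℂ L (RatFunc L)
  set x := Λ.pt with hx
  let v : Fin 6 → RatFunc L := fun i => RatFunc.C (Λ.q i)
  have x0 : x 0 = 1 := by simp [hx, Lines.pt, Lines.p, Lines.q]
  have x1 : x 1 = RatFunc.X := by simp [hx, Lines.pt, Lines.p, Lines.q]
  obtain ⟨h1, h2, h3, h4⟩ := coeffs_zero (a := tri G x x x) fun t => by
    rw [← tri_cube (v := v), ← aeval_eq hG.1, ← on_line Λ φ t (t * RatFunc.X + 1)]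
    congr 2
    funext i
    change t * (RatFunc.C _ + _ * RatFunc.C _) + RatFunc.C _ = t * RatFunc.C _ + _ * RatFunc.C _
    ring
  let k := adjoin ℂ (range (Fin.tail x))
  let y : Fin 5 → k := fun i => ⟨x i.succ, IntermediateField.subset_adjoin _ _ ⟨i, rfl⟩⟩
  have hy : adjoin ℂ (range y) = ⊤ := adjoin_sub _
  have hxy : x = fun i => algebraMap k _ ((Fin.cons 1 y : Fin 6 → k) i) :=
    funext (Fin.cases (x0.trans (map_one _).symm) fun _ => rfl)
  obtain ⟨E, hE, hd, hc⟩ := cone hs hxy rfl (v := v) (by simp [v, Lines.q]) (by simp [v, Lines.q])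
    h1 h2 h3 h4 fun h => eckardt hs (p := Λ.p) (q := Λ.q) rfl rfl rfl RatFunc.transcendental_X
      (funext fun i => add_comm _ _) rfl h1 h2 h
  have hxE : ∀ i, x i ∈ E := fun i => hxy ▸ E.algebraMap_mem _
  have hpE : ∀ i, RatFunc.C (Λ.p i) ∈ E := fun i => by
    have h := sub_mem (hxE i) (mul_mem (hxE 1) (hE i))
    rwa [x1, hx, Lines.pt, add_sub_cancel_right] at h
  obtain ⟨hfin, hr⟩ := finrank_le Λ E (x1 ▸ hxE 1) fun i => by
    fin_cases i
    exacts [hpE 2, hpE 3, hpE 4, hpE 5, hE 2, hE 3, hE 4, hE 5]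
  have h5 : dim ℂ (RatFunc L) = 5 := by
    have := Algebra.EssFiniteType.of_comp ℂ L (RatFunc L)
    have h := trdeg_add_eq ℂ L (A := RatFunc L)
    rw [Λ.dim, trdeg_eq_dim, trdeg_eq_dim,
      Loc.dim_rat RatFunc.transcendental_X RatFunc.adjoin_X] at h
    exact_mod_cast h.symm
  have hP := Brg.Cubic.prime_deh (n := 5) (by norm_num) (by norm_num) hG.1 hG.2
  have he : ∀ c : MvPolynomial (Fin 5) ℂ, aeval y c = 0 ↔ aeval (Fin.tail x) c = 0 := fun c =>
    Subtype.ext_iff.trans (Eq.congr_left (aeval_algebraMap_apply (RatFunc L) y c).symm)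
  have hx' : (Fin.cons 1 (Fin.tail x) : Fin 6 → RatFunc L) = x := x0 ▸ Fin.cons_self_tail x
  have h6 : aeval (Fin.tail x) (Brg.Cubic.deh G) = 0 := by
    rw [← Brg.Hyp0.aeval_cons, hx', aeval_eq hG.1, h1]
  have h7 := (Brg.Cubic.totalDegree_deh G).trans hG.1.totalDegree_le
  have h8 := bez1 hy hP.ne_zero ((he _).2 h6) h7
  have h9 := Loc.dim_tower ℂ k (RatFunc L)
  rw [Loc.dim_tower k E (RatFunc L), Loc.dim_eq_zero_iff.2 hfin, h5] at h9
  have hk : dim ℂ k = 4 := by omega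
  obtain ⟨a, ha, ha', hg⟩ := hc (by omega)
  have hb : bnum [Λ.xi, Λ.xi, Λ.xi, Λ.xi, Λ.g] = bnum (replicate 4 (mx1 ℂ y)) *
      (Module.finrank E (RatFunc L) * bnum [a]) := by
    have e1 : Λ.xi = pb k.val (mx1 ℂ y) := by
      rw [pb_mx1, mx1, Lines.xi, ← hx, ← hx']
      rfl
    have e2 : up k Λ.g = pb E.val a := by
      rw [← hg, Lines.g, up_mxf]
      refine congrArg (mxf k) (funext fun ij => ?_)
      simp only [Lines.plk, hx, Lines.pt, v, map_sub, map_mul]
      ring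
    have e3 := Loc.bnum_prj_val k [Λ.g] (lam := replicate 4 (mx1 ℂ y)) (by simp [hk])
    have e4 := bnum_pb E.val [a]
    rw [Loc.val_eq, deg_tower, ← Loc.val_eq] at e4
    rw [bnum_comm, List.map_replicate, ← e1, List.map_singleton, e2] at e3
    rw [← e4]
    exact e3
  have hA := pos_mx1 hy
  have hA' := h8.2 (by omega)
  rw [hk] at hA hA'
  have hr' : 0 < Module.finrank E (RatFunc L) := Module.finrank_pos
  refine ⟨?_, ?_, ?_⟩
  · rw [← hx']
    refine Brg.Hyp0.gp_of_ker (N := 5) (by norm_num) (by norm_num) hG.1 hG.2 fun c =>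
      ⟨fun h => by_contra fun h0 => ?_, fun ⟨r, hr⟩ => by rw [hr, map_mul, h6, zero_mul]⟩
    have := (bez2 hy hP ((he _).2 h6) h0 ((he _).2 h) le_rfl h7).1
    omega
  · rw [hb]
    exact mul_pos hA (mul_pos (Nat.cast_pos.2 hr') ha)
  · rw [hb]
    exact (mul_le_mul hA' (mul_le_mul (by exact_mod_cast hr) ha' ha.le zero_le_two)
      (mul_pos (Nat.cast_pos.2 hr') ha).le (by norm_num)).trans (by norm_num)

end Crest.Agent.X262.Lin62
end
end

-- ▼ part X262/Hx56/Main
section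

/-!
# Row 262, ISO (helper56): the theorem

* `typ_rat`  : a rational variety has no class of type `(2,0)` or `(0,2)`;
* `isoStmt`  : `IsoStmt C` from `C.Ax`.
-/

set_option autoImplicit false

noncomputable section

namespace Crest.Agent.X262.Hx56

open Crest.Agent.X277 Crest.Agent.X277.Lef Crest.Agent.X277.AN.G1 Crest.Agent.X277.BD
open Crest.Agent.X277.BD.Br (oP_mem)
open Crest.Agent.X262.Top Crest.Agent.X262.Coh

variable {C : Th} (hA : C.Ax)

include hA

theorem dim_prod (X Y : SV) : (X.prod Y).dim = X.dim + Y.dim := by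
  have hM := hA.man
  by_contra h
  have h1 := hM.itg_dg _ (Ne.symm h) _ (hM.dg_mul _ (hM.pb_dg (fst X Y) _ (hM.hc_pow X X.dim))
    (hM.pb_dg (snd X Y) _ (hM.hc_pow Y Y.dim)))
  rw [hA.fub, hM.itg_hc, hM.itg_hc] at h1
  exact mul_ne_zero X.dgr_ne Y.dgr_ne h1

/-- a rational variety has no class of type `(2,0)` or `(0,2)` -/
theorem typ_rat {K : Type} [Field K] [Algebra ℂ K] {N : ℕ} (Y : Hyp N 0 K) (X : PModel ℂ K)
    {p q : ℕ} (h : (p, q) = (2, 0) ∨ (p, q) = (0, 2)) : C.typ (sv X) p q = ⊥ := by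
  have hT := hA.typ
  have := eft (sv X)
  obtain ⟨M, f, g, hf, hg, -⟩ :=
    exists_mdl (A := sv X) (B := sv Y.P) (AlgHom.id ℂ K) (AlgHom.id ℂ K) 0
  refine (Submodule.eq_bot_iff _).2 fun x hx => hA.pd.pb_inj hA.man ⟨_, hf⟩ ?_
  have h1 := hT.pb f x hx
  have h2 := hT.push_typ hA.man hA.pd g (p' := p) (q' := q) (add_comm _ _) (add_comm _ _) h1
  have h3 := hT.le _ (k := 1) (by rcases h with h | h <;> cases h <;> rfl) h2
  rw [hA.pn (sv Y.P) (fun m q hq h => zero_dvd_iff.1 ((Y.ker m q hq).1 h)) 1, pow_one,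
    Submodule.mem_span_singleton] at h3
  obtain ⟨c, h3⟩ := h3
  have h4 : C.push g (C.pb f x) = 0 :=
    Submodule.disjoint_def.1 ((hT.int (sv Y.P)).submodule_iSupIndep.pairwiseDisjoint
      (show ((p, q) : ℕ × ℕ) ≠ (1, 1) by rcases h with h | h <;> rw [h] <;> decide)) _ h2
      (h3 ▸ Submodule.smul_mem _ _ (hT.c1 _ _ oP_mem))
  rw [← Form88.bir0_of hA g ⟨_, hg, Function.surjective_id⟩ 2 (C.pb f x) (by
    rcases h with h | h <;> cases h
    exacts [Or.inl h1, Or.inr h1]), h4, map_zero, map_zero]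

/-- **ISO** -/
theorem isoStmt : IsoStmt C := by
  rintro G F L K _ _ _ _ _ _ _ d S X U q hG ⟨Λ⟩ ⟨Y⟩ hq
  obtain ⟨β⟩ := Brg.Hyp0.basis_of_free (Rul.hyp_free Y).1 (Rul.hyp_free Y).2
  have dK : dim ℂ K = 4 := by simpa using Module.finrank_eq_card_basis β
  have dS : dim ℂ F = 2 := by simpa using Module.finrank_eq_card_basis S.b
  obtain ⟨Γ⟩ := exists_ge Lin62.linStmt hG Λ S.P X hq dS dK
    ((dim_prod hA _ _).trans (congrArg₂ (· + ·) dS dS))
  exact Γ.out hA (Form88.supK hA) (Form88.plK hA) (Form88.domS hA) (Form88.bir0_of hA)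
    ((Submodule.eq_bot_iff _).2 fun ω hω => S.irr ω ((Submodule.mem_iInf _).1 hω))
    (typ_rat hA Y X.P (Or.inl rfl)) (typ_rat hA Y X.P (Or.inr rfl))

end Crest.Agent.X262.Hx56
end
end

-- ▼ part X262/Brg/SymMain
section

/-!
# Row 262, bridge (helper19): `SymStmt`
-/

set_option autoImplicit false

namespace Crest.Agent.X262.Brg.Main

theorem fanoDom : FanoDom := fun _ hG =>
  ⟨Fano21.chart_isDomain hG.1 hG.2, Fano21.chart_dim hG.1 hG.2⟩

theorem symStmt : X262.Top.SymStmt := symStmt_of fanoDom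

end Crest.Agent.X262.Brg.Main
end

-- ▼ part X262/Fano/Main
section

/-!
# Row 262, FANO (helper23), part 3: the statements of TOP

* `fanoPStmt` : projective space is a Fano variety of Picard number one;
* `lin_cubic` : `K + 3 H ∼ 0` on a smooth cubic fourfold; `fanoX_of_rho`.
-/

set_option autoImplicit false

namespace Crest.Agent.X262.Fano

open Crest.Agent.X277 Crest.Agent.X277.Lef Crest.Agent.X277.BD Crest.Agent.X277.BD.Br
open Crest.Agent.X262.Top
open scoped KaehlerDifferential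

theorem fanoPStmt : FanoPStmt := fun _ _ _ b Y =>
  ⟨⟨5, by norm_num, lin_proj (P := Y.P) b rfl⟩, fun _ ha =>
    ⟨1, one_pos, by simpa only [one_smul] using rho_proj (P := Y.P) b rfl ha⟩⟩

theorem lin_cubic {G : MvPolynomial (Fin 6) ℂ} {K : Type} [Field K] [Algebra ℂ K]
    (b : Module.Basis (Fin 4) K Ω[K⁄ℂ]) (X : Hyp 5 G K) (hG : SmCub G) :
    Lin (kP X.P b + 3 • oP X.P) 0 :=
  lin_hyp (P := X.P) b rfl (G := G) hG.1 ((X.ker 3 G hG.1).2 dvd_rfl) hG.2 (by norm_num) rfl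

theorem fanoX_of_rho (h : ∀ (G : MvPolynomial (Fin 6) ℂ) (K : Type) [Field K] [Algebra ℂ K]
    (_ : Module.Basis (Fin 4) K Ω[K⁄ℂ]) (X : Hyp 5 G K), SmCub G → Nonempty (Hyp 4 0 K) →
      ∀ a ∈ On X.P, ∃ m : ℕ, 0 < m ∧ ∃ c : ℤ, Lin (m • a) (c • oP X.P)) : FanoXStmt :=
  fun G K _ _ b X hG hY => ⟨⟨3, by norm_num, lin_cubic b X hG⟩, h G K b X hG hY⟩

end Crest.Agent.X262.Fano
end

-- ▼ part X262/Rho82/Cone
section

/-!
# Row 262, RHO (helper82), part 4: divisors on a cone over a curve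

* `r_aeval`, `lin_rs_mxf`, `exists_const`, `null_two` : residues of finite families;
* `Cn L t z h`, `Cn.nonneg` : on a cone over a curve Cartier divisors have non-negative square.
-/

set_option autoImplicit false
set_option linter.unusedSectionVars false

noncomputable section

namespace Crest.Agent.X262.Rho82

open Crest.Agent.X277 Crest.Agent.X277.BD Crest.Agent.X277.BD.Cyc Polynomial
open Crest.Agent.R276.DivVal_858
open List (replicate)

variable {F E : Type} [Field F] [Algebra ℂ F] [Field E] [Algebra ℂ E] {p : Pl ℂ F ℂ E}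
variable {ι κ : Type} [Fintype ι] [Fintype κ]

/-! ### residues of finite families -/

theorem r_sum {σ : Type*} (S : Finset σ) {f : σ → F} (hf : ∀ i ∈ S, f i ∈ p.V.1) :
    p.r (∑ i ∈ S, f i) = ∑ i ∈ S, p.r (f i) := by
  classical
  induction S using Finset.induction_on with
  | empty => simp
  | insert a S ha ih =>
    rw [Finset.forall_mem_insert] at hf
    rw [Finset.sum_insert ha, Finset.sum_insert ha, Pl.r_add hf.1 (sum_mem hf.2), ih hf.2]

theorem r_aeval (hp : Lnr p) {σ : Type*} {x : σ → F} (hx : ∀ i, x i ∈ p.V.1)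
    (q : MvPolynomial σ ℂ) : MvPolynomial.aeval x q ∈ p.V.1 ∧
      p.r (MvPolynomial.aeval x q) = MvPolynomial.aeval (fun i => p.r (x i)) q := by
  induction q using MvPolynomial.induction_on with
  | C c => simpa only [MvPolynomial.aeval_C] using ⟨p.V.2 c, hp c⟩
  | add q q' h h' =>
    rw [map_add, map_add, Pl.r_add h.1 h'.1, h.2, h'.2]
    exact ⟨add_mem h.1 h'.1, rfl⟩
  | mul_X q i h =>
    rw [map_mul, map_mul, MvPolynomial.aeval_X, MvPolynomial.aeval_X, Pl.r_mul h.1 (hx i), h.2]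
    exact ⟨mul_mem h.1 (hx i), rfl⟩

theorem div_mem_of {a : BD ℂ F} {V : RZ ℂ F} {f g : F} (hg : V.v g = a.val V) (hf : f ∈ a.Sec) :
    f / g ∈ V.1 := (RZ.le_iff (ne_of_val hg)).1 (hg ▸ hf V)

theorem lin_rs_mxf {w : ι → F} (h0 : ∃ i, w i ≠ 0) {g : F} (hg : p.V.v g = (mxf ℂ w).val p.V) :
    Lin (p.rs (mxf ℂ w)) (mxf ℂ fun i => p.r (w i / g)) := by
  have h1 := ne_of_val hg
  have h2 := Pl.val_sub_gen hg
  rw [← eq_mxf (a := p.res (mxf ℂ w - pr ℂ g))
    (fun i => Pl.r_mem_Sec h2 ((mem_Sec_sub_pr h1).2 ?_)) fun W => ?_]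
  · exact Pl.lin_rs hg
  · rw [div_mul_cancel₀ _ h1]
    exact mem_Sec_mxf w i
  · obtain ⟨i, hi⟩ := exists_val_mxf (k := ℂ) h0 (p.cm W)
    exact ⟨i, (Pl.val_res h2 (by rw [map_div₀, hi, val_sub, val_pr h1])).symm⟩

theorem lin_rs_const {w : ι → F} (h0 : ∃ i, w i ≠ 0) {g : F} (hg : p.V.v g = (mxf ℂ w).val p.V)
    (h : ∀ i, ∃ c, p.r (w i / g) = algebraMap ℂ E c) : Lin (p.rs (mxf ℂ w)) 0 := by
  choose c hc using h
  obtain ⟨i, hi⟩ := exists_val_mxf (k := ℂ) h0 p.V
  have h1 : c i ≠ 0 := fun h1 => Pl.r_ne_zero_iff.2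
    (by rw [map_div₀, hi, hg, div_self (val_ne _ _)]) ((hc i).trans (by rw [h1, map_zero]))
  rw [eq_mxf (a := 0) (s := fun i => p.r (w i / g)) (fun j V => ?_) fun V => ⟨i, ?_⟩]
  · exact lin_rs_mxf h0 hg
  · rw [hc]
    exact V.v_alg_le _
  · rw [hc]
    exact V.v_alg h1

theorem const_of_alg {x : E} (h : IsAlgebraic ℂ x) : ∃ c, x = algebraMap ℂ E c := by
  obtain ⟨c, hc⟩ := minpoly.mem_range_of_degree_eq_one ℂ x
    (IsAlgClosed.degree_eq_one_of_irreducible ℂ (minpoly.irreducible h.isIntegral))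
  exact ⟨c, hc.symm⟩

/-- a place which is not trivial on a curve has constant values on it -/
theorem exists_const (hp : Lnr p) {L : IntermediateField ℂ F} (hL : Algebra.trdeg ℂ L ≤ 1) {u x : F}
    (hu : u ∈ L) (hu' : u ∉ p.V.1) (hx : x ∈ L) (hx' : x ∈ p.V.1) :
    ∃ c, p.r x = algebraMap ℂ E c := by
  refine const_of_alg (not_not.1 fun h => ?_)
  obtain ⟨n, hn⟩ := Cardinal.lt_aleph0.1 (hL.trans_lt Cardinal.one_lt_aleph0)
  let W := cm (L.val : L →+* F) (alg_ov L.val) p.V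
  have h1 : ResInd ℂ W.1 (fun _ : Fin 1 => (⟨x, hx⟩ : L)) := ⟨fun _ => hx', fun P hP => by
    rw [← map_one W.v, v_cm_eq_iff, map_one, map_one, ← Pl.r_ne_zero_iff]
    have h2 : (L.val : L →+* F) (MvPolynomial.aeval (fun _ : Fin 1 => (⟨x, hx⟩ : L)) P) =
        MvPolynomial.aeval (fun _ : Fin 1 => x) P := MvPolynomial.comp_aeval_apply _ L.val P
    rw [h2, (r_aeval hp (fun _ => hx') P).2]
    exact fun h3 => hP (algebraicIndependent_iff.1
      ((algebraicIndependent_unique_type_iff (x := fun _ : Fin 1 => p.r x)).2 h) P h3)⟩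
  have h2 := h1.succ_le hn W.2 fun h2 => hu' (show (⟨u, hu⟩ : L) ∈ W.1 from h2 ▸ trivial)
  rw [hn] at hL
  have h3 : n ≤ 1 := by exact_mod_cast hL
  omega

theorem lin_rs_base (hp : Lnr p) {L : IntermediateField ℂ F} (hL : Algebra.trdeg ℂ L ≤ 1) {u : F}
    (hu : u ∈ L) (hu' : u ∉ p.V.1) {w : ι → F} (h0 : ∃ i, w i ≠ 0) (hw : ∀ i, w i ∈ L) :
    Lin (p.rs (mxf ℂ w)) 0 := by
  obtain ⟨i, hi⟩ := exists_val_mxf (k := ℂ) h0 p.V
  exact lin_rs_const h0 hi fun j =>
    exists_const hp hL hu hu' (div_mem (hw j) (hw i)) (div_mem_of hi (mem_Sec_mxf w j))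

theorem mxf_val_one {L : IntermediateField ℂ F} {V : RZ ℂ F} (hV : ∀ u ∈ L, u ∈ V.1) {w : ι → F}
    (h0 : ∃ i, w i ≠ 0) (hw : ∀ i, w i ∈ L) : (mxf ℂ w).val V = 1 := by
  obtain ⟨i, hi⟩ := exists_val_mxf (k := ℂ) h0 V
  refine hi ▸ le_antisymm (RZ.le_one_iff.2 (hV _ (hw i))) ?_
  rw [← map_one V.v, RZ.le_iff (ne_of_val hi)]
  exact hV _ (div_mem (one_mem _) (hw i))

theorem mxf_eq_pb {L : IntermediateField ℂ F} {w : ι → F} (hw : ∀ i, w i ∈ L) :
    mxf ℂ w = pb L.val (mxf ℂ fun i => (⟨w i, hw i⟩ : L)) :=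
  (pb_mxf L.val fun i => (⟨w i, hw i⟩ : L)).symm

theorem exists_bez {R : Type*} [CommRing R] [IsDomain R] [IsPrincipalIdealRing R] {P : κ → R}
    (h : ∃ l, P l ≠ 0) : ∃ (g : R) (q u : κ → R), (∀ l, P l = g * q l) ∧ ∑ l, u l * q l = 1 := by
  obtain ⟨g, hg⟩ : ∃ g, Ideal.span (Set.range P) = Ideal.span {g} :=
    (IsPrincipalIdealRing.principal (Ideal.span (Set.range P))).principal
  choose q hq using fun l => Ideal.mem_span_singleton.1
    (show P l ∈ Ideal.span {g} from hg ▸ Ideal.subset_span ⟨l, rfl⟩)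
  obtain ⟨u, hu⟩ := Ideal.mem_span_range_iff_exists_fun.1
    (show g ∈ Ideal.span (Set.range P) from hg ▸ Ideal.mem_span_singleton_self g)
  obtain ⟨l, hl⟩ := h
  refine ⟨g, q, u, hq, mul_left_cancel₀ (left_ne_zero_of_mul (hq l ▸ hl)) ?_⟩
  rw [mul_one, Finset.mul_sum]
  exact (Finset.sum_congr rfl fun l _ => by rw [hq l]; ring).trans hu

variable [Algebra.EssFiniteType ℂ F]

theorem bnum_base {L : IntermediateField ℂ F} (hL : Algebra.trdeg ℂ L ≤ 1) {w : ι → F} {w' : κ → F}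
    (hw : ∀ i, w i ∈ L) (hw' : ∀ i, w' i ∈ L) (l : List (BD ℂ F)) :
    bnum (mxf ℂ w :: mxf ℂ w' :: l) = 0 := by
  rw [trdeg_eq_dim] at hL
  rw [mxf_eq_pb hw, mxf_eq_pb hw']
  exact bnum_pb_zero L.val (l := [_, _]) (Nat.lt_succ_of_le (by exact_mod_cast hL)) l

theorem null_two {a b : BD ℂ F} (h0 : 0 ≤ a)
    (h : ∀ V : RZ ℂ F, 1 < a.val V → Lin ((plV V).rs b) 0) (l : List (BD ℂ F)) :
    bnum (a :: b :: l) = 0 := by
  by_cases hd : l.length + 1 + 1 = dim ℂ F
  · exact cyc_zero hd.symm h0 fun V _ _ hV => ((h V hV).bnum_eq _).trans (bnum_zero _)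
  · exact bnum_of_ne hd

/-! ### the cone -/

section Cone

variable {L : IntermediateField ℂ F} {t : F} {z : ι → F} {h : BD ℂ F} {P : κ → L[X]} {e : ℕ}
  {V : RZ ℂ F}

/-- `h` is the hyperplane class of the cone with coordinates `(t, z)` over the curve `L` -/
structure Cn (L : IntermediateField ℂ F) (t : F) (z : ι → F) (h : BD ℂ F) : Prop where
  tr : Algebra.trdeg ℂ L ≤ 1
  mem : ∀ m, z m ∈ L
  ne : ∃ m, z m ≠ 0
  ht : t ∈ h.Sec
  hz : ∀ m, z m ∈ h.Sec
  gen : ∀ V : RZ ℂ F, V.v t = h.val V ∨ ∃ m, V.v (z m) = h.val V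

/-- the coefficients of the polynomials, twisted by the base coordinates -/
def gm (z : ι → F) (P : κ → L[X]) (e : ℕ) (x : κ × Fin (e + 1) × ι) : F :=
  (P x.1).coeff x.2.1 * z x.2.2 ^ (x.2.1 : ℕ)

omit [Algebra.EssFiniteType ℂ F] in
theorem aeval_eq {q : L[X]} (he : q.natDegree ≤ e) (t : F) :
    aeval t q = ∑ k : Fin (e + 1), (q.coeff k : F) * t ^ (k : ℕ) := by
  rw [aeval_eq_sum_range' (Nat.lt_succ_of_le he), Finset.sum_range]
  rfl

namespace Cn

variable (c : Cn L t z h)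
include c

theorem eq : h = mxf ℂ fun o : Option ι => o.elim t z :=
  eq_mxf (fun o => o.rec c.ht c.hz) fun V =>
    (c.gen V).elim (fun h => ⟨none, h⟩) fun ⟨m, h⟩ => ⟨some m, h⟩

theorem le : mxf ℂ z ≤ h := fun V => by
  obtain ⟨m, hm⟩ := exists_val_mxf (k := ℂ) c.ne V
  exact hm ▸ c.hz m V

theorem gm_mem (x : κ × Fin (e + 1) × ι) : gm z P e x ∈ L :=
  mul_mem (Subtype.prop _) (pow_mem (c.mem _) _)

theorem gm_ne {l : κ} (hl : P l ≠ 0) (he : (P l).natDegree = e) : ∃ x, gm z P e x ≠ 0 := by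
  obtain ⟨m, hm⟩ := c.ne
  refine ⟨(l, Fin.last e, m), mul_ne_zero ?_ (pow_ne_zero _ hm)⟩
  simpa [← he] using hl

theorem aeval_mem (he : ∀ l, (P l).natDegree ≤ e) (l : κ) :
    aeval t (P l) ∈ (e • (h - mxf ℂ z) + mxf ℂ (gm z P e)).Sec := fun V => by
  obtain ⟨m, hm⟩ := exists_val_mxf (k := ℂ) c.ne V
  rw [aeval_eq (he l), val_add, val_nsmul, val_sub]
  refine V.v.map_sum_le fun k _ => ?_
  have h1 := mem_Sec_mxf (k := ℂ) (gm z P e) (l, k, m) V
  have h2 : 1 ≤ h.val V / (mxf ℂ z).val V := (one_le_div₀ (val_pos _ _)).2 (c.le V)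
  rw [gm, map_mul, map_pow, hm] at h1
  calc V.v (((P l).coeff k : F) * t ^ (k : ℕ))
      ≤ V.v ((P l).coeff k : F) * h.val V ^ (k : ℕ) := by
        rw [map_mul, map_pow]
        gcongr
        exact c.ht V
    _ = (h.val V / (mxf ℂ z).val V) ^ (k : ℕ) *
        (V.v ((P l).coeff k : F) * (mxf ℂ z).val V ^ (k : ℕ)) := by
        have := val_ne (mxf ℂ z) V
        rw [div_pow]
        field_simp
    _ ≤ _ := mul_le_mul' (pow_le_pow_right₀ h2 (Nat.le_of_lt_succ k.2)) h1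

/-- valuations which are trivial on the base -/
theorem hor {u : κ → L[X]} (hu : ∑ l, u l * P l = 1) {l : κ} (hl : P l ≠ 0)
    (he : (P l).natDegree = e) (hV : ∀ x ∈ L, x ∈ V.1) :
    (e • (h - mxf ℂ z) + mxf ℂ (gm z P e)).val V ≤ (mxf ℂ fun l => aeval t (P l)).val V := by
  have h1 := mxf_val_one hV c.ne c.mem
  have h0 : ∀ x : L, V.v (x : F) ≤ 1 := fun x => RZ.le_one_iff.2 (hV _ x.2)
  rw [val_add, val_nsmul, val_sub, h1, mxf_val_one hV (c.gm_ne hl he) c.gm_mem, div_one, mul_one]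
  rcases le_or_gt (V.v t) 1 with h2 | h2
  · have h3 : h.val V ≤ 1 := (c.gen V).elim (fun h => h ▸ h2) fun ⟨m, h⟩ =>
      h ▸ h0 ⟨z m, c.mem m⟩
    refine (pow_le_one' h3 e).trans ?_
    rw [← map_one V.v, ← map_one (aeval t : L[X] →ₐ[L] F), ← hu, map_sum]
    refine V.v.map_sum_le fun l _ => ?_
    rw [map_mul, map_mul]
    refine (mul_le_of_le_one_left' ?_).trans (mem_Sec_mxf (fun l => aeval t (P l)) l V)
    rw [aeval_eq le_rfl]
    refine V.v.map_sum_le fun k _ => ?_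
    rw [map_mul, map_pow]
    exact mul_le_one' (h0 _) (pow_le_one' h2 _)
  · have h3 : V.v t = h.val V := (c.gen V).elim id fun ⟨m, h⟩ =>
      absurd (h2.trans_le (h ▸ c.ht V)) (h0 ⟨z m, c.mem m⟩).not_gt
    refine le_trans (le_of_eq ?_) (mem_Sec_mxf (fun l => aeval t (P l)) l V)
    have h4 : V.v (((P l).coeff e : F) * t ^ e) = h.val V ^ e := by
      rw [map_mul, map_pow, h3, mul_eq_right₀ (pow_ne_zero _ (val_ne _ _))]
      refine le_antisymm (h0 _) ?_
      rw [← map_one V.v, RZ.le_iff (by simpa [← he] using hl)]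
      exact hV _ (div_mem (one_mem _) (Subtype.prop _))
    rw [aeval_eq he.le, Fin.sum_univ_castSucc, Fin.val_last, V.v.map_add_eq_of_lt_right, h4]
    rw [h4]
    refine V.v.map_sum_lt (pow_ne_zero _ (val_ne _ _)) fun k _ => ?_
    rw [map_mul, map_pow, ← h3]
    exact (mul_le_of_le_one_left' (h0 _)).trans_lt (pow_lt_pow_right₀ h2 k.2)

theorem triv {g : F} (hg : V.v g = h.val V) (h1 : ∃ a, (plV V).r (t / g) = algebraMap ℂ _ a)
    (h2 : ∀ m, ∃ a, (plV V).r (z m / g) = algebraMap ℂ _ a) : Lin ((plV V).rs h) 0 := by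
  have h3 := c.eq
  obtain ⟨m, hm⟩ := c.ne
  generalize hw : (fun o : Option ι => o.elim t z) = w at h3
  subst h3
  refine lin_rs_const ⟨some m, hw ▸ hm⟩ hg fun o => ?_
  rw [← hw]
  cases o
  exacts [h1, h2 _]

theorem triv' (hV : ∀ m, V.v (z m) < h.val V) : Lin ((plV V).rs h) 0 := by
  have h3 : V.v t = h.val V := (c.gen V).elim id fun ⟨m', h⟩ => absurd h (hV m').ne
  refine c.triv h3 ⟨1, ?_⟩ fun m => ⟨0, ?_⟩
  · rw [div_self (ne_of_val h3), Pl.r_one, map_one]
  · have h4 : V.v (z m / t) < 1 := by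
      rw [map_div₀, h3]
      exact (div_lt_one₀ (val_pos _ _)).2 (hV m)
    rw [map_zero]
    exact (Pl.r_eq_zero (p := plV V) (div_mem_of h3 (c.hz m))).2 h4

/-- vertical valuations on which `h` is not trivial -/
theorem ver {l : κ} (hl : P l ≠ 0) (hl' : (P l).natDegree = e) (he : ∀ l, (P l).natDegree ≤ e)
    {u : F} (hu : u ∈ L) (hu' : u ∉ V.1) (hV : ¬ Lin ((plV V).rs h) 0) :
    (e • (h - mxf ℂ z) + mxf ℂ (gm z P e)).val V ≤ (mxf ℂ fun l => aeval t (P l)).val V := by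
  have hc : ∀ x ∈ L, x ∈ V.1 → ∃ a, (plV V).r x = algebraMap ℂ _ a := fun x =>
    exists_const (lnr_plV V) c.tr hu hu'
  obtain ⟨m, hm⟩ := exists_val_mxf (k := ℂ) c.ne V
  have h1 : V.v (z m) = h.val V := le_antisymm (c.hz m V) (not_lt.1 fun h1 => hV
    (c.triv' fun m' => ((mem_Sec_mxf z m' V).trans hm.ge).trans_lt h1))
  have h2 : Transcendental ℂ ((plV V).r (t / z m)) := fun h2 => hV (c.triv h1 (const_of_alg h2)
    fun m' => hc _ (div_mem (c.mem m') (c.mem m)) (div_mem_of h1 (c.hz m')))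
  rw [val_add, val_nsmul, val_sub, ← hm, h1, div_self (val_ne _ _), one_pow, one_mul]
  obtain ⟨⟨l0, k0, m0⟩, h3⟩ := exists_val_mxf (k := ℂ) (c.gm_ne hl hl') V
  have h4 : V.v (gm z P e (l0, k0, m)) = (mxf ℂ (gm z P e)).val V := by
    refine le_antisymm (mem_Sec_mxf _ _ V) (h3.ge.trans ?_)
    simp only [gm, map_mul, map_pow]
    gcongr
    exact h1 ▸ c.hz m0 V
  have h5 := fun k => div_mem_of h4 (mem_Sec_mxf _ (l0, k, m))
  choose a ha using fun k => hc _ (div_mem (c.gm_mem (l0, k, m)) (c.gm_mem (l0, k0, m))) (h5 k)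
  have h6 := div_mem_of h1 c.ht
  have h7 : aeval t (P l0) / gm z P e (l0, k0, m) =
      ∑ k : Fin (e + 1), gm z P e (l0, k, m) / gm z P e (l0, k0, m) * (t / z m) ^ (k : ℕ) := by
    rw [aeval_eq (he l0), Finset.sum_div]
    refine Finset.sum_congr rfl fun k _ => ?_
    have := ne_of_val h1
    rw [gm.eq_1 z P e (l0, k, m), div_pow]
    field_simp
  have h8 : (plV V).r (aeval t (P l0) / gm z P e (l0, k0, m)) =
      aeval ((plV V).r (t / z m)) (∑ k : Fin (e + 1), monomial (k : ℕ) (a k)) := by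
    rw [h7, r_sum _ fun k _ => mul_mem (h5 k) (pow_mem h6 _), map_sum]
    refine Finset.sum_congr rfl fun k _ => ?_
    rw [Pl.r_mul (h5 k) (pow_mem h6 _), Pl.r_pow h6, ha, aeval_monomial]
  have h9 : (plV V).r (aeval t (P l0) / gm z P e (l0, k0, m)) ≠ 0 := fun h9 => by
    have h10 := congrArg (coeff · k0) (transcendental_iff.1 h2 _ (h8 ▸ h9))
    have h11 := ha k0
    rw [div_self (ne_of_val h4), Pl.r_one] at h11
    simp only [finsetSum_coeff, coeff_monomial, Fin.val_inj, Finset.sum_ite_eq', Finset.mem_univ,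
      if_true, coeff_zero] at h10
    rw [h10, map_zero] at h11
    exact one_ne_zero h11
  rw [Pl.r_ne_zero_iff, map_div₀, plV_V, h4, div_eq_one_iff_eq (val_ne _ _)] at h9
  exact h9 ▸ mem_Sec_mxf (fun l => aeval t (P l)) l0 V

theorem null_sub (l : List (BD ℂ F)) : bnum ((h - mxf ℂ z) :: h :: l) = 0 := by
  refine null_two (sub_nonneg.2 c.le) (fun V hV => ?_) l
  rw [val_sub, one_lt_div₀ (val_pos _ _)] at hV
  exact c.triv' fun m' => (mem_Sec_mxf z m' V).trans_lt hV

theorem cube : bnum [h, h, h] = 0 := by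
  have h1 := c.null_sub [h]
  have h2 := c.null_sub [mxf ℂ z]
  rw [bnum_sub, sub_eq_zero] at h1 h2
  exact h1.trans ((bnum_comm [_] [h, h]).trans
    (h2.trans ((bnum_comm [_, h] [_]).trans (bnum_base c.tr c.mem c.mem _))))

theorem nums {u : κ → L[X]} (hu : ∑ l, u l * P l = 1)
    (hb : Bd h (mxf ℂ fun l => aeval t (P l))) : ∃ e : ℕ,
      bnum [h, mxf ℂ fun l => aeval t (P l)] = e * bnum [h, h] ∧
      bnum [mxf ℂ fun l => aeval t (P l), mxf ℂ fun l => aeval t (P l)] = e ^ 2 * bnum [h, h] := by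
  have h0 : ∃ l, aeval t (P l) ≠ 0 := by
    by_contra! h0
    simpa [h0] using congrArg (aeval t) hu
  obtain ⟨l1, h1⟩ := h0
  obtain ⟨l, -, hl⟩ := Finset.exists_max_image Finset.univ (fun l => (P l).degree)
    ⟨l1, Finset.mem_univ _⟩
  have hl0 : P l ≠ 0 := fun h2 => h1 (by
    have h3 := hl l1 (Finset.mem_univ _)
    rw [h2, degree_zero, le_bot_iff, degree_eq_bot] at h3
    rw [h3, map_zero])
  have he : ∀ l', (P l').natDegree ≤ (P l).natDegree := fun l' =>
    natDegree_le_natDegree (hl l' (Finset.mem_univ _))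
  set e := (P l).natDegree with he'
  set b := mxf ℂ fun l => aeval t (P l) with hb'
  set γ := mxf ℂ (gm z P e) with hγ
  set φ := mxf ℂ z with hφ
  have h2 : 0 ≤ e • (h - φ) + γ - b := sub_nonneg.2 fun V => by
    obtain ⟨l', h2⟩ := exists_val_mxf (k := ℂ) (s := fun l => aeval t (P l)) ⟨l1, h1⟩ V
    exact h2 ▸ c.aeval_mem he l' V
  have h3 : ∀ V : RZ ℂ F, 1 < (e • (h - φ) + γ - b).val V →
      (∃ u ∈ L, u ∉ V.1) ∧ Lin ((plV V).rs h) 0 := fun V hV => by
    rw [val_sub, one_lt_div₀ (val_pos _ _)] at hV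
    obtain ⟨x, h3, h4⟩ : ∃ u ∈ L, u ∉ V.1 := by
      by_contra! h3
      exact hV.not_ge (c.hor hu hl0 rfl h3)
    exact ⟨⟨x, h3, h4⟩, not_not.1 fun h5 => hV.not_ge (c.ver hl0 rfl he h3 h4 h5)⟩
  have h4 := null_two h2 (fun V hV => (h3 V hV).2) []
  have h5 := null_two h2 (b := φ) (fun V hV => (h3 V hV).1.elim fun x hx =>
    lin_rs_base (lnr_plV V) c.tr hx.1 hx.2 c.ne c.mem) []
  have h6 := null_two h2 (b := γ) (fun V hV => (h3 V hV).1.elim fun x hx =>
    lin_rs_base (lnr_plV V) c.tr hx.1 hx.2 (c.gm_ne hl0 rfl) c.gm_mem) []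
  have h7 := c.null_sub []
  have h8 := null_eff hb h2 (by simp) h4
  have h9 := null_eff hb (sub_nonneg.2 c.le) (by simp) h7
  have h10 : bnum [φ, φ] = 0 := bnum_base c.tr c.mem c.mem _
  have h11 : bnum [γ, φ] = 0 := bnum_base c.tr c.gm_mem c.mem _
  have h12 : bnum [γ, γ] = 0 := bnum_base c.tr c.gm_mem c.gm_mem _
  simp only [bnum_sub, bnum_add, bnum_nsmul, ← hφ] at h4 h5 h6 h7 h8 h9
  rw [bnum_swap h φ, bnum_swap b φ] at h5
  rw [bnum_swap h γ, bnum_swap φ γ, bnum_swap b γ] at h6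
  rw [bnum_swap b h] at h4
  have h13 : bnum [h, b] = e * bnum [h, h] := by linear_combination h9 - h5 - e * h7 - e * h10 + h11
  refine ⟨e, h13, ?_⟩
  linear_combination -h8 + e * h9 - h6 + e * h4 - e ^ 2 * h7 + e * h13 - e * h11 + h12

/-- **divisors on a cone over a curve** -/
theorem nonneg {s : κ → F} (h0 : ∃ l, s l ≠ 0)
    (hs : ∀ l, s l ∈ IntermediateField.adjoin L {t}) (hb : Bd h (mxf ℂ s)) (n : ℕ) :
    0 ≤ bnum [mxf ℂ s - n • h, mxf ℂ s - n • h] := by
  classical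
  choose a d had using fun l => (IntermediateField.mem_adjoin_simple_iff L (s l)).1 (hs l)
  obtain ⟨a, d, hd0, had⟩ : ∃ a d : κ → L[X], (∀ l, aeval t (d l) ≠ 0) ∧
      ∀ l, s l = aeval t (a l) / aeval t (d l) :=
    ⟨fun l => if aeval t (d l) = 0 then 0 else a l, fun l => if aeval t (d l) = 0 then 1 else d l,
      fun l => by by_cases h : aeval t (d l) = 0 <;> simp [h],
      fun l => by by_cases h : aeval t (d l) = 0 <;> simp [h, had l]⟩
  have h1 : ∏ l, aeval t (d l) ≠ 0 := Finset.prod_ne_zero_iff.2 fun l _ => hd0 l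
  have h2 : ∀ l, s l = aeval t (a l * ∏ l' ∈ Finset.univ.erase l, d l') / ∏ l, aeval t (d l) :=
    fun l => by
      rw [← Finset.mul_prod_erase _ _ (Finset.mem_univ l), map_mul, map_prod, had l,
        mul_div_mul_right _ _ (Finset.prod_ne_zero_iff.2 fun l _ => hd0 l)]
  obtain ⟨l0, hl0⟩ := h0
  obtain ⟨g, q, u, h3, h4⟩ := exists_bez (P := fun l => a l * ∏ l' ∈ Finset.univ.erase l, d l')
    ⟨l0, fun h => hl0 (by rw [h2, h, map_zero, zero_div])⟩
  have h5 : ∀ l, s l = aeval t (q l) * (aeval t g / ∏ l, aeval t (d l)) := fun l => by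
    rw [h2, h3, map_mul, mul_comm, mul_div_assoc]
  have h6 := right_ne_zero_of_mul (h5 l0 ▸ hl0)
  have h7 : Lin (mxf ℂ s) (mxf ℂ fun l => aeval t (q l)) := by
    refine ⟨_, h6, (eq_mxf (fun l => ?_) fun V => ?_).symm⟩
    · exact h5 l ▸ mul_mem_Sec (mem_Sec_mxf (fun l => aeval t (q l)) l) (mem_Sec_pr _)
    · obtain ⟨l, hl⟩ := exists_val_mxf (k := ℂ) (s := fun l => aeval t (q l))
        ⟨l0, left_ne_zero_of_mul (h5 l0 ▸ hl0)⟩ V
      exact ⟨l, by rw [h5, map_mul, hl, val_add, val_pr h6]⟩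
  obtain ⟨e, h8, h9⟩ := c.nums h4 (by
    obtain ⟨m, h8, h9⟩ := hb
    rw [sub_eq_add_neg] at h9
    exact ⟨m, (Lin.rfl.add h7).symm.nef h8, by
      simpa only [sub_eq_add_neg] using (Lin.rfl.add h7.neg).symm.nef h9⟩)
  have h10 : 0 ≤ bnum [h, h] := bnum_nonneg (all_rp (c.eq ▸ (free_mxf _).nef) 2)
  rw [bnum_swap] at h8
  simp only [bnum_sub, bnum_sub2, bnum_nsmul, bnum_nsmul2]
  rw [bnum_swap h (mxf ℂ s), h7.bnum_eq, h7.bnum_eq, bnum_swap _ (mxf ℂ s), h7.bnum_eq, h9, h8]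
  nlinarith [mul_nonneg (sq_nonneg ((e : ℤ) - n)) h10]

end Cn

end Cone

end Crest.Agent.X262.Rho82
end
end

-- ▼ part X262/Rho82/Alg
section

/-!
# Row 262, RHO (helper82), part 2: polynomial algebra

* `trdeg_drop`, `trdeg_qf_le` : forms without common factor cut out a locus of codimension two;
* `not_sm`                    : `A B + C D` is singular;
* `exists_cone`               : the cone of lines through a point of a smooth cubic fourfold.
-/

set_option autoImplicit false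

noncomputable section

namespace Crest.Agent.X262.Rho82

open MvPolynomial Crest.Agent.X262.Brg.Cubic Crest.Agent.X277.BD

/-! ### codimension two -/

theorem trdeg_drop {A B : Type} [CommRing A] [IsDomain A] [Algebra ℂ A] [Algebra.FiniteType ℂ A]
    [CommRing B] [IsDomain B] [Algebra ℂ B] (f : A →ₐ[ℂ] B) (hf : Function.Surjective f) {x : A}
    (hx : x ≠ 0) (h : f x = 0) : Algebra.trdeg ℂ B + 1 ≤ Algebra.trdeg ℂ A := by
  have : Algebra.FiniteType ℂ B := Algebra.FiniteType.of_surjective f hf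
  obtain ⟨a, h1, h2⟩ := dim_trdeg ℂ A
  obtain ⟨b, h3, h4⟩ := dim_trdeg ℂ B
  have h5 := ringKrullDim_quotient_succ_le_of_nonZeroDivisor (mem_nonZeroDivisors_of_ne_zero hx)
  have h6 := ringKrullDim_le_of_surjective (Ideal.Quotient.lift (Ideal.span {x}) (f : A →+* B)
    fun y hy => by
      obtain ⟨c, rfl⟩ := Ideal.mem_span_singleton'.1 hy
      simp [h]) (Ideal.Quotient.lift_surjective_of_surjective _ _ hf)
  have h7 : ((b + 1 : ℕ) : WithBot ℕ∞) ≤ a := by
    rw [← h1]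
    refine le_trans ?_ h5
    push_cast
    rw [← h3]
    gcongr
  rw [h2, h4]
  exact_mod_cast h7

theorem exists_prime_ker' {R B : Type*} [CommRing R] [IsDomain R] [UniqueFactorizationMonoid R]
    [CommRing B] [IsDomain B] (χ : R →+* B) {a : R} (h0 : a ≠ 0) (h : χ a = 0) :
    ∃ π : R, Prime π ∧ π ∣ a ∧ χ π = 0 := by
  induction a using UniqueFactorizationMonoid.induction_on_prime with
  | h₁ => exact absurd rfl h0
  | h₂ u hu => exact absurd h (hu.map χ).ne_zero
  | h₃ a π ha hπ ih =>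
    rw [map_mul, mul_eq_zero] at h
    rcases h with h | h
    · exact ⟨π, hπ, dvd_mul_right _ _, h⟩
    · obtain ⟨π', h1, h2, h3⟩ := ih ha h
      exact ⟨π', h1, h2.mul_left _, h3⟩

theorem aeval_hom {σ B : Type*} [CommRing B] [Algebra ℂ B] {p : MvPolynomial σ ℂ} {d : ℕ}
    (h : p.IsHomogeneous d) (c : B) (v : σ → B) :
    aeval (fun j => c * v j) p = c ^ d * aeval v p := by
  rw [aeval_def, aeval_def, eval₂_eq, eval₂_eq, Finset.mul_sum]
  refine Finset.sum_congr rfl fun m hm => ?_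
  simp only [mul_pow, Finset.prod_mul_distrib, Finset.prod_pow_eq_pow_sum]
  rw [← h.degree_eq_sum_deg_support hm]
  ring

theorem aeval_div {σ B : Type*} [Field B] [Algebra ℂ B] {p : MvPolynomial σ ℂ} {d : ℕ}
    (h : p.IsHomogeneous d) (c : B) (v : σ → B) :
    aeval (fun j => v j / c) p = aeval v p / c ^ d := by
  simpa only [div_eq_inv_mul, inv_pow] using aeval_hom h c⁻¹ v

variable {n : ℕ} {ι : Type*} {E : Type} [Field E] [Algebra ℂ E]

/-- the forms `P i` have no common factor -/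
def NoCF (P : ι → MvPolynomial (Fin n) ℂ) (d : ι → ℕ) (e : ℕ) : Prop :=
  ∀ (a : ℕ) (π : MvPolynomial (Fin n) ℂ), π.IsHomogeneous a → a ≠ 0 → a ≤ e →
    ¬ ∀ i, ∃ Q : MvPolynomial (Fin n) ℂ, Q.IsHomogeneous (d i - a) ∧ P i = π * Q

open scoped IntermediateField.algebraAdjoinAdjoin in
theorem trdeg_qf_le0 {P : ι → MvPolynomial (Fin (n + 1)) ℂ} {d : ι → ℕ}
    (hP : ∀ i, (P i).IsHomogeneous (d i)) {i0 : ι} (h0 : P i0 ≠ 0) (hc : NoCF P d (d i0))
    {w : Fin (n + 1) → E} (hw : w 0 ≠ 0) (h : ∀ i, aeval w (P i) = 0) :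
    Algebra.trdeg ℂ (qf ℂ w) + 2 ≤ n := by
  let u : Fin n → E := fun i => w i.succ / w 0
  have h1 : ∀ i, aeval u (deh (P i)) = 0 := fun i => by
    have h2 : (aeval u).comp (deh (k := ℂ) (n := n)) = aeval fun j => w j / w 0 := by
      ext1 j
      refine Fin.cases ?_ (fun j => ?_) j <;> simp [deh, u, hw]
    rw [← AlgHom.comp_apply, h2, aeval_div (hP i), h, zero_div]
  have h2 : ∀ i, deh (P i) = 0 → P i = 0 := fun i h2 =>
    eq_of_deh (hP i) (isHomogeneous_zero _ _ _) (by rw [h2, map_zero])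
  obtain ⟨π, hπ, h3, h4⟩ := exists_prime_ker' (aeval u : _ →ₐ[ℂ] E).toRingHom (mt (h2 i0) h0) (h1 i0)
  have h5 : ∀ i, P i ≠ 0 → ∀ Q, deh (P i) = π * Q → π.totalDegree + Q.totalDegree ≤ d i := by
    intro i hi Q hQ
    rw [← totalDegree_mul_of_isDomain hπ.ne_zero fun h5 => hi (h2 i (by rw [hQ, h5, mul_zero])),
      ← hQ]
    exact (totalDegree_deh _).trans (hP i).totalDegree_le
  obtain ⟨i, hi⟩ : ∃ i, ¬ π ∣ deh (P i) := by
    by_contra! h6
    refine hc π.totalDegree (hom π.totalDegree π) (hom_isHomogeneous _ _) (fun h7 => ?_)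
      (by obtain ⟨Q, hQ⟩ := h3; have := h5 i0 h0 Q hQ; omega) fun i => ?_
    · rw [totalDegree_eq_zero_iff_eq_C] at h7
      rw [h7] at hπ
      exact hπ.not_isUnit ((Ne.isUnit fun h => hπ.ne_zero (by rw [h, C_0])).map C)
    · by_cases h7 : P i = 0
      · exact ⟨0, isHomogeneous_zero _ _ _, by rw [h7, mul_zero]⟩
      obtain ⟨Q, hQ⟩ := h6 i
      have h8 := h5 i h7 Q hQ
      refine ⟨hom _ Q, hom_isHomogeneous _ _, eq_of_deh (hP i) ?_ ?_⟩
      · have h9 := (hom_isHomogeneous π.totalDegree π).mul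
          (hom_isHomogeneous (d i - π.totalDegree) Q)
        rwa [Nat.add_sub_cancel' (by omega)] at h9
      · rw [map_mul, deh_hom le_rfl, deh_hom (by omega), hQ]
  have : (Ideal.span {π}).IsPrime := (Ideal.span_singleton_prime hπ.ne_zero).2 hπ
  let f : MvPolynomial (Fin n) ℂ →ₐ[ℂ] (aeval u).range := (aeval u).rangeRestrict
  have h6 := trdeg_drop (Ideal.Quotient.mkₐ ℂ (Ideal.span {π})) (Ideal.Quotient.mkₐ_surjective _ _)
    hπ.ne_zero (Ideal.Quotient.eq_zero_iff_mem.2 (Ideal.mem_span_singleton_self π))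
  have h7 := trdeg_drop (Ideal.Quotient.liftₐ (Ideal.span {π}) f fun y hy => by
      obtain ⟨c, rfl⟩ := Ideal.mem_span_singleton'.1 hy
      refine Subtype.ext ?_
      change aeval u (c * π) = 0
      rw [map_mul, show aeval u π = 0 from h4, mul_zero])
    (fun y => by
      obtain ⟨x, rfl⟩ := (aeval u).rangeRestrict_surjective y
      exact ⟨Ideal.Quotient.mk _ x, rfl⟩) (x := Ideal.Quotient.mk _ (deh (P i)))
    (fun h7 => hi (Ideal.mem_span_singleton.1 (Ideal.Quotient.eq_zero_iff_mem.1 h7)))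
    (Subtype.ext (h1 i))
  have h8 : qf ℂ w = IntermediateField.adjoin ℂ (Set.range u) := by
    refine le_antisymm (IntermediateField.adjoin_le_iff.2 ?_) (IntermediateField.adjoin_le_iff.2 ?_)
    · have h8 : ∀ j, w j / w 0 ∈ IntermediateField.adjoin ℂ (Set.range u) := fun j =>
        Fin.cases (by rw [div_self hw]; exact one_mem _)
          (fun j => IntermediateField.subset_adjoin _ _ ⟨j, rfl⟩) j
      rintro _ ⟨i, j, rfl⟩
      rw [← div_div_div_cancel_right₀ hw]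
      exact div_mem (h8 j) (h8 i)
    · rintro _ ⟨j, rfl⟩
      exact div_mem_qf w 0 j.succ
  rw [h8, trdeg_frac ℂ (Algebra.adjoin ℂ (Set.range u)), Algebra.adjoin_range_eq_range_aeval]
  rw [MvPolynomial.trdeg_of_isDomain] at h6
  calc _ = Algebra.trdeg ℂ (aeval u).range + 1 + 1 := by rw [add_assoc, one_add_one_eq_two]
    _ ≤ _ := by gcongr
    _ ≤ _ := h6
    _ = _ := by simp

/-- **forms without common factor cut out a locus of codimension at least two** -/
theorem trdeg_qf_le {P : ι → MvPolynomial (Fin (n + 1)) ℂ} {d : ι → ℕ}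
    (hP : ∀ i, (P i).IsHomogeneous (d i)) {i0 : ι} (h0 : P i0 ≠ 0) (hc : NoCF P d (d i0))
    {w : Fin (n + 1) → E} (hw : ∃ j, w j ≠ 0) (h : ∀ i, aeval w (P i) = 0) :
    Algebra.trdeg ℂ (qf ℂ w) + 2 ≤ n := by
  obtain ⟨j, hj⟩ := hw
  let σ := Equiv.swap 0 j
  have h1 : ∀ p : MvPolynomial (Fin (n + 1)) ℂ, rename σ (rename σ p) = p := fun p => by
    rw [rename_rename, show (σ ∘ σ) = id from funext fun i => Equiv.swap_apply_self _ _ i,
      rename_id_apply]
  have h2 : qf ℂ (w ∘ σ) = qf ℂ w := by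
    refine le_antisymm (IntermediateField.adjoin_le_iff.2 ?_) (IntermediateField.adjoin_le_iff.2 ?_)
    · rintro _ ⟨a, b, rfl⟩
      exact div_mem_qf w _ _
    · rintro _ ⟨a, b, rfl⟩
      simpa using div_mem_qf (k := ℂ) (w ∘ σ) (σ.symm a) (σ.symm b)
  rw [← h2]
  refine trdeg_qf_le0 (P := fun i => rename σ (P i)) (fun i => (hP i).rename_isHomogeneous)
    (i0 := i0) (fun h3 => h0 (by rw [← h1 (P i0), h3, map_zero])) (fun a π h3 h4 h5 h6 => ?_)
    (by simpa [σ] using hj) fun i => ?_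
  · refine hc a (rename σ π) h3.rename_isHomogeneous h4 h5 fun i => ?_
    obtain ⟨Q, h7, h8⟩ := h6 i
    exact ⟨rename σ Q, h7.rename_isHomogeneous, by rw [← map_mul, ← h8, h1]⟩
  · rw [aeval_rename, Function.comp_assoc,
      show (σ ∘ σ) = id from funext fun i => Equiv.swap_apply_self _ _ i]
    exact h i

/-! ### singular points -/

theorem eval_zero_hom {σ : Type} {G : MvPolynomial σ ℂ} {a : ℕ} (hG : G.IsHomogeneous a)
    (ha : a ≠ 0) : eval (0 : σ → ℂ) G = 0 := by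
  simpa [ha] using eval_smul hG 0 0

theorem not_sm {A B C D : MvPolynomial (Fin 6) ℂ} (hA : eval 0 A = 0) (hB : eval 0 B = 0)
    (hC : eval 0 C = 0) (hD : eval 0 D = 0) : ¬ Sm (A * B + C * D) := by
  classical
  intro h
  obtain ⟨q, hq, h1⟩ := exists_common_zero {A, B, C, D}
    (Finset.card_le_four.trans_lt (by norm_num)) 0 (by
      simp only [Finset.mem_insert, Finset.mem_singleton, forall_eq_or_imp, forall_eq]
      exact ⟨hA, hB, hC, hD⟩)
  simp only [Finset.mem_insert, Finset.mem_singleton, forall_eq_or_imp, forall_eq] at h1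
  obtain ⟨h2, h3, h4, h5⟩ := h1
  obtain ⟨i, hi⟩ := h q hq (by simp [h2, h4])
  exact hi (by simp [h2, h3, h4, h5])

theorem linear_eq {σ : Type} [Fintype σ] {l : MvPolynomial σ ℂ} (hl : l.IsHomogeneous 1) :
    l = ∑ i, C (eval 0 (pderiv i l)) * X i := by
  conv_lhs => rw [← one_smul ℕ l, ← hl.sum_X_mul_pderiv]
  refine Finset.sum_congr rfl fun i _ => ?_
  have h1 := totalDegree_eq_zero_iff_eq_C.1
    ((totalDegree_zero_iff_isHomogeneous σ).2 (hl.pderiv (i := i)))
  rw [mul_comm, h1, eval_C]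

theorem eval_zero_of_mul {σ : Type} [Fintype σ] {l B : MvPolynomial σ ℂ} (hl : l.IsHomogeneous 1)
    (h0 : l ≠ 0) (h : (l * B).IsHomogeneous 3) : eval 0 B = 0 := by
  by_contra h1
  refine h0 ((linear_eq hl).trans (Finset.sum_eq_zero fun i _ => ?_))
  have h2 := eval_zero_hom (h.pderiv (i := i)) (by norm_num)
  rw [Derivation.leibniz, map_add, smul_eq_mul, smul_eq_mul, map_mul, map_mul,
    eval_zero_hom hl one_ne_zero, zero_mul, zero_add] at h2
  rw [(mul_eq_zero.1 h2).resolve_left h1, C_0, zero_mul]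

/-- a form of degree at least two in functions which vanish at `p` is singular at `p` -/
theorem pderiv_aeval_zero {σ τ : Type} [Fintype τ] {W : τ → MvPolynomial σ ℂ} {p : σ → ℂ}
    (hW : ∀ j, eval p (W j) = 0) {f : MvPolynomial τ ℂ} {d : ℕ} (hf : f.IsHomogeneous (d + 2))
    (i : σ) : eval p (aeval W f) = 0 ∧ eval p (pderiv i (aeval W f)) = 0 := by
  have h1 : ∀ {g : MvPolynomial τ ℂ} {a : ℕ}, g.IsHomogeneous a → a ≠ 0 →
      eval p (aeval W g) = 0 := fun {g a} hg ha => by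
    have h1 : (aeval p).comp (aeval W) = aeval (R := ℂ) (0 : τ → ℂ) := by
      ext1 j
      simpa using hW j
    exact (DFunLike.congr_fun h1 g).trans (eval_zero_hom hg ha)
  refine ⟨h1 hf (by omega), ?_⟩
  have h2 := congrArg (fun g => eval p (pderiv i (aeval W g))) hf.sum_X_mul_pderiv
  simp only [map_sum, map_mul, aeval_X, Derivation.leibniz, smul_eq_mul, map_add, hW, zero_mul,
    zero_add, map_nsmul, fun j => h1 (hf.pderiv (i := j)) (by omega), Finset.sum_const_zero] at h2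
  exact (smul_eq_zero.1 h2.symm).resolve_left (by omega)

/-! ### the cone of lines through a point -/

theorem exists_taylor {G : MvPolynomial (Fin 6) ℂ} (hG : G.IsHomogeneous 3) {p : Fin 6 → ℂ}
    (h0 : p 0 = 1) (hp : eval p G = 0) : ∃ l q c : MvPolynomial (Fin 5) ℂ, l.IsHomogeneous 1 ∧
      q.IsHomogeneous 2 ∧ c.IsHomogeneous 3 ∧
      G = X 0 ^ 2 * aeval (fun j : Fin 5 => X j.succ - C (p j.succ) * X 0) l +
        X 0 * aeval (fun j : Fin 5 => X j.succ - C (p j.succ) * X 0) q +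
        aeval (fun j : Fin 5 => X j.succ - C (p j.succ) * X 0) c := by
  set W : Fin 5 → MvPolynomial (Fin 6) ℂ := fun j => X j.succ - C (p j.succ) * X 0 with hW
  let sh : Fin 6 → MvPolynomial (Fin 6) ℂ :=
    Fin.cons (X 0) fun j => X j.succ + C (p j.succ) * X 0
  let un : MvPolynomial (Fin 6) ℂ →ₐ[ℂ] MvPolynomial (Fin 6) ℂ := aeval (Fin.cons (X 0) W)
  have h1 : un (aeval sh G) = G := by
    have h1 : un.comp (aeval sh) = AlgHom.id ℂ _ := by
      ext1 j
      refine Fin.cases ?_ (fun j => ?_) j <;> simp [un, sh, W]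
    exact DFunLike.congr_fun h1 G
  have h2 : (aeval sh G).IsHomogeneous 3 := by
    refine hG.aeval (n := 1) sh fun j => Fin.cases (isHomogeneous_X _ _) (fun j => ?_) j
    exact (isHomogeneous_X _ _).add (isHomogeneous_C_mul_X _ _)
  have h3 := eq_of_deh h2 (hom_isHomogeneous 3 (deh (aeval sh G)))
    (deh_hom ((totalDegree_deh _).trans h2.totalDegree_le)).symm
  have h4 : coeff 0 (deh (aeval sh G)) = 0 := by
    have h4 : (aeval (Fin.cons 1 0 : Fin 6 → ℂ)).comp (aeval sh) = aeval (R := ℂ) p := by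
      ext1 j
      refine Fin.cases ?_ (fun j => ?_) j <;> simp [sh, h0]
    rw [← constantCoeff_eq, ← eval_zero, eval_deh]
    exact (DFunLike.congr_fun h4 G).trans hp
  have h5 : ∀ g, un (rename Fin.succ g) = aeval W g := fun g => by
    simp only [un, aeval_rename]
    rfl
  refine ⟨_, _, _, homogeneousComponent_isHomogeneous 1 (deh (aeval sh G)),
    homogeneousComponent_isHomogeneous 2 (deh (aeval sh G)),
    homogeneousComponent_isHomogeneous 3 (deh (aeval sh G)), ?_⟩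
  have h6 : un (X 0) = X 0 := by simp [un]
  conv_lhs => rw [← h1, h3, hom]
  simp only [Finset.sum_range_succ, Finset.sum_range_zero, homogeneousComponent_zero, h4, map_add,
    map_mul, map_pow, h5, h6, map_zero]
  ring

/-- **the lines through a point of a smooth cubic fourfold**: the tangent hyperplane `L`, the
projection `Z` from the point inside `L`, and an equation `r` of the cone of lines -/
theorem exists_cone {G : MvPolynomial (Fin 6) ℂ} (hG : G.IsHomogeneous 3) (hs : Sm G)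
    {p : Fin 6 → ℂ} (h0 : p 0 = 1) (hp : eval p G = 0) :
    ∃ (L : MvPolynomial (Fin 6) ℂ) (Z : Fin 4 → MvPolynomial (Fin 6) ℂ)
      (r : MvPolynomial (Fin 4) ℂ) (k : ℕ), L.IsHomogeneous 1 ∧ L ≠ 0 ∧
      (∀ m, (Z m).IsHomogeneous 1) ∧
      (∀ i, X i ∈ Submodule.span ℂ (insert L (insert (X 0) (Set.range Z)))) ∧
      k ≠ 0 ∧ r.IsHomogeneous k ∧ ∀ (E : Type) [Field E] [Algebra ℂ E] (y : Fin 6 → E),
        aeval y G = 0 → aeval y L = 0 → aeval (fun m => aeval y (Z m)) r = 0 →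
        (∃ m, aeval y (Z m) ≠ 0) → Algebra.trdeg ℂ (qf ℂ fun m => aeval y (Z m)) ≤ 1 := by
  obtain ⟨l, q, c, hl, hq, hc, hG'⟩ := exists_taylor hG h0 hp
  set W : Fin 5 → MvPolynomial (Fin 6) ℂ := fun j => X j.succ - C (p j.succ) * X 0 with hW
  have hW1 : ∀ j, (W j).IsHomogeneous 1 := fun j =>
    (isHomogeneous_X _ _).sub (isHomogeneous_C_mul_X _ _)
  have hWp : ∀ j, eval p (W j) = 0 := fun j => by simp [W, h0]
  set a : Fin 5 → ℂ := fun j => eval 0 (pderiv j l) with ha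
  have hl' : l = ∑ j, C (a j) * X j := linear_eq hl
  obtain ⟨j0, hj0⟩ : ∃ j, a j ≠ 0 := by
    by_contra! h1
    obtain ⟨i, hi⟩ := hs p (fun h => by simp [h] at h0) hp
    have h2 := pderiv_aeval_zero hWp (d := 0) hq i
    have h3 := pderiv_aeval_zero hWp (d := 1) hc i
    refine hi ?_
    have h4 : l = 0 := hl'.trans (by simp [h1])
    rw [hG', h4]
    simp only [map_zero, mul_zero, zero_add, map_add, Derivation.leibniz, smul_eq_mul, map_mul,
      h2.1, h2.2, h3.2, zero_mul]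
  let Z : Fin 4 → MvPolynomial (Fin 6) ℂ := fun m => W (j0.succAbove m)
  let ψ : Fin 5 → MvPolynomial (Fin 4) ℂ :=
    j0.insertNth (-∑ m, C (a (j0.succAbove m) / a j0) * X m) X
  have hψ : ∀ j, (ψ j).IsHomogeneous 1 := fun j => by
    refine Fin.succAboveCases j0 ?_ (fun m => ?_) j
    · simp only [ψ, Fin.insertNth_apply_same]
      exact (IsHomogeneous.sum _ _ _ fun m _ => isHomogeneous_C_mul_X _ _).neg
    · simp only [ψ, Fin.insertNth_apply_succAbove]
      exact isHomogeneous_X _ _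
  set L := aeval W l with hL
  have hL1 : L.IsHomogeneous 1 := hl.aeval (n := 1) W hW1
  have hL2 : W j0 = C (a j0)⁻¹ * L - ∑ m, C (a (j0.succAbove m) / a j0) * Z m := by
    rw [hL, hl', map_sum, Fin.sum_univ_succAbove _ j0]
    simp only [map_mul (aeval W), aeval_X, algHom_C, algebraMap_eq, mul_add, Finset.mul_sum,
      ← mul_assoc, ← C_mul, inv_mul_cancel₀ hj0, C_1, one_mul, div_eq_inv_mul, Z,
      add_sub_cancel_right]
  have hL0 : L ≠ 0 := fun h => by
    have h1 := congrArg (eval (Pi.single j0.succ 1 : Fin 6 → ℂ)) hL2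
    simp [h, Z, W, (Fin.succ_ne_zero _).symm] at h1
  have hd : ∀ f, L ∣ aeval W f - aeval Z (aeval ψ f) := fun f => by
    have h1 : (Ideal.Quotient.mkₐ ℂ (Ideal.span {L})).comp (aeval W) =
        ((Ideal.Quotient.mkₐ ℂ (Ideal.span {L})).comp (aeval Z)).comp (aeval ψ) := by
      ext1 j
      simp only [AlgHom.comp_apply, aeval_X, Ideal.Quotient.mkₐ_eq_mk, Ideal.Quotient.eq,
        Ideal.mem_span_singleton]
      refine Fin.succAboveCases j0 ?_ (fun m => ?_) j
      · rw [hL2]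
        simp [ψ]
      · simp [ψ, Z]
    exact Ideal.mem_span_singleton.1 (Ideal.Quotient.eq.1 (DFunLike.congr_fun h1 f))
  have hZ : ∀ m, (Z m).IsHomogeneous 1 := fun m => hW1 _
  set q' := aeval ψ q
  set c' := aeval ψ c
  have hq' : q'.IsHomogeneous 2 := hq.aeval (n := 1) ψ hψ
  have hc' : c'.IsHomogeneous 3 := hc.aeval (n := 1) ψ hψ
  obtain ⟨B, hB⟩ : L ∣ G - (X 0 * aeval Z q' + aeval Z c') := by
    rw [hG', show ∀ x y y' z z' u : MvPolynomial (Fin 6) ℂ, x + u * y + z - (u * y' + z') =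
      x + u * (y - y') + (z - z') from fun _ _ _ _ _ _ => by ring]
    exact ((dvd_mul_left _ _).add ((hd q).mul_left _)).add (hd c)
  have hB0 : eval 0 B = 0 := eval_zero_of_mul hL1 hL0 (hB ▸ hG.sub
    (((isHomogeneous_X _ _).mul (hq'.aeval (n := 1) Z hZ)).add (hc'.aeval (n := 1) Z hZ)))
  have hred : ∀ (e : ℕ) (π Q Q' : MvPolynomial (Fin 4) ℂ), π.IsHomogeneous e → e ≠ 0 → e ≤ 2 →
      Q'.IsHomogeneous (3 - e) → q' = π * Q → c' ≠ π * Q' := by
    intro e π Q Q' h1 h2 h3 h4 h5 h6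
    refine not_sm (eval_zero_hom hL1 one_ne_zero) hB0
      (eval_zero_hom (h1.aeval (n := 1) Z hZ) (by omega)) (D := X 0 * aeval Z Q + aeval Z Q') ?_ ?_
    · rw [map_add, eval_zero_hom (h4.aeval (n := 1) Z hZ) (by omega)]
      simp
    · convert hs using 1
      rw [← hB, h5, h6, map_mul, map_mul]
      ring
  have hsp : ∀ i, X i ∈ Submodule.span ℂ (insert L (insert (X 0) (Set.range Z))) := by
    have h1 : X 0 ∈ Submodule.span ℂ (insert L (insert (X 0) (Set.range Z))) :=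
      Submodule.subset_span (by simp)
    have h2 : ∀ m, Z m ∈ Submodule.span ℂ (insert L (insert (X 0) (Set.range Z))) := fun m =>
      Submodule.subset_span (by simp)
    have h3 : ∀ j, W j ∈ Submodule.span ℂ (insert L (insert (X 0) (Set.range Z))) := fun j => by
      refine Fin.succAboveCases j0 ?_ h2 j
      rw [hL2]
      simp only [C_mul']
      exact sub_mem (Submodule.smul_mem _ _ (Submodule.subset_span (by simp)))
        (sum_mem fun m _ => Submodule.smul_mem _ _ (h2 m))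
    refine fun i => Fin.cases h1 (fun j => ?_) i
    have h4 := add_mem (h3 j) (Submodule.smul_mem _ (p j.succ) h1)
    simpa only [W, C_mul', sub_add_cancel] using h4
  have hev : ∀ (E : Type) [Field E] [Algebra ℂ E] (y : Fin 6 → E), aeval y G = 0 → aeval y L = 0 →
      y 0 * aeval (fun m => aeval y (Z m)) q' + aeval (fun m => aeval y (Z m)) c' = 0 := by
    intro E _ _ y h1 h2
    have h3 := congrArg (aeval y) hB
    have h4 : ∀ f, aeval y (aeval Z f) = aeval (fun m => aeval y (Z m)) f := fun f => by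
      rw [← AlgHom.comp_apply, comp_aeval]
    rwa [map_sub, map_mul, h1, h2, zero_mul, zero_sub, neg_eq_zero, map_add, map_mul, aeval_X,
      h4, h4] at h3
  have key : ∀ (r : MvPolynomial (Fin 4) ℂ) (k : ℕ), r.IsHomogeneous k → r ≠ 0 → k ≤ 2 →
      r ∣ q' → ∀ (E : Type) [Field E] [Algebra ℂ E] (y : Fin 6 → E),
        aeval y G = 0 → aeval y L = 0 → aeval (fun m => aeval y (Z m)) r = 0 →
        (∃ m, aeval y (Z m) ≠ 0) → Algebra.trdeg ℂ (qf ℂ fun m => aeval y (Z m)) ≤ 1 := by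
    rintro r k h1 h2 h3 ⟨Q0, h4⟩ E _ _ y h5 h6 h7 h8
    have h9 := hev E y h5 h6
    rw [h4, map_mul, h7, zero_mul, mul_zero, zero_add] at h9
    have h10 := trdeg_qf_le (n := 3) (P := ![r, c']) (d := ![k, 3])
      (Fin.forall_fin_two.2 ⟨h1, hc'⟩) (i0 := 0) h2 (fun e π h10 h11 h12 h13 => by
        obtain ⟨Q, -, h14⟩ := h13 0
        obtain ⟨Q', h15, h16⟩ := h13 1
        exact hred e π (Q * Q0) Q' h10 h11 (h12.trans h3) h15
          (by rw [h4, show r = π * Q from h14, mul_assoc]) h16) h8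
      (Fin.forall_fin_two.2 ⟨h7, h9⟩)
    rw [show ((3 : ℕ) : Cardinal) = 1 + 2 by norm_num] at h10
    exact (Cardinal.add_le_add_iff_of_lt_aleph0 (by simp)).1 h10
  by_cases hq0 : q' = 0
  · exact ⟨L, Z, X 0, 1, hL1, hL0, hZ, hsp, one_ne_zero, isHomogeneous_X _ _,
      key _ 1 (isHomogeneous_X _ _) (X_ne_zero _) one_le_two (hq0 ▸ dvd_zero _)⟩
  · exact ⟨L, Z, q', 2, hL1, hL0, hZ, hsp, two_ne_zero, hq', key _ 2 hq' hq0 le_rfl dvd_rfl⟩

end Crest.Agent.X262.Rho82
end
end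

-- ▼ part X262/Rho82/Rat
section

/-!
# Row 262, RHO (helper82), part 3: numerically trivial classes on rational varieties

* `eq_zero_of_trace` : a numerically trivial b-divisor without trace on a smooth model is zero;
* `lin_of_numZ`      : on a rational variety numerically trivial b-divisors are principal.
-/

set_option autoImplicit false

noncomputable section

namespace Crest.Agent.X262.Rho82

open Crest.Agent.X277 Crest.Agent.X277.Lef Crest.Agent.X277.BD Crest.Agent.X277.BD.Br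
open Crest.Agent.X277.Link (IsPD)
open scoped KaehlerDifferential
open List (replicate)

variable {F : Type} [Field F] [Algebra ℂ F] [Algebra.EssFiniteType ℂ F] {P : PModel ℂ F}
  {z : BD ℂ F} {d : ℕ}

theorem nonpos_of_trace (hd : dim ℂ F = d + 1) (hz : NumZ z)
    (h : ∀ v (hv : IsPD P v), ord v hv.triv z = 0) : z ≤ 0 := by
  refine sup_eq_right.1 (eq_zero_of_sq free_oP.nef (big_oP P) le_sup_right (fun e => ?_) fun Λ => ?_)
  · by_cases he : e = d
    · rw [he]
      exact FG.Prm5.bnum_eq_zero_of_pd hd fun v hv => by rw [ord_sup, h v hv, map_zero, max_self]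
    · exact bnum_of_ne (by simpa [hd] using he)
  · have h1 : z ⊔ 0 = z + (-z) ⊔ 0 := by rw [add_sup, add_neg_cancel, add_zero, sup_comm]
    have h2 := null_of_inf (a := z ⊔ 0) (b := (-z) ⊔ 0) le_sup_right (fun V hV => by
      rw [val_sup, val_zero, lt_max_iff, or_iff_left (lt_irrefl _)] at hV
      rw [val_sup, val_zero, val_neg, max_eq_right (inv_le_one_of_one_le₀ hV.le)]) Λ
    nth_rewrite 2 [h1]
    rw [bnum_add2, h2, bnum_swap, hz, add_zero]

/-- a numerically trivial b-divisor without trace on a smooth model is zero -/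
theorem eq_zero_of_trace (hd : dim ℂ F = d + 1) (hz : NumZ z)
    (h : ∀ v (hv : IsPD P v), ord v hv.triv z = 0) : z = 0 :=
  le_antisymm (nonpos_of_trace hd hz h)
    (neg_nonpos.1 (nonpos_of_trace hd hz.neg fun v hv => by rw [map_neg, h v hv, neg_zero]))

/-- if the Picard group of one smooth model is generated by the hyperplane class, all numerically
trivial b-divisors are principal -/
theorem lin_of_numZ' (hd : dim ℂ F = d + 1) (hP : ∀ a ∈ On P, ∃ c : ℤ, Lin a (c • oP P))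
    (hz : NumZ z) : Lin z 0 := by
  obtain ⟨τ, h1, h2⟩ := FG.exists_wd (P := P) (Finsupp.ofSupportFinite _ (FG.finite_ord P z))
  have h3 : ∀ v (hv : IsPD P v), ord v hv.triv (z - τ) = 0 := fun v hv => by
    rw [map_sub, h2 v hv, Finsupp.ofSupportFinite_coe, sub_self]
  obtain ⟨c, hc⟩ := hP τ h1
  have h4 := FG.Prm5.bnum_eq_zero_of_pd hd h3
  rw [bnum_sub, hz, hc.bnum_eq, bnum_zsmul, zero_sub, neg_eq_zero, ← List.replicate_succ,
    ← hd] at h4
  obtain rfl := (mul_eq_zero.1 h4).resolve_right (free_oP.nef.big_iff.1 (big_oP P)).ne'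
  rw [zero_smul] at hc
  have h5 := eq_zero_of_trace hd (hz.sub fun l => (hc.bnum_eq l).trans (bnum_zero l)) h3
  rwa [sub_eq_zero.1 h5]

/-- **on a rational variety numerically trivial b-divisors are principal** -/
theorem lin_of_numZ (b : Module.Basis (Fin (d + 1)) F Ω[F⁄ℂ]) (hN : P.N = d + 1) (hz : NumZ z) :
    Lin z 0 :=
  lin_of_numZ' ((Module.finrank_eq_card_basis b).trans (Fintype.card_fin _))
    (fun _ ha => Fano.rho_proj b hN ha) hz

end Crest.Agent.X262.Rho82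
end
end

-- ▼ part X262/Rho82/Main

/-!
# Row 262, RHO (helper82), part 5: a rational smooth cubic fourfold has Picard number one

The class `h²` is a multiple of the cone of lines through a point, on which all Cartier divisors
have non-negative square. By the Hodge index theorem primitive divisors are numerically trivial,
hence principal because the field is rational.

* `sq_nonneg_cubic`, `rho_cubic`, `fanoXStmt`.
-/

set_option autoImplicit false

noncomputable section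

namespace Crest.Agent.X262.Rho82

open Crest.Agent.X277 Crest.Agent.X277.Lef Crest.Agent.X277.AN.G1 Crest.Agent.X277.BD
open Crest.Agent.X277.BD.Cyc Crest.Agent.X277.BD.Br Crest.Agent.X262.Top MvPolynomial
open scoped KaehlerDifferential
open List (replicate)

variable {K E : Type} [Field K] [Algebra ℂ K] [Field E] [Algebra ℂ E]

theorem Bd.lin {H H' a a' : BD ℂ K} (h : Bd H a) (h1 : Lin H H') (h2 : Lin a a') : Bd H' a' := by
  obtain ⟨m, h3, h4⟩ := h
  rw [sub_eq_add_neg] at h4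
  exact ⟨m, ((h1.nsmul m).add h2).symm.nef h3, by
    simpa only [sub_eq_add_neg] using ((h1.nsmul m).add h2.neg).symm.nef h4⟩

theorem aeval_mem_Sec {ι : Type} [Fintype ι] {y : ι → K} (h0 : ∃ i, y i ≠ 0)
    {q : MvPolynomial ι ℂ} {d : ℕ} (hq : q.IsHomogeneous d) : aeval y q ∈ (d • mxf ℂ y).Sec :=
  fun V => by
    obtain ⟨i, hi⟩ := exists_val_mxf (k := ℂ) h0 V
    have h1 := (r_aeval (lnr_plV V) (fun j => div_mem_of hi (mem_Sec_mxf y j)) q).1
    rw [aeval_div hq] at h1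
    rw [val_nsmul, ← hi, ← map_pow]
    exact (RZ.le_iff (pow_ne_zero d (ne_of_val hi))).2 h1

theorem exists_cn {y : Fin 6 → E} {i : Fin 6} (hi : y i = 1) {w : Fin 4 → E}
    (h1 : ∀ j, y j ∈ Submodule.span ℂ (insert (y 0) (Set.range w)))
    (h2 : ∀ m, w m ∈ (mxf ℂ y).Sec) (h3 : (∃ m, w m ≠ 0) → Algebra.trdeg ℂ (qf ℂ w) ≤ 1) :
    ∃ (L : IntermediateField ℂ E) (t : E) (z : Fin 4 → E) (h : BD ℂ E), Cn L t z h ∧
      Lin (mxf ℂ y) h ∧ ∀ j, y j ∈ IntermediateField.adjoin L {t} := by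
  have h0 : ∃ i, y i ≠ 0 := ⟨i, hi ▸ one_ne_zero⟩
  by_cases hw : ∃ m, w m ≠ 0
  · obtain ⟨m0, hm⟩ := id hw
    have h4 : ∀ j, y j / w m0 ∈ IntermediateField.adjoin (qf ℂ w) {y 0 / w m0} := fun j => by
      refine Submodule.span_induction (p := fun x _ =>
        x / w m0 ∈ IntermediateField.adjoin (qf ℂ w) {y 0 / w m0}) ?_ ?_ ?_ ?_ (h1 j)
      · rintro _ (rfl | ⟨m, rfl⟩)
        · exact IntermediateField.mem_adjoin_simple_self _ _
        · exact IntermediateField.algebraMap_mem _ (⟨_, div_mem_qf w m0 m⟩ : qf ℂ w)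
      · rw [zero_div]
        exact zero_mem _
      · exact fun _ _ _ _ h h' => add_div (K := E) _ _ _ ▸ add_mem h h'
      · intro c x _ h
        rw [Algebra.smul_def, mul_div_assoc, IsScalarTower.algebraMap_apply ℂ (qf ℂ w) E]
        exact mul_mem (IntermediateField.algebraMap_mem _ _) h
    have h5 : ∀ {x}, x ∈ (mxf ℂ y).Sec → x / w m0 ∈ (mxf ℂ y - pr ℂ (w m0)).Sec := fun hx =>
      (mem_Sec_sub_pr hm).2 (by rwa [div_mul_cancel₀ _ hm])
    refine ⟨qf ℂ w, y 0 / w m0, fun m => w m / w m0, mxf ℂ y - pr ℂ (w m0),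
      ⟨h3 hw, fun m => div_mem_qf w m0 m, ⟨m0, div_ne_zero hm hm⟩, h5 (mem_Sec_mxf y 0),
        fun m => h5 (h2 m), fun V => ?_⟩, ⟨_, hm, (sub_add_cancel _ _).symm⟩, fun j => ?_⟩
    · simp only [map_div₀, val_sub, val_pr hm, div_left_inj' (RZ.ne_zero_iff.2 hm)]
      obtain ⟨j, hj⟩ := exists_val_mxf (k := ℂ) h0 V
      obtain ⟨o, ho⟩ := exists_val_mxf (k := ℂ) (s := fun o : Option (Fin 4) => o.elim (y 0) w)
        ⟨some m0, hm⟩ V
      have h6 := RZ.v_le_of_span (V := V) (γ := V.v (o.elim (y 0) w)) (by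
        rintro _ (rfl | ⟨m, rfl⟩)
        exacts [ho ▸ mem_Sec_mxf _ none V, ho ▸ mem_Sec_mxf _ (some m) V]) (h1 j)
      rw [hj] at h6
      cases o
      exacts [Or.inl (le_antisymm (mem_Sec_mxf y 0 V) h6), Or.inr ⟨_, le_antisymm (h2 _ V) h6⟩]
    · have h6 := div_mem (h4 j) (h4 i)
      rwa [hi, div_div_div_cancel_right₀ hm, div_one] at h6
  · push Not at hw
    have h4 : ∀ j, ∃ c : ℂ, c • y 0 = y j := fun j => Submodule.mem_span_singleton.1
      (Submodule.span_le.2 (by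
        rintro _ (rfl | ⟨m, rfl⟩)
        exacts [Submodule.mem_span_singleton_self _, hw m ▸ zero_mem _]) (h1 j))
    choose c hc using h4
    have h5 : ∀ j, y j = algebraMap ℂ E (c j / c i) := fun j => by
      have h5 := hc i
      rw [hi, Algebra.smul_def] at h5
      rw [← hc j, Algebra.smul_def, map_div₀, eq_inv_of_mul_eq_one_right h5, div_eq_mul_inv]
    refine ⟨⊥, 0, fun _ => 1, 0, ⟨?_, fun _ => one_mem _, ⟨0, one_ne_zero⟩, zero_mem _,
      fun _ => one_mem_Sec, fun V => Or.inr ⟨0, map_one _⟩⟩, ?_, fun j => ?_⟩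
    · rw [trdeg_eq_zero]
      exact zero_le_one
    · rw [eq_mxf (a := 0) (s := y) (fun j V => h5 j ▸ V.v_alg_le _) fun V => ⟨i, hi ▸ map_one _⟩]
      exact Lin.rfl
    · rw [h5, IsScalarTower.algebraMap_apply ℂ (⊥ : IntermediateField ℂ E) E]
      exact IntermediateField.algebraMap_mem _ _

variable {G L : MvPolynomial (Fin 6) ℂ} {Z : Fin 4 → MvPolynomial (Fin 6) ℂ}
  {r : MvPolynomial (Fin 4) ℂ} {k : ℕ}

/-- the tangent hyperplane at a point and the cone of lines -/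
structure Tg (G L : MvPolynomial (Fin 6) ℂ) (Z : Fin 4 → MvPolynomial (Fin 6) ℂ)
    (r : MvPolynomial (Fin 4) ℂ) (k : ℕ) : Prop where
  hG : G.IsHomogeneous 3
  hL : L.IsHomogeneous 1
  ne : L ≠ 0
  hZ : ∀ m, (Z m).IsHomogeneous 1
  sp : ∀ i, X i ∈ Submodule.span ℂ (insert L (insert (X 0) (Set.range Z)))
  k_ne : k ≠ 0
  hr : r.IsHomogeneous k
  tr : ∀ (E : Type) [Field E] [Algebra ℂ E] (y : Fin 6 → E), aeval y G = 0 → aeval y L = 0 →
    aeval (fun m => aeval y (Z m)) r = 0 → (∃ m, aeval y (Z m) ≠ 0) →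
      Algebra.trdeg ℂ (qf ℂ fun m => aeval y (Z m)) ≤ 1

theorem Tg.hR (T : Tg G L Z r k) : (aeval Z r).IsHomogeneous k := by
  simpa using T.hr.aeval (n := 1) Z T.hZ

/-- places with centre in the cone -/
theorem Tg.cone (T : Tg G L Z r k) (X : Hyp 5 G K) [Algebra.EssFiniteType ℂ E] {p : Pl ℂ K ℂ E}
    (hp : Lnr p) (h1 : p.V.v (aeval X.y L) < (oP X.P).val p.V)
    (h2 : p.V.v (aeval X.y (aeval Z r)) < (k • oP X.P).val p.V) :
    bnum (replicate 3 (p.rs (oP X.P))) = 0 ∧ ∀ a ∈ On X.P, 0 ≤ bnum [p.rs a, p.rs a] := by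
  obtain ⟨x, hx⟩ := exists_ov' X.P p.V
  obtain ⟨i, hi⟩ := exists_pat x
  have h3 := at_y hi p.V hx
  have h4 : ∀ j, X.y j / X.y i ∈ p.V.1 := fun j => hx _ (y_mem hi j)
  set y : Fin 6 → E := fun j => p.r (X.y j / X.y i) with hy
  have h5 : y i = 1 := by simp only [hy, div_self (X.y_ne i), Pl.r_one]
  have h6 : ∀ {q : MvPolynomial (Fin 6) ℂ} {d : ℕ}, q.IsHomogeneous d →
      p.V.v (aeval X.y q) < (d • oP X.P).val p.V → aeval y q = 0 := fun {q d} hq h => by
    rw [← (r_aeval hp h4 q).2, Pl.r_eq_zero (r_aeval hp h4 q).1, aeval_div hq, map_div₀, map_pow]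
    rw [val_nsmul, ← h3] at h
    exact (div_lt_one₀ (pow_pos (RZ.pos (X.y_ne i)) d)).2 h
  have h7 := h6 T.hL (by rwa [one_smul])
  obtain ⟨M, t, z, h, c, h8, h9⟩ := exists_cn h5 (w := fun m => aeval y (Z m)) (fun j => by
      have h8 := Submodule.apply_mem_span_image_of_mem_span (aeval y).toLinearMap (T.sp j)
      rw [Set.image_insert_eq, Set.image_insert_eq, ← Set.range_comp] at h8
      simpa only [AlgHom.toLinearMap_apply, aeval_X, h7, Submodule.span_insert_zero,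
        Function.comp_def] using h8)
    (fun m => by simpa using aeval_mem_Sec ⟨i, h5 ▸ one_ne_zero⟩ (T.hZ m))
    (T.tr E y (h6 T.hG (by rw [(X.ker 3 G T.hG).2 dvd_rfl, map_zero]; exact val_pos _ _)) h7
      (by rw [← h6 T.hR h2, ← AlgHom.comp_apply, comp_aeval]))
  have h10 : Lin (p.rs (oP X.P)) h := (lin_rs_mxf ⟨i, X.y_ne i⟩ h3).trans h8
  refine ⟨(Loc.bnum_rep_lin h10 3 []).trans c.cube, fun a ha => ?_⟩
  obtain ⟨b, hb, n, h11, rfl⟩ := exists_sub_On ha
  obtain ⟨_, s, h12, h13, rfl⟩ := exists_gn hb h11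
  obtain ⟨j, h14, h15⟩ := h13 x
  have h16 := lin_rs_mxf (p := p) ⟨j, h14⟩ (at_mxf h14 h15 p.V hx)
  have h17 := (lin_rs_sub p _ _).trans (by
    simpa only [sub_eq_add_neg] using h16.add ((lin_rs_nsmul p n _).trans (h10.nsmul n)).neg)
  rw [h17.bnum_eq, bnum_swap, h17.bnum_eq, ← sub_eq_add_neg]
  refine c.nonneg ⟨j, by rw [div_self h14, Pl.r_one]; exact one_ne_zero⟩ (fun l => ?_)
    (((bd_of_car (car_oP hb)).rs p).lin h10 h16) n
  have h18 : ∀ u ∈ X.P.A i, u ∈ p.V.1 ∧ p.r u ∈ IntermediateField.adjoin M {t} := fun u hu => by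
    obtain ⟨q, rfl⟩ := exists_poly hu
    refine ⟨(r_aeval hp h4 q).1, (r_aeval hp h4 q).2 ▸ ?_⟩
    refine (show (aeval y).range ≤
      ((IntermediateField.adjoin M {t}).restrictScalars ℂ).toSubalgebra from ?_) ⟨q, rfl⟩
    rw [← Algebra.adjoin_range_eq_range_aeval, Algebra.adjoin_le_iff]
    rintro _ ⟨m, rfl⟩
    exact h9 m
  obtain ⟨u, hu, w, hw, h19, h20⟩ := (mem_lp_iff hi).1 (h15 l)
  have h21 := ev_ne_iff'.1 h19 p.V hx
  rw [eq_div_of_mul_eq (RZ.ne_zero_iff.1 (h21 ▸ one_ne_zero)) h20, Pl.r_div (h18 u hu).1 h21]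
  exact div_mem (h18 u hu).2 (h18 w hw).2

theorem Tg.nonneg (T : Tg G L Z r k) (X : Hyp 5 G K) [Algebra.EssFiniteType ℂ K]
    (hd : dim ℂ K = 4) {a : BD ℂ K} (ha : a ∈ On X.P) : 0 ≤ bnum [oP X.P, oP X.P, a, a] := by
  have h0 : ∃ i, X.y i ≠ 0 := ⟨0, X.y_ne 0⟩
  have h1 : aeval X.y L ≠ 0 := fun h => by
    have h1 := (X.ker 1 L T.hL).1 h
    have h2 := totalDegree_le_of_dvd_of_isDomain h1 T.ne
    rw [T.hG.totalDegree fun h => T.ne (zero_dvd_iff.1 (h ▸ h1)), T.hL.totalDegree T.ne] at h2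
    omega
  have h2 : aeval X.y L ∈ (oP X.P).Sec := one_smul ℕ (oP X.P) ▸ aeval_mem_Sec h0 T.hL
  have h3 : aeval X.y (aeval Z r) ∈ (k • oP X.P).Sec := aeval_mem_Sec h0 T.hR
  rw [Lin.bnum_eq ⟨_, h1, (sub_add_cancel _ _).symm⟩]
  refine cyc_nonneg (d := 3) hd (sub_nonneg.2 ((pr_le_iff h1).2 h2)) fun V _ hV h4 => ?_
  rw [val_sub, val_pr h1, one_lt_div₀ (RZ.pos h1)] at h4
  rcases (h3 V).lt_or_eq with h5 | h5
  · refine (null_of_bd (free_oP.nef.rs (plV V)) ([oP X.P, a, a].map (plV V).rs)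
      (List.forall_mem_map.2 ?_) [] (by simp) (T.cone X (lnr_plV V) h4 h5).1).ge
    exact fun x hx => (bd_of_car (car_oP (all_con oP_mem (all_rp ha 2) x hx))).rs _
  have h6 := ne_of_val h5
  have h7 := Pl.val_sub_gen (p := plV V) h5
  refine nonneg_of_mul_nonneg_right (a := (k : ℤ)) ?_ (by have := T.k_ne; omega)
  rw [List.map_cons, ← bnum_nsmul, ← (lin_rs_nsmul _ _ _).bnum_eq,
    (Pl.lin_rs (p := plV V) h5).bnum_eq]
  refine cyc_nonneg (d := 2) hV (Pl.res_nonneg h7 (sub_nonneg.2 ((pr_le_iff h6).2 h3)))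
    fun W _ _ h8 => ?_
  have h9 := Fam.cmp_cmp (plV V) (plV W)
  generalize Fam.cmp (plV V) (plV W) = t at h9
  have h10 := (T.cone X (p := t) (fun c => by rw [h9.r _ (t.V.2 c), lnr_plV, lnr_plV])
    ((h2 _).lt_of_ne fun h => h4.ne (val_of_le h9.le h))
    ((h3 _).lt_of_ne fun h => h8.ne' (h9.val_q (Pl.val_sub_gen h)))).2 a ha
  rw [← (h9.rs a).bnum_eq, bnum_swap, ← (h9.rs a).bnum_eq] at h10
  exact h10

/-- `h² a² ≥ 0` on a smooth cubic fourfold -/
theorem sq_nonneg_cubic (X : Hyp 5 G K) (hG : SmCub G) [Algebra.EssFiniteType ℂ K]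
    (hd : dim ℂ K = 4) {a : BD ℂ K} (ha : a ∈ On X.P) : 0 ≤ bnum [oP X.P, oP X.P, a, a] := by
  obtain ⟨x, hx, -⟩ := exists_ev_ne (P := X.P) (i := 0) (one_mem _) one_ne_zero
  obtain ⟨L, Z, r, k, h1, h2, h3, h4, h5, h6, h7⟩ := exists_cone hG.1 hG.2
    (p := fun j => ev (X.y j / X.y 0) x) (by
      simp only [div_self (X.y_ne 0)]
      exact (lp x).v_one) (by
      rw [← LP.v_aeval (fun j => y_mem hx j), aeval_div hG.1, (X.ker 3 G hG.1).2 dvd_rfl, zero_div,
        LP.v_zero])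
  exact Tg.nonneg ⟨hG.1, h1, h2, h3, h4, h5, h6, h7⟩ X hd ha

/-- **a rational smooth cubic fourfold has Picard number one** -/
theorem rho_cubic (b : Module.Basis (Fin 4) K Ω[K⁄ℂ]) (X : Hyp 5 G K) (hG : SmCub G)
    (Y : Hyp 4 0 K) {a : BD ℂ K} (ha : a ∈ On X.P) :
    ∃ m : ℕ, 0 < m ∧ ∃ c : ℤ, Lin (m • a) (c • oP X.P) := by
  have := essFiniteType X.P
  have hd : dim ℂ K = 4 := (Module.finrank_eq_card_basis b).trans (Fintype.card_fin _)
  have h1 : 0 < bnum (replicate 4 (oP X.P)) := hd ▸ free_oP.nef.big_iff.1 (big_oP X.P)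
  obtain ⟨m, hm⟩ := Int.eq_ofNat_of_zero_le h1.le
  set z := m • a - bnum (a :: replicate 3 (oP X.P)) • oP X.P with hz
  have h2 : z ∈ On X.P := sub_mem (nsmul_mem ha m) (zsmul_mem oP_mem _)
  have h3 : bnum (z :: replicate 3 (oP X.P)) = 0 := by
    rw [hz, bnum_sub, bnum_nsmul, bnum_zsmul, ← List.replicate_succ, hm, mul_comm, sub_self]
  have h4 := bnum_cs z (free_oP (P := X.P)).nef (all_rp (free_oP (P := X.P)).nef 2)
  rw [← List.replicate_succ, h3, zero_pow two_ne_zero, ← List.replicate_succ] at h4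
  have h5 : bnum (z :: z :: replicate 2 (oP X.P)) = 0 := le_antisymm
    (nonpos_of_mul_nonpos_left h4 h1)
    ((sq_nonneg_cubic X hG hd h2).trans_eq (bnum_comm [_, _] [z, z]))
  have h6 := lin_of_numZ (P := Y.P) b rfl (numZ_of_on h2 (fun e => ?_) fun e => ?_)
  · exact ⟨m, by omega, _, by simpa [hz] using h6.add (Lin.rfl (a := bnum (a :: replicate 3
      (oP X.P)) • oP X.P))⟩
  · by_cases he : e = 3
    exacts [he ▸ h3, bnum_of_ne (by simpa [hd] using he)]
  · by_cases he : e = 2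
    exacts [he ▸ h5, bnum_of_ne (by simpa [hd] using he)]

theorem fanoXStmt : FanoXStmt :=
  Fano.fanoX_of_rho fun _ _ _ _ b X hG ⟨Y⟩ _ ha => rho_cubic b X hG Y ha

end Crest.Agent.X262.Rho82
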