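import Crest.Agent.X262.FG.C2b_Mg
import Crest.Agent.X277.AN.G1Conn
import Crest.Agent.X262.FG.Lift2
import Crest.Agent.X262.FG.Up0
import Crest.Agent.X262.FG.Fac
import Crest.Agent.X262.KV.Fc
import Crest.Agent.X262.FG.S4b
import Crest.Agent.X262.FG.Inv
import Crest.Agent.X262.FG.Dj0
import Crest.Agent.X262.FG.Basic
import Crest.Agent.X277.Up.B
import Crest.Agent.X262.Rho82.Nef
import Crest.Agent.X262.FG.NvDefs

-- ▼ part X262/FG/NvMain
section

/-!
# Row 262, FG, section 5 (helper29): assembly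

* `bStmt_of`  : the four steps imply `BStmt (n + 1)`;
* `nvStmt_of` : `NVStmt` from the remaining inputs.
-/

set_option autoImplicit false

noncomputable section

namespace Crest.Agent.X262.FG.Sg

open Crest.Agent.X277 Crest.Agent.X277.Lef Crest.Agent.X277.AN.G1 Crest.Agent.X277.BD

theorem bStmt_of {n : ℕ} (h1 : C1aStmt n) (h2 : C1bStmt (n + 1)) (h3 : C2aStmt n)
    (h4 : C2bStmt n) : BStmt (n + 1) := by
  intro F _ _ P B b κ _ S
  have : Algebra.EssFiniteType ℂ F := essFiniteType P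
  have key : ∀ x₀ ∈ {x | Ps (lr (S.D b) x)} ∩ stdSimplex ℝ κ, Con (S.D b) x₀ := by
    rintro x₀ ⟨hp, hx⟩
    by_cases hs : Small P (lr (S.D b) x₀) (n + 1)
    · exact h2 F P B b κ S x₀ hx (h1 F P b _ (onR_lr (S.D_mem b) x₀) hp hs)
    · exact (h3 F P B b κ S x₀ hx hp hs).elim (h4 F P b κ _ (S.D_mem b) x₀ hx)
  refine fin_gen (C := {x | Ps (lr (S.D b) x)}) (E := {d | Eff (lc (S.D b) d)})
    (isClosed_ps (S.D_mem b)) (fun x hx y hy a c ha hc _ => ?_) (fun x hx c hc => ?_)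
    (fun d hd => ?_) (fun x₀ hx₀ => ?_) fun x₀ hx₀ => (key x₀ hx₀).2
  · rw [Set.mem_ofPred_eq, map_add, map_smul, map_smul]
    exact (Ps.smul hx ha).add (Ps.smul hy hc)
  · rw [Set.mem_ofPred_eq, map_smul]
    exact Ps.smul hx hc
  · rw [Set.mem_ofPred_eq, lr_nc]
    exact ps_eff hd
  · obtain ⟨δ, hδ, h⟩ := (key x₀ hx₀).1
    exact ⟨δ, hδ, fun x hx => h x hx.2 hx.1⟩

/-- **section 5** from the geometric inputs -/
theorem nvStmt_of (hZ : NZStmt) (hL : ∀ n, L51Stmt n) (hV : VGStmt) (hT : ∀ n, PtStmt n)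
    (hp : ∀ n, PosStmt n) (h1 : ∀ n, C1aStmt n) (hQ : ∀ n, RStmt n → QStmt n) : NVStmt :=
  fun n hR => bStmt_of (h1 n) (c1bStmt_of hZ (hL _)) (c2a_of hV (hT _) (upNStmt _) (hp n))
    (c2b_of (hQ _ hR) (hp n))

end Crest.Agent.X262.FG.Sg
end
end

-- ▼ part X262/FG/Lift
section

/-!
# Row 262, FG (helper6): the lifting theorem, unconditional
-/

set_option autoImplicit false

noncomputable section

namespace Crest.Agent.X262.FG

open Crest.Agent.X277 Crest.Agent.X277.BD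

theorem kvStmt (n : ℕ) : KVStmt n := by
  intro F _ _ P B b e E _ _ Φ D N q φ s' hD hN hB hq hφ hD0 hN0 hle hs0 hs
  have q1 : (1 : ℤ) ≤ q := by exact_mod_cast hq
  refine KV.kvl n F P B b e E Φ D N q (((q : ℤ) - 1) • Lf.oth e) hD hN hB hq (fun e₁ => ?_)
    (by simp [Lf.oth_self]) hD0 hN0 hle s' ((pr_le_iff (pow_ne_zero q hs0)).1 ?_)
  · by_cases h : e₁ = e
    · simpa [h, Lf.oth_self] using hq
    · simpa [Lf.oth_ne h] using q1
  · rw [pr_pow hs0, ← Φ.R_eq hN0]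
    refine hs.trans (add_le_add_right (dvs_mono fun w => ?_) _)
    have := hφ w
    rw [Pi.smul_apply, Lf.oth_ne (Φ.l_ne w), smul_eq_mul]
    omega

theorem excStmt : ExcStmt := fun _ _ _ _ _ _ _ h =>
  let ⟨N, g, _, h1, h2⟩ := exists_amp h
  ⟨N, g, h1.1, h1.2, h2⟩

/-- **the lifting theorem of Hacon and McKernan** -/
theorem liftStmt (n : ℕ) : LiftStmt n := liftStmt_of (kvStmt n) facUpStmt excStmt

end Crest.Agent.X262.FG
end
end

-- ▼ part X262/FG/S4c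
section

/-!
# X262/FG/S4c (helper81): finite generation of a restricted family, abstract form

`R x` : restricted sections, `Ad (x, g)` : sections on the divisor vanishing to order `g j` along
`v j`.  If `Ad` is finitely generated on `{g ≤ b x}` and sections lift as soon as the asymptotic
fixed part is small enough, then `R` is finitely generated (`Dat.fg`).
-/

set_option autoImplicit false
set_option linter.unusedSectionVars false

open Finset Filter Topology WithZero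

namespace Crest.Agent.X262.FG.S4

open Crest.Agent.X262.Cvx

variable {κ J : Type} [Fintype κ] [Fintype J]

/-- the monoid `g ≤ b x` -/
def bm (b : J → (κ → ℕ) →+ ℕ) : AddSubmonoid ((κ → ℕ) × (J → ℕ)) where
  carrier := {p | ∀ j, p.2 j ≤ b j p.1}
  zero_mem' j := by simp
  add_mem' {p q} h h' j := by
    simp only [Prod.snd_add, Prod.fst_add, Pi.add_apply, map_add]
    exact add_le_add (h j) (h' j)

/-- the data -/
structure Dat (k E κ J : Type) [Field k] [Field E] [Algebra k E] [Fintype κ] [Fintype J] where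
  /-- restricted sections -/
  R : (κ → ℕ) → Submodule k E
  /-- sections on the divisor -/
  Ad : (κ → ℕ) × (J → ℕ) → Submodule k E
  /-- the primes -/
  v : J → Valuation E ℤᵐ⁰
  /-- the coefficients of the divisors -/
  t : J → (κ → ℕ) →+ ℤ
  /-- the boundary -/
  b : J → (κ → ℕ) →+ ℕ
  triv : ∀ j (c : k), v j (algebraMap k E c) ≤ 1
  mR : Gr.Mult R ⊤
  mA : Gr.Mult Ad (bm b)
  fgA : Gr.FG Ad (bm b)
  R_le : ∀ x, ∀ s ∈ R x, ∀ j, v j s ≤ exp (t j x)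
  A_le : ∀ p, ∀ s ∈ Ad p, ∀ j, v j s ≤ exp (t j p.1 - p.2 j)
  mem_A : ∀ p : (κ → ℕ) × (J → ℕ), ∀ s ∈ R p.1, (∀ j, v j s ≤ exp (t j p.1 - p.2 j)) → s ∈ Ad p
  lift : ∃ N : ℕ, ∀ p ∈ bm b, (∀ L : ℕ, ∃ (q : ℕ) (x : κ → ℕ), 0 < q ∧
    (∀ i, (N : ℤ) * |(q * p.1 i - x i : ℤ)| ≤ q) ∧ ∃ s ∈ R x, s ≠ 0 ∧ ∀ j, p.2 j < b j p.1 →
      L * (t j x - log (v j s)) ≤ q * (L * p.2 j + 1)) → Ad p ≤ R p.1

namespace Dat

variable {k E : Type} [Field k] [Field E] [Algebra k E] (D : Dat k E κ J)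

/-- asymptotic fixed parts along `T` -/
def U (T : Finset J) : Set ((κ → ℝ) × (J → ℝ)) :=
  {z | ∃ (q : ℕ) (x : κ → ℕ), 0 < q ∧ (∀ i, q * z.1 i = x i) ∧ ∃ s ∈ D.R x, s ≠ 0 ∧
    ∀ j ∈ T, ((D.t j x - log (D.v j s) : ℤ) : ℝ) ≤ q * z.2 j}

theorem U_rat {T : Finset J} {z : (κ → ℝ) × (J → ℝ)} (hz : z ∈ D.U T) {r : ℚ} (hr : 0 < r) :
    (r : ℝ) • z ∈ D.U T := by
  obtain ⟨q, x, hq, h1, s, hs, h0, h2⟩ := hz
  obtain ⟨a, ha⟩ := Int.eq_ofNat_of_zero_le (Rat.num_pos.2 hr).le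
  have h3 : (r.den : ℝ) * r = a := by
    have h4 : (r.den : ℚ) * r = a := by rw [Rat.den_mul_eq_num, ha]; simp
    exact_mod_cast h4
  refine ⟨q * r.den, a • x, Nat.mul_pos hq r.den_pos, fun i => ?_, s ^ a,
    D.mR.pow trivial hs a, pow_ne_zero _ h0, fun j hj => ?_⟩
  · simp only [Prod.smul_fst, Pi.smul_apply, smul_eq_mul]
    push_cast
    rw [← h1 i, ← h3]; ring
  · simp only [Prod.smul_snd, Pi.smul_apply, smul_eq_mul, map_nsmul, map_pow, log_pow]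
    have h5 := mul_le_mul_of_nonneg_left (h2 j hj) (Nat.cast_nonneg (α := ℝ) a)
    push_cast at h5 ⊢
    calc _ = (a : ℝ) * ((D.t j x : ℝ) - (log (D.v j s) : ℤ)) := by simp [mul_sub]
      _ ≤ _ := h5
      _ = _ := by rw [← h3]; ring

theorem U_smul {T : Finset J} {z : (κ → ℝ) × (J → ℝ)} (hz : z ∈ closure (D.U T)) {t : ℝ}
    (ht : 0 < t) : t • z ∈ closure (D.U T) := by
  obtain ⟨u, -, h1, h2⟩ := Real.exists_seq_rat_strictAnti_tendsto t
  refine isClosed_closure.mem_of_tendsto (h2.smul_const z) (Eventually.of_forall fun n => ?_)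
  have h3 : (0 : ℚ) < u n := by exact_mod_cast ht.trans (h1 n)
  exact map_mem_closure (f := fun z => ((u n : ℚ) : ℝ) • z) (continuous_const_smul _) hz
    fun z hz => D.U_rat hz h3

section Gens

variable {n : ℕ} (d : Fin n → (κ → ℕ) × (J → ℕ)) (f : Fin n → E)

/-- the degree of a monomial -/
def dg (o : Option J) : (Option J × Fin n → ℕ) →+ (κ → ℕ) × (J → ℕ) where
  toFun y := ∑ i, y (o, i) • d i
  map_zero' := by simp
  map_add' y y' := by simp [add_smul, sum_add_distrib]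

/-- real degrees -/
def X1 (o : Option J) (c : κ) : (Option J × Fin n → ℝ) →ₗ[ℝ] ℝ :=
  ∑ i, ((d i).1 c : ℝ) • LinearMap.proj (o, i)

/-- real degrees -/
def X2 (o : Option J) (c : J) : (Option J × Fin n → ℝ) →ₗ[ℝ] ℝ :=
  ∑ i, ((d i).2 c : ℝ) • LinearMap.proj (o, i)

theorem X1_apply (o : Option J) (c : κ) (a : Option J × Fin n → ℝ) :
    X1 d o c a = ∑ i, ((d i).1 c : ℝ) * a (o, i) := by simp [X1]

theorem X2_apply (o : Option J) (c : J) (a : Option J × Fin n → ℝ) :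
    X2 d o c a = ∑ i, ((d i).2 c : ℝ) * a (o, i) := by simp [X2]

theorem X1_cst (o : Option J) (c : κ) (y : Option J × Fin n → ℕ) :
    X1 d o c (cst y) = ((dg d o y).1 c : ℝ) := by
  simp [X1_apply, dg, cst, Prod.fst_sum, mul_comm]

theorem X2_cst (o : Option J) (c : J) (y : Option J × Fin n → ℕ) :
    X2 d o c (cst y) = ((dg d o y).2 c : ℝ) := by
  simp [X2_apply, dg, cst, Prod.snd_sum, mul_comm]

/-- the generators which may occur -/
def Ok (T : Finset J) : Option J × Fin n → Prop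
  | (none, i) => f i ≠ 0 ∧ ∀ j ∉ T, (d i).2 j = D.b j (d i).1
  | (some j, i) => j ∈ T ∧ D.v j (f i) = exp (D.t j (d i).1 - (d i).2 j)

open Classical in
/-- the equations -/
noncomputable def eqn (T : Finset J) :
    (Option J × Fin n) ⊕ (T × κ) ⊕ (T × J) → (Option J × Fin n → ℝ) →ₗ[ℝ] ℝ
  | .inl p => if D.Ok d f T p then 0 else LinearMap.proj p
  | .inr (.inl p) => X1 d (some p.1) p.2 - X1 d none p.2
  | .inr (.inr p) => X2 d (some p.1) p.2 - X2 d none p.2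

theorem eqn_int (T : Finset J) (a) (y : Option J × Fin n → ℕ) :
    ∃ z : ℤ, D.eqn d f T a (cst y) = z := by
  rcases a with p | p | p
  · simp only [eqn]
    split_ifs
    · exact ⟨0, by simp⟩
    · exact ⟨y p, by simp [cst]⟩
  · exact ⟨(dg d (some p.1) y).1 p.2 - (dg d none y).1 p.2, by simp [eqn, X1_cst]⟩
  · exact ⟨(dg d (some p.1) y).2 p.2 - (dg d none y).2 p.2, by simp [eqn, X2_cst]⟩

theorem eqn_iff (T : Finset J) (y : Option J × Fin n → ℕ) :
    (∀ a, D.eqn d f T a (cst y) = 0) ↔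
      (∀ p, y p ≠ 0 → D.Ok d f T p) ∧ ∀ j ∈ T, dg d (some j) y = dg d none y := by
  constructor
  · intro h
    refine ⟨fun p hp => ?_, fun j hj => Prod.ext (funext fun c => ?_) (funext fun c => ?_)⟩
    · by_contra h1
      have h2 := h (.inl p)
      simp only [eqn, if_neg h1, LinearMap.proj_apply, cst, Nat.cast_eq_zero] at h2
      exact hp h2
    · have h2 := h (.inr (.inl (⟨j, hj⟩, c)))
      simp only [eqn, LinearMap.sub_apply, X1_cst, sub_eq_zero, Nat.cast_inj] at h2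
      exact h2
    · have h2 := h (.inr (.inr (⟨j, hj⟩, c)))
      simp only [eqn, LinearMap.sub_apply, X2_cst, sub_eq_zero, Nat.cast_inj] at h2
      exact h2
  · rintro ⟨h1, h2⟩ (p | p | p)
    · simp only [eqn]
      split_ifs with h
      · rfl
      · simpa [cst] using not_not.1 (mt (h1 p) h)
    · simp [eqn, X1_cst, h2 p.1 p.1.2]
    · simp [eqn, X2_cst, h2 p.1 p.1.2]

/-- the closed cone -/
def Q (T : Finset J) : Set (Option J × Fin n → ℝ) :=
  {a | (∀ p, 0 ≤ a p) ∧ (∀ α, D.eqn d f T α a = 0) ∧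
    ((fun c => X1 d none c a), fun c => X2 d none c a) ∈ closure (D.U T)}

theorem isClosed_Q (T : Finset J) : IsClosed (D.Q d f T) := by
  refine IsClosed.inter (isClosed_Ici (a := (0 : Option J × Fin n → ℝ))) (IsClosed.inter ?_ ?_)
  · have : {a | ∀ α, D.eqn d f T α a = 0} = ⋂ α, {a | D.eqn d f T α a = 0} := by
      ext; simp
    change IsClosed {a | ∀ α, D.eqn d f T α a = 0}
    rw [this]
    exact isClosed_iInter fun α =>
      isClosed_eq (LinearMap.continuous_of_finiteDimensional _) continuous_const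
  · refine isClosed_closure.preimage (Continuous.prodMk ?_ ?_) <;>
      exact continuous_pi fun c => LinearMap.continuous_of_finiteDimensional _

theorem Q_smul (T : Finset J) : ∀ a ∈ D.Q d f T, ∀ t : ℝ, 0 < t → t • a ∈ D.Q d f T := by
  rintro a ⟨h1, h2, h3⟩ t ht
  refine ⟨fun p => mul_nonneg ht.le (h1 p), fun α => by rw [map_smul, h2, smul_zero], ?_⟩
  convert D.U_smul h3 ht using 1
  ext c <;> simp

theorem cst_add {ι : Type*} (y y' : ι → ℕ) : cst (y + y') = cst y + cst y' := by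
  funext i; simp [cst]

/-- the lattice points -/
def S (T : Finset J) : AddSubmonoid (Option J × Fin n → ℕ) where
  carrier := {y | (∀ α, D.eqn d f T α (cst y) = 0) ∧ ∃ s ∈ D.R (dg d none y).1, s ≠ 0 ∧
      ∀ j ∈ T, exp (D.t j (dg d none y).1 - (dg d none y).2 j) ≤ D.v j s}
  zero_mem' := ⟨(D.eqn_iff d f T 0).2 ⟨fun _ h => (h rfl).elim, fun _ _ => by simp⟩, 1,
    by simpa using D.mR.one, one_ne_zero, fun j _ => by simp⟩
  add_mem' := by
    rintro y y' ⟨h1, s, hs, h0, h2⟩ ⟨h1', s', hs', h0', h2'⟩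
    refine ⟨fun α => by rw [cst_add, map_add, h1, h1', add_zero], s * s', ?_, mul_ne_zero h0 h0',
      fun j hj => ?_⟩
    · rw [map_add]
      exact D.mR.mul _ trivial _ trivial _ hs _ hs'
    · rw [map_mul]
      refine le_trans (le_of_eq ?_) (mul_le_mul' (h2 j hj) (h2' j hj))
      rw [← exp_add, map_add, Prod.fst_add, Prod.snd_add, map_add, Pi.add_apply]
      push_cast
      congr 1
      ring

theorem S_sub_Q {T : Finset J} {y : Option J × Fin n → ℕ} (hy : y ∈ D.S d f T) :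
    cst y ∈ D.Q d f T := by
  obtain ⟨h1, s, hs, h0, h2⟩ := hy
  refine ⟨fun p => Nat.cast_nonneg _, h1, subset_closure ⟨1, (dg d none y).1, one_pos,
    fun i => by simp [X1_cst], s, hs, h0, fun j hj => ?_⟩⟩
  have h3 := h2 j hj
  rw [← exp_log (x := D.v j s) (by simpa using h0), exp_le_exp] at h3
  simp only [X2_cst, Nat.cast_one, one_mul]
  exact_mod_cast (by omega : D.t j (dg d none y).1 - log (D.v j s) ≤ ((dg d none y).2 j : ℤ))

variable {d f} (hd : ∀ i, d i ∈ bm D.b ∧ f i ∈ D.Ad (d i))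
include hd

theorem dg_mem (o : Option J) (y : Option J × Fin n → ℕ) : dg d o y ∈ bm D.b :=
  (bm D.b).sum_mem fun i _ => (bm D.b).nsmul_mem (hd i).1 _

theorem mon_mem (o : Option J) (y : Option J × Fin n → ℕ) :
    ∏ i, f i ^ y (o, i) ∈ D.Ad (dg d o y) :=
  D.mA.Mon_le hd _ (Gr.mono_mem_Mon d f _ rfl)

omit hd in
theorem t_dg (o : Option J) (y : Option J × Fin n → ℕ) (j : J) :
    D.t j (dg d o y).1 - (dg d o y).2 j =
      ∑ i, y (o, i) * (D.t j (d i).1 - (d i).2 j) := by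
  simp only [dg, AddMonoidHom.coe_mk, ZeroHom.coe_mk, Prod.fst_sum, Prod.snd_sum, map_sum,
    Prod.smul_fst, map_nsmul]
  simp [mul_sub]

omit hd in
theorem b_dg (y : Option J × Fin n → ℕ) (j : J) :
    (D.b j (dg d none y).1 : ℤ) - (dg d none y).2 j =
      ∑ i, y (none, i) * ((D.b j (d i).1 : ℤ) - (d i).2 j) := by
  simp only [dg, AddMonoidHom.coe_mk, ZeroHom.coe_mk, Prod.fst_sum, Prod.snd_sum, map_sum,
    Prod.smul_fst, map_nsmul]
  simp [mul_sub]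

theorem mem_S [Infinite k] {T : Finset J} {y : Option J × Fin n → ℕ}
    (h1 : ∀ α, D.eqn d f T α (cst y) = 0) (h2 : D.Ad (dg d none y) ≤ D.R (dg d none y).1) :
    y ∈ D.S d f T := by
  obtain ⟨h3, h4⟩ := (D.eqn_iff d f T y).1 h1
  have h5 : ∏ i, f i ^ y (none, i) ≠ 0 := prod_ne_zero_iff.2 fun i _ => by
    rcases eq_or_ne (y (none, i)) 0 with h | h
    · simp [h]
    · exact pow_ne_zero _ (h3 _ h).1
  obtain ⟨s, hs, h0, h6⟩ := exists_max D.triv (D.R (dg d none y).1)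
    ((Submodule.ne_bot_iff _).2 ⟨_, h2 (D.mon_mem hd none y), h5⟩) _ fun j s hs => D.R_le _ s hs j
  refine ⟨h1, s, hs, h0, fun j hj => le_trans (le_of_eq ?_)
    (h6 j _ (h2 (h4 j hj ▸ D.mon_mem hd (some j) y)))⟩
  rw [← h4 j hj, t_dg]
  exact (v_prod_eq univ (D.v j) (n := fun i => D.t j (d i).1 - (d i).2 j) (fun i => y (some j, i))
    fun i hi => (h3 _ hi).2).symm

theorem lift_of : ∃ ε : ℝ, 0 < ε ∧ ∀ (T : Finset J), ∀ a ∈ D.Q d f T, ∀ y : Option J × Fin n → ℕ,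
    (∀ α, D.eqn d f T α (cst y) = 0) → (∀ p, a p ≤ y p) → (∀ p, y p - a p < ε) →
      D.Ad (dg d none y) ≤ D.R (dg d none y).1 := by
  obtain ⟨N, hN⟩ := D.lift
  set C : ℝ := ∑ c, ∑ i, ((d i).1 c : ℝ) with hC
  have hC0 : 0 ≤ C := by positivity
  refine ⟨1 / (2 * (N + 1) * (C + 1)), by positivity, fun T a ha y hy h1 h2 => ?_⟩
  refine hN _ (D.dg_mem hd none y) fun L => ?_
  obtain ⟨η, hη, hη1, hη2⟩ : ∃ η : ℝ, 0 < η ∧ η * (2 * (N + 1)) ≤ 1 ∧ η * (L + 1) ≤ 1 :=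
    ⟨min (1 / (2 * (N + 1))) (1 / (L + 1)), by positivity,
      (le_div_iff₀ (by positivity)).1 (min_le_left _ _),
      (le_div_iff₀ (by positivity)).1 (min_le_right _ _)⟩
  obtain ⟨z, ⟨q, x, hq, h3, s, hs, h0, h4⟩, hz⟩ := Metric.mem_closure_iff.1 ha.2.2 η hη
  have hq0 : (0 : ℝ) < q := by exact_mod_cast hq
  rw [Prod.dist_eq, max_lt_iff] at hz
  refine ⟨q, x, hq, fun c => ?_, s, hs, h0, fun j hj => ?_⟩
  · have h5 := (dist_le_pi_dist _ _ c).trans_lt hz.1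
    rw [Real.dist_eq] at h5
    have h6 : |((dg d none y).1 c : ℝ) - X1 d none c a| ≤ 1 / (2 * (N + 1) * (C + 1)) * C := by
      rw [← X1_cst, ← map_sub, X1_apply]
      refine (abs_sum_le_sum_abs _ _).trans ?_
      have h7 : ∑ i, ((d i).1 c : ℝ) ≤ C :=
        Finset.single_le_sum (f := fun c => ∑ i, ((d i).1 c : ℝ)) (fun _ _ => by positivity)
          (mem_univ c)
      refine le_trans ?_ (mul_le_mul_of_nonneg_left h7 (by positivity))
      rw [mul_sum]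
      refine sum_le_sum fun i _ => ?_
      rw [abs_mul, Nat.abs_cast, mul_comm, Pi.sub_apply, cst, abs_of_nonneg (sub_nonneg.2 (h1 _))]
      exact mul_le_mul_of_nonneg_right (h2 _).le (Nat.cast_nonneg _)
    have h7 : 1 / (2 * ((N : ℝ) + 1) * (C + 1)) * C * (2 * (N + 1)) ≤ 1 := by
      rw [div_mul_eq_mul_div, div_mul_eq_mul_div, div_le_one (by positivity)]
      nlinarith [Nat.cast_nonneg (α := ℝ) N]
    have h8 : |((dg d none y).1 c : ℝ) - z.1 c| ≤ 1 / (2 * (N + 1) * (C + 1)) * C + η :=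
      (abs_sub_le _ _ _).trans (add_le_add h6 h5.le)
    have h9 : (N : ℝ) * |((dg d none y).1 c : ℝ) - z.1 c| ≤ 1 := by
      have := mul_le_mul_of_nonneg_right h8 (by positivity : (0 : ℝ) ≤ 2 * (N + 1))
      nlinarith [abs_nonneg (((dg d none y).1 c : ℝ) - z.1 c)]
    have h10 : (N : ℝ) * |(q * (dg d none y).1 c - x c : ℝ)| ≤ q := by
      rw [← h3 c, ← mul_sub, abs_mul, Nat.abs_cast]
      nlinarith
    exact_mod_cast h10
  · obtain ⟨h5, -⟩ := (D.eqn_iff d f T y).1 hy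
    have hT : j ∈ T := by
      by_contra h
      have h6 := D.b_dg (d := d) y j
      rw [sum_eq_zero fun i _ => ?_] at h6
      · omega
      · rcases eq_or_ne (y (none, i)) 0 with h7 | h7
        · simp [h7]
        · simp [(h5 _ h7).2 j h]
    have h6 := (dist_le_pi_dist _ _ j).trans_lt hz.2
    rw [Real.dist_eq] at h6
    have h7 : X2 d none j a ≤ (dg d none y).2 j := by
      rw [← X2_cst, X2_apply, X2_apply]
      exact sum_le_sum fun i _ => mul_le_mul_of_nonneg_left (h1 _) (Nat.cast_nonneg _)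
    have h8 : z.2 j ≤ (dg d none y).2 j + η := by linarith [(abs_lt.1 h6).1]
    have h9 := (h4 j hT).trans (mul_le_mul_of_nonneg_left h8 hq0.le)
    have h10 : (L : ℝ) * ((D.t j x - log (D.v j s) : ℤ) : ℝ) ≤ q * (L * (dg d none y).2 j + 1) := by
      have h11 := mul_le_mul_of_nonneg_left h9 (Nat.cast_nonneg (α := ℝ) L)
      have h12 : (L : ℝ) * η ≤ 1 := by nlinarith
      nlinarith
    exact_mod_cast h10

theorem S_fg [Infinite k] (T : Finset J) : (D.S d f T).FG ∧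
    ∀ y ∈ D.S d f T, D.Ad (dg d none y) ≤ D.R (dg d none y).1 := by
  obtain ⟨ε, hε, H⟩ := D.lift_of hd
  have h1 : ∀ y, cst y ∈ D.Q d f T → D.Ad (dg d none y) ≤ D.R (dg d none y).1 := fun y hy =>
    H T _ hy y hy.2.1 (fun _ => le_rfl) fun p => by simpa [cst] using hε
  obtain ⟨G, hG, hG'⟩ := gen' (D.eqn d f T) (D.eqn_int d f T) (D.isClosed_Q d f T)
    (fun _ h => h.1) (D.Q_smul d f T) (fun _ h => h.2.1) hε
    fun a ha y hy h2 h3 => D.S_sub_Q d f (D.mem_S hd hy (H T a ha y hy h2 h3))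
  refine ⟨⟨G, le_antisymm (AddSubmonoid.closure_le.2 fun g hg => ?_)
    fun y hy => hG' y (D.S_sub_Q d f hy)⟩, fun y hy => h1 y (D.S_sub_Q d f hy)⟩
  exact D.mem_S hd (hG g hg).2.1 (h1 g (hG g hg))

/-- every degree with a nonzero restricted section is covered -/
theorem cover [Infinite k] (hg : ∀ p ∈ bm D.b, D.Ad p ≤ Gr.Mon k d f p) {x : κ → ℕ}
    (hx : D.R x ≠ ⊥) : ∃ T : Finset J, ∃ y ∈ D.S d f T, (dg d none y).1 = x ∧
      D.R x ≤ D.Ad (dg d none y) := by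
  classical
  obtain ⟨s, hs, h0, h1⟩ := exists_max D.triv (D.R x) hx _ fun j s hs => D.R_le _ s hs j
  have hv : ∀ j, D.v j s = exp (log (D.v j s)) := fun j => (exp_log (by simpa using h0)).symm
  have h2 : ∀ j, 0 ≤ D.t j x - log (D.v j s) := fun j => by
    have := D.R_le x s hs j
    rw [hv j, exp_le_exp] at this
    omega
  let g : J → ℕ := fun j => min (D.b j x) (D.t j x - log (D.v j s)).toNat
  let T : Finset J := univ.filter fun j => (g j : ℤ) = D.t j x - log (D.v j s)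
  have hg1 : ∀ j, (g j : ℤ) ≤ D.t j x - log (D.v j s) := fun j => by
    have := h2 j
    simp only [g]; omega
  have hg2 : ∀ j ∉ T, g j = D.b j x := fun j hj => by
    have := h2 j
    simp only [T, mem_filter, mem_univ, true_and] at hj
    simp only [g] at hj ⊢; omega
  have hp : (x, g) ∈ bm D.b := fun j => min_le_left _ _
  have hA : D.R x ≤ D.Ad (x, g) := fun s' hs' => D.mem_A (x, g) s' hs' fun j => by
    refine (h1 j s' hs').trans ?_
    have := hg1 j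
    rw [hv j, exp_le_exp]
    simp only; omega
  have hm := hg _ hp (hA hs)
  have key : ∀ o : Option J, ∃ a : Fin n → ℕ, (∀ i, a i ≠ 0 → D.Ok d f T (o, i)) ∧
      ((∀ j, o = some j → j ∈ T) → ∑ i, a i • d i = (x, g)) := by
    rintro (_ | j)
    · obtain ⟨a, ha, h3⟩ := exists_mon hm ⊥ (by simpa using h0)
      refine ⟨a, fun i hi => ⟨fun h => h3 ?_, fun j hj => ?_⟩, fun _ => ha⟩
      · rw [Submodule.mem_bot]
        exact prod_eq_zero (mem_univ i) (by rw [h, zero_pow hi])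
      · have h4 := D.b_dg (d := d) (fun p => a p.2) j
        have h5 : dg d none (fun p => a p.2) = (x, g) := ha
        rw [h5] at h4
        simp only [hg2 j hj, sub_self] at h4
        have h6 := (sum_eq_zero_iff_of_nonneg fun i _ => mul_nonneg (Nat.cast_nonneg _)
          (sub_nonneg.2 (by exact_mod_cast (hd i).1 j))).1 h4.symm i (mem_univ i)
        rcases mul_eq_zero.1 h6 with h7 | h7
        · exact (hi (by exact_mod_cast h7)).elim
        · omega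
    · by_cases hj : j ∈ T
      swap
      · exact ⟨0, fun _ h => (h rfl).elim, fun h => (hj (h j rfl)).elim⟩
      have h3 : (g j : ℤ) = D.t j x - log (D.v j s) := (mem_filter.1 hj).2
      obtain ⟨a, ha, h4⟩ := exists_mon hm (ltS (D.v j) (D.triv j) (log (D.v j s)))
        fun h => (lt_of_lt_of_eq h (hv j).symm : D.v j s < D.v j s).false
      refine ⟨a, fun i hi => ⟨hj, ?_⟩, fun _ => ha⟩
      refine v_eq_of_prod (D.v j) (n := fun i => D.t j (d i).1 - (d i).2 j)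
        (fun i => D.A_le _ _ (hd i).2 j) (le_trans (le_of_eq ?_) (not_lt.1 h4)) hi
      have h5 := D.t_dg (d := d) none (fun p => a p.2) j
      have h6 : dg d none (fun p => a p.2) = (x, g) := ha
      rw [h6] at h5
      rw [← h5]
      congr 1
      simp only; omega
  choose a ha ha' using key
  have h3 : dg d none (fun p => a p.1 p.2) = (x, g) := ha' none fun _ h => by cases h
  refine ⟨T, fun p => a p.1 p.2, ⟨(D.eqn_iff d f T _).2 ⟨fun p => ha p.1 p.2, fun j hj => ?_⟩, ?_⟩,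
    by rw [h3], by rw [h3]; exact hA⟩
  · rw [h3]
    exact ha' (some j) fun _ h => by cases h; exact hj
  · rw [h3]
    refine ⟨s, hs, h0, fun j hj => ?_⟩
    have h4 : (g j : ℤ) = D.t j x - log (D.v j s) := (mem_filter.1 hj).2
    rw [hv j, exp_le_exp]
    simp only; omega

end Gens

/-- **the restricted family is finitely generated** -/
theorem fg [Infinite k] : Gr.FG D.R ⊤ := by
  obtain ⟨n, d, f, hd, hg⟩ := D.fgA
  have h1 : ∀ T : Finset J, Gr.FG (fun y => D.Ad (dg d none y)) (D.S d f T) := fun T =>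
    Gr.FG.comap D.mA ⟨n, d, f, hd, hg⟩ _ (D.S_fg hd T).1 fun y _ => D.dg_mem hd none y
  choose G hG h2 h3 using fun T => (h1 T).exists_finite
  refine Gr.FG.of_finite (T := ⋃ T, (fun p => ((dg d none p.1).1, p.2)) '' G T)
    (Set.finite_iUnion fun T => (hG T).image _) ?_ fun N hN h4 x _ => ?_
  · intro p hp
    obtain ⟨T, p', hp', rfl⟩ := Set.mem_iUnion.1 hp
    exact ⟨trivial, (D.S_fg hd T).2 _ (h2 T p' hp').1 (h2 T p' hp').2⟩
  · by_cases hx : D.R x = ⊥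
    · rw [hx]; exact bot_le
    obtain ⟨T, y, hy, rfl, h5⟩ := D.cover hd hg hx
    refine h5.trans (h3 T (fun y => N (dg d none y).1) ?_ (fun p hp => ?_) y hy)
    · exact hN.comap ((AddMonoidHom.fst _ _).comp (dg d none)) fun _ _ => trivial
    · exact h4 (_, _) (Set.mem_iUnion.2 ⟨T, p, hp, rfl⟩)

end Dat

end Crest.Agent.X262.FG.S4
private theorem rz_5bc2f22e65 : type_of% @_root_.Crest.Agent.X262.FG.S4.Dat.eqn.eq_1 := @_root_.Crest.Agent.X262.FG.S4.Dat.eqn.eq_1 -- L128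
end

-- ▼ part X262/FG/S4d
section

/-!
# X262/FG/S4d (helper81): section 4 and Lemma 6.2 of the finite generation theorem

`s4Stmt : S4Stmt`.
-/

set_option autoImplicit false
set_option linter.unusedSectionVars false

open WithZero Finset
open scoped KaehlerDifferential

noncomputable section

namespace Crest.Agent.X262.FG.S4

open Crest.Agent.X277 Crest.Agent.X277.Lef Crest.Agent.X277.AN.G1 Crest.Agent.X277.BD
open Crest.Agent.X277.BD.Br (At oP kP)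
open Crest.Agent.X277.Res.Log (Bd)
open Crest.Agent.X277.Link (Plc)
open Crest.Agent.X262.Cvx

/-- the monoid `g ≤ b x` is generated in degree one -/
theorem bm_induction {κ J : Type} [Fintype κ] [Fintype J] [DecidableEq κ]
    {b : J → (κ → ℕ) →+ ℕ} {Q : (κ → ℕ) × (J → ℕ) → Prop} (h0 : Q 0)
    (h1 : ∀ k g, (∀ j, g j ≤ b j (Pi.single k 1)) → Q (Pi.single k 1, g))
    (h2 : ∀ p q, Q p → Q q → Q (p + q)) : ∀ p ∈ bm b, Q p := by
  rintro ⟨x, g⟩ hp
  induction hn : ∑ i, x i generalizing x g with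
  | zero =>
    obtain rfl : x = 0 := funext fun i => (sum_eq_zero_iff.1 hn) i (mem_univ i)
    obtain rfl : g = 0 := funext fun j => by simpa using hp j
    exact h0
  | succ n ih =>
    obtain ⟨k, -, hk⟩ := exists_ne_zero_of_sum_ne_zero (s := univ) (f := x) (by omega)
    have hx : x = Pi.single k 1 + (x - Pi.single k 1) := funext fun i => by
      simp only [Pi.add_apply, Pi.sub_apply, Pi.single_apply]
      split_ifs with h
      · subst h; omega
      · omega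
    have h3 := h2 _ _ (h1 k (fun j => min (g j) (b j (Pi.single k 1))) fun j => min_le_right _ _)
      (ih (x - Pi.single k 1) (fun j => g j - min (g j) (b j (Pi.single k 1))) (fun j => ?_) ?_)
    · convert h3 using 1
      refine Prod.ext hx (funext fun j => ?_)
      simp only [Prod.snd_add, Pi.add_apply]
      omega
    · have h4 : g j ≤ b j x := hp j
      rw [hx, map_add] at h4
      simp only
      omega
    · rw [hx] at hn
      simp only [Pi.add_apply, sum_add_distrib, Finset.sum_pi_single', mem_univ, if_true] at hn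
      omega

section Gen

variable {F : Type} [Field F] [Algebra ℂ F] {P : PModel ℂ F} {n : ℕ} {B : Bd P n}

theorem const_of_mem {f : F} (h : f ∈ (0 : BD ℂ F).Sec) : ∃ c : ℂ, algebraMap ℂ F c = f := by
  have h1 : IsIntegral (Algebra.adjoin ℂ (∅ : Set F)) f :=
    Cns.isIntegral_of_val fun V hV => by
      simpa [RZ.le_one_iff] using h ⟨V, Cns.KV.of_le hV⟩
  rw [Algebra.adjoin_empty] at h1
  have h2 : IsIntegral ℂ f := isIntegral_trans (A := (⊥ : Subalgebra ℂ F)) f h1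
  exact minpoly.mem_range_of_degree_eq_one ℂ f
    (IsAlgClosed.degree_eq_one_of_irreducible ℂ (minpoly.irreducible h2))

theorem mem_Sec_sub_dvs {a : BD ℂ F} (ha : a ∈ Br.On P) {s : F} (hs : s ∈ a.Sec) {g : B.ι → ℤ}
    (h : ∀ e, B.v e s ≤ exp (od B e a - g e)) : s ∈ (a - dvs B g).Sec := by
  rcases eq_or_ne s 0 with rfl | h0
  · exact zero_mem _
  refine Br.mem_Sec_of (P := P) fun x => ?_
  obtain ⟨u, hu⟩ := ha x
  refine ⟨_, hu.sub (at_dvs B _ x), ?_⟩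
  rw [div_inv_eq_mul, ← div_div]
  refine Bd.div_mon_mem (N := 0) (by simpa using hu.div_mem hs) fun e he => ?_
  have h1 := h e
  rw [od_of_at hu he, Res.Out.v_eq_exp _ h0, exp_le_exp] at h1
  rw [Res.Out.ord_div h0 hu.ne]
  omega

variable {b : Module.Basis (Fin n) F Ω[F⁄ℂ]}

theorem can_zero : Can B b 0 0 := fun Q C c' _ _ h => by
  simpa [dvs_zero] using dvs_nonneg h

theorem can_add {r r' : ℕ} {g g' : B.ι → ℤ} (h : Can B b r g) (h' : Can B b r' g')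
    (hg : ∀ e, 0 ≤ g e) (hg' : ∀ e, 0 ≤ g' e) : Can B b (r + r') (g + g') := by
  classical
  intro Q C c hQ h1 h2
  let c₁ : C.ι → ℤ := fun e' => if h : ∃ e, C.v e' = B.v e then g h.choose else 0
  have h3 : ∀ e e', C.v e' = B.v e → c₁ e' = g e := fun e e' he => by
    have h4 : ∃ e, C.v e' = B.v e := ⟨e, he⟩
    simp only [c₁, dif_pos h4]
    rw [B.v_injective (h4.choose_spec.symm.trans he)]
  have h4 : ∀ e e', C.v e' = B.v e → (g + g') e ≤ c e' := fun e e' he => by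
    rcases eq_or_ne ((g + g') e) 0 with h5 | h5
    · exact h5 ▸ h2 e'
    · obtain ⟨e'', h6, h7⟩ := h1 e h5
      rwa [C.v_injective (he.trans h6.symm)]
  have h5 : ∀ e, g e ≠ 0 ∨ g' e ≠ 0 → ∃ e', C.v e' = B.v e := fun e he => by
    refine (h1 e fun h6 => ?_).imp fun _ h => h.1
    have := hg e
    have := hg' e
    rw [Pi.add_apply] at h6
    omega
  have h6 := add_le_add (h Q C c₁ hQ (fun e he => ?_) fun e' => ?_)
    (h' Q C (c - c₁) hQ (fun e he => ?_) fun e' => ?_)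
  · rw [dvs_sub] at h6
    rw [dvs_add, add_smul, add_smul]
    convert h6 using 1 <;> abel
  · obtain ⟨e', he'⟩ := h5 e (Or.inl he)
    exact ⟨e', he', (h3 e e' he').ge⟩
  · simp only [c₁]
    split_ifs
    exacts [hg _, le_rfl]
  · obtain ⟨e', he'⟩ := h5 e (Or.inr he)
    have := h4 e e' he'
    rw [Pi.add_apply] at this
    exact ⟨e', he', by rw [Pi.sub_apply, h3 e e' he']; omega⟩
  · rw [Pi.sub_apply]
    by_cases h7 : ∃ e, C.v e' = B.v e
    · obtain ⟨e, he⟩ := h7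
      have h8 := h4 e e' he
      have := hg' e
      rw [Pi.add_apply] at h8
      rw [h3 e e' he]
      omega
    · simpa [c₁, h7] using h2 e'

end Gen

section Fc

variable {F : Type} [Field F] [Algebra ℂ F] {P : PModel ℂ F} {n : ℕ} {B : Bd P (n + 1)}
  {b : Module.Basis (Fin (n + 1)) F Ω[F⁄ℂ]} {e : B.ι} {E : Type} [Field E] [Algebra ℂ E]
  (Φ : Fc B b e E)

theorem pl_r (p : Plc ℂ F E) (s : F) : (pl p).r s = p.r s := by
  by_cases h : p.v s ≤ 1
  · rw [p.r_eq h, Pl.r_eq _ h]; rfl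
  · rw [Plc.r, dif_neg h]
    exact dif_neg h

theorem val_iff {a : BD ℂ F} : a.val (pl Φ.p).V = 1 ↔ od B e a = 0 := by
  have h : (pl Φ.p).V = rz (B.v e) (triv B e) :=
    Subtype.ext (congrArg Valuation.valuationSubring Φ.v_eq)
  rw [od_eq_zero, h]

theorem v_one {s : F} (h : B.v e s = 1) : (pl Φ.p).V.v s = 1 := by
  rw [← map_one (pl Φ.p).V.v]
  exact (v_rz_eq_iff Φ.p.v Φ.p.triv).2 (by rw [Φ.v_eq, h, map_one])

theorem res_adj {m : ℕ} {a : BD ℂ F} {c : B.ι → ℤ} (ha : od B e a = 0) (hc : c e = m) :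
    od B e (m • kP P b + a + dvs B c) = 0 ∧ (pl Φ.p).res (m • kP P b + a + dvs B c) =
      m • kP Φ.P' Φ.b' + (pl Φ.p).res a + dvs Φ.B' fun w => c (Φ.l w) := by
  classical
  have h1 : od B e (kP P b + dvs B (Pi.single e 1)) = 0 := by simp [Φ.od_K]
  have h2 : (c - m • (Pi.single e 1 : B.ι → ℤ)) e = 0 := by simp [hc]
  have h3 : m • kP P b + a + dvs B c =
      m • (kP P b + dvs B (Pi.single e 1)) + a + dvs B (c - m • Pi.single e 1) := by
    rw [dvs_sub, dvs_nsmul, smul_add]; abel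
  have h4 : od B e (m • (kP P b + dvs B (Pi.single e 1))) = 0 := by rw [map_nsmul, h1, smul_zero]
  have h5 : od B e (dvs B (c - m • Pi.single e 1)) = 0 := by rw [od_dvs, h2]
  rw [h3]
  refine ⟨by rw [map_add, map_add, h4, ha, h5]; rfl, ?_⟩
  rw [Pl.res_add ((val_iff Φ).2 (by rw [map_add, h4, ha]; rfl)) ((val_iff Φ).2 h5),
    Pl.res_add ((val_iff Φ).2 h4) ((val_iff Φ).2 ha), Pl.res_nsmul ((val_iff Φ).2 h1), Φ.res_K,
    Φ.res_dvs _ h2]
  congr 2
  funext w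
  simp [Pi.single_eq_of_ne (Φ.l_ne w)]

theorem v_le_one {a : BD ℂ F} (ha : od B e a = 0) {s : F} (hs : s ∈ a.Sec) : Φ.p.v s ≤ 1 := by
  have h := le_exp_ord (hv := triv B e) hs
  rw [Φ.v_eq]
  exact h.trans_eq (congrArg exp ha)

/-- a general member of a free class -/
theorem exists_gen_res {h : BD ℂ F} (hf : Free h) (h0 : od B e h = 0) : ∃ τ ∈ h.Sec,
    B.v e τ = 1 ∧ ∀ w, od Φ.B' w ((pl Φ.p).res h) ≤ log (Φ.B'.v w (Φ.p.r τ)) := by
  have hv := (val_iff Φ).2 h0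
  let W : Submodule ℂ E :=
    { carrier := {z | ∃ s ∈ h.Sec, Φ.p.r s = z}
      zero_mem' := ⟨0, zero_mem _, Φ.p.r_zero⟩
      add_mem' := by
        rintro _ _ ⟨s, hs, rfl⟩ ⟨t, ht, rfl⟩
        exact ⟨s + t, add_mem hs ht, Φ.p.r_add (v_le_one Φ h0 hs) (v_le_one Φ h0 ht)⟩
      smul_mem' := by
        rintro c _ ⟨s, hs, rfl⟩
        refine ⟨c • s, Submodule.smul_mem _ c hs, ?_⟩
        rw [Algebra.smul_def, Φ.p.r_mul (Φ.p.triv c) (v_le_one Φ h0 hs), Φ.p.r_alg,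
          Algebra.smul_def] }
  obtain ⟨g, hg, hg'⟩ := hf.exists_gen (pl Φ.p).V
  have hW : W ≠ ⊥ := (Submodule.ne_bot_iff _).2 ⟨_, ⟨g, hg, rfl⟩, by
    rw [← pl_r]; exact Pl.r_ne_zero_iff.2 (hg'.trans hv)⟩
  obtain ⟨_, ⟨τ, hτ, rfl⟩, h1, h2⟩ := exists_max (v := Φ.B'.v) (triv Φ.B') W hW
    (fun w => od Φ.B' w ((pl Φ.p).res h)) (by
      rintro w _ ⟨s, hs, rfl⟩
      exact le_exp_ord (hv := triv Φ.B' w) (pl_r Φ.p s ▸ Pl.r_mem_Sec hv hs))
  refine ⟨τ, hτ, Φ.v_eq ▸ Φ.p.v_eq_one (v_le_one Φ h0 hτ) h1, fun w => ?_⟩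
  obtain ⟨u, hu, hu'⟩ := hf.exists_gen ((pl Φ.p).cm (rz (Φ.B'.v w) (triv Φ.B' w)))
  have h3 := h2 w _ ⟨u, hu, rfl⟩
  rw [← pl_r, ← vl_eq (Pl.val_res hv hu').symm, ← exp_od,
    ← exp_log (x := Φ.B'.v w (Φ.p.r τ)) (by simpa using h1), exp_le_exp] at h3
  exact h3

variable {κ : Type} [Fintype κ] (S : Sys B κ)

/-- the boundary on the component -/
def bb (j : Φ.B'.ι) : (κ → ℕ) →+ ℕ where
  toFun x := ∑ k, x k * (S.c k (Φ.l j)).toNat
  map_zero' := by simp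
  map_add' x y := by simp [add_mul, sum_add_distrib]

theorem bb_cast (x : κ → ℕ) (j : Φ.B'.ι) :
    (bb Φ S j x : ℤ) = (∑ k, x k • S.c k) (Φ.l j) := by
  simp [bb, Int.toNat_of_nonneg (S.c_nonneg _ _)]

theorem bb_single [DecidableEq κ] (k : κ) (j : Φ.B'.ι) :
    (bb Φ S j (Pi.single k 1) : ℤ) = S.c k (Φ.l j) := by
  simp [bb, Pi.single_apply, Int.toNat_of_nonneg (S.c_nonneg _ _)]

variable (he : ∀ k, S.c k e = S.r) (hA : ∀ k, od B e (S.A k) = 0)
include he hA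

omit he in
theorem od_lcA (x : κ → ℕ) : od B e (lc S.A x) = 0 := by simp [od_lc, hA]

omit hA in
theorem c_e (x : κ → ℕ) : (∑ k, x k • S.c k) e = ((∑ k, x k) * S.r : ℕ) := by
  simp [he, sum_mul]

include Φ in
theorem od_lcD (x : κ → ℕ) : od B e (lc (S.D b) x) = 0 :=
  S.lc_D b x ▸ (res_adj Φ (od_lcA S hA x) (c_e S he x)).1

include Φ in
theorem od_D (k : κ) : od B e (S.D b k) = 0 := (res_adj Φ (hA k) (he k)).1

/-- the adjoint divisors on the component -/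
def Z : (κ → ℕ) × (Φ.B'.ι → ℕ) →+ BD ℂ E where
  toFun p := (pl Φ.p).res (lc (S.D b) p.1) - dvs Φ.B' fun j => p.2 j
  map_zero' := by
    simp only [Prod.fst_zero, lc_zero, Pl.res_zero, zero_sub, neg_eq_zero]
    exact dvs_zero Φ.B'
  map_add' p q := by
    have : (fun j => (((p + q).2 j : ℕ) : ℤ)) = (fun j => (p.2 j : ℤ)) + fun j => (q.2 j : ℤ) := by
      funext j; simp
    rw [this, dvs_add, Prod.fst_add, lc_add, Pl.res_add ((val_iff Φ).2 (od_lcD Φ S he hA _))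
      ((val_iff Φ).2 (od_lcD Φ S he hA _))]
    abel

theorem Z_apply (p : (κ → ℕ) × (Φ.B'.ι → ℕ)) :
    Z Φ S he hA p = (pl Φ.p).res (lc (S.D b) p.1) - dvs Φ.B' fun j => p.2 j := rfl

theorem Z_eq (p : (κ → ℕ) × (Φ.B'.ι → ℕ)) : Z Φ S he hA p =
    ((∑ k, p.1 k) * S.r) • kP Φ.P' Φ.b' + (pl Φ.p).res (lc S.A p.1) +
      dvs Φ.B' fun j => bb Φ S j p.1 - p.2 j := by
  rw [Z_apply, S.lc_D, (res_adj Φ (od_lcA S hA _) (c_e S he _)).2, add_sub_assoc, ← dvs_sub]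
  congr 2
  funext j
  rw [bb_cast]
  rfl

theorem genP : GenP Φ.p (S.D b) 1 := fun k => by
  rw [Pi.one_apply, map_one]
  exact (vl_eq_one.2 ((val_iff Φ).2 (od_D Φ S he hA k))).symm

theorem mem_R {x : κ → ℕ} {z : E} :
    z ∈ resS (genP Φ S he hA) x ↔ ∃ s ∈ (lc (S.D b) x).Sec, Φ.p.r s = z := by
  simp [mem_resS]

theorem R_mem {x : κ → ℕ} {z : E} (hz : z ∈ resS (genP Φ S he hA) x) :
    z ∈ ((pl Φ.p).res (lc (S.D b) x)).Sec := by
  obtain ⟨s, hs, rfl⟩ := (mem_R Φ S he hA).1 hz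
  exact pl_r Φ.p s ▸ Pl.r_mem_Sec ((val_iff Φ).2 (od_lcD Φ S he hA x)) hs

theorem fg_Z (h : AStmt n) : Gr.FG (fun p => (Z Φ S he hA p).Sec) (bm (bb Φ S)) := by
  classical
  let κ' := {p : κ × (Φ.B'.ι → Fin (S.r + 1)) // ∀ j, ((p.2 j : ℕ) : ℤ) ≤ S.c p.1 (Φ.l j)}
  let S' : Sys Φ.B' κ' :=
    { r := S.r
      r_pos := S.r_pos
      A := fun t => (pl Φ.p).res (S.A t.1.1)
      amp := fun t => Φ.res_amp _ (S.amp _) (hA _)
      c := fun t j => S.c t.1.1 (Φ.l j) - (t.1.2 j : ℕ)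
      c_nonneg := fun t j => sub_nonneg.2 (t.2 j)
      c_le := fun t j => by have := S.c_le t.1.1 (Φ.l j); omega }
  let d : κ' → (κ → ℕ) × (Φ.B'.ι → ℕ) := fun t => (Pi.single t.1.1 1, fun j => t.1.2 j)
  let φ : (κ' → ℕ) →+ (κ → ℕ) × (Φ.B'.ι → ℕ) :=
    { toFun := fun y => ∑ t, y t • d t
      map_zero' := by simp
      map_add' := fun y y' => by simp [add_smul, sum_add_distrib] }
  have h1 : ∀ t, S'.D Φ.b' t = Z Φ S he hA (d t) := fun t => by
    rw [Z_eq]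
    simp only [d, lc_single, bb_single, Finset.sum_pi_single', mem_univ, if_true, one_mul]
    rfl
  refine Gr.FG.of_comap φ (S' := ⊤) (fun y _ => ?_) (fun p hp => Or.inr ?_) ?_
  · refine (bm _).sum_mem fun t _ => (bm _).nsmul_mem (fun j => ?_) _
    have h2 := t.2 j
    rw [← bb_single Φ S] at h2
    exact_mod_cast h2
  · refine bm_induction (Q := fun p => ∃ s' ∈ (⊤ : AddSubmonoid (κ' → ℕ)), φ s' = p)
      ⟨0, trivial, map_zero _⟩ (fun k g hg => ?_) ?_ p hp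
    · have h2 : ∀ j, (g j : ℤ) ≤ S.c k (Φ.l j) := fun j => by
        rw [← bb_single Φ S]; exact_mod_cast hg j
      have h3 : ∀ j, g j < S.r + 1 := fun j => by
        have := h2 j
        have := S.c_le k (Φ.l j)
        omega
      refine ⟨Pi.single ⟨(k, fun j => ⟨g j, h3 j⟩), h2⟩ 1, trivial, ?_⟩
      change ∑ t, _ • d t = _
      rw [sum_eq_single ⟨(k, fun j => ⟨g j, h3 j⟩), h2⟩ (fun t _ ht => by
        rw [Pi.single_eq_of_ne ht, zero_smul]) (by simp), Pi.single_eq_same, one_smul]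
    · rintro _ _ ⟨y, -, rfl⟩ ⟨y', -, rfl⟩
      exact ⟨y + y', trivial, map_add _ _ _⟩
  · refine Gr.FG.congr (h E Φ.P' Φ.B' Φ.b' κ' S') fun y _ => ?_
    simp only [lc, h1, φ, AddMonoidHom.coe_mk, ZeroHom.coe_mk, map_sum, map_nsmul]

omit he hA in
theorem can_of (hc : ∀ k (g : Φ.B'.ι → ℤ), (∀ w, 0 ≤ g w ∧ g w ≤ S.c k (Φ.l w)) →
    Can Φ.B' Φ.b' S.r g) :
    ∀ p ∈ bm (bb Φ S), Can Φ.B' Φ.b' ((∑ k, p.1 k) * S.r) fun j => p.2 j := by
  classical
  refine bm_induction ?_ (fun k g hg => ?_) fun p q hp hq => ?_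
  · simp only [Prod.fst_zero, Pi.zero_apply, sum_const_zero, zero_mul]
    exact can_zero
  · simp only [Finset.sum_pi_single', mem_univ, if_true, one_mul]
    refine hc k _ fun j => ⟨Nat.cast_nonneg _, ?_⟩
    rw [← bb_single Φ S]
    exact_mod_cast hg j
  · convert can_add hp hq (fun _ => Nat.cast_nonneg _) fun _ => Nat.cast_nonneg _ using 1
    · simp [sum_add_distrib, add_mul]
    · funext j; simp

omit he hA in
/-- uniform positivity -/
theorem exists_N : ∃ N : ℕ, ∀ (q : ℕ) (x x' : κ → ℕ), 0 < q → x ≠ 0 →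
    (∀ i, (N : ℤ) * |(q * x i - x' i : ℤ)| ≤ q) →
    Amp P (q • (((∑ k, x k) * S.r) • lc (S.D b) x + lc S.A x) -
      ((∑ k, x k) * S.r) • lc (S.D b) x') := by
  choose m hm using fun k => (S.amp k).unif (S.D_mem b)
  obtain ⟨M, hM⟩ := (Set.finite_range m).bddAbove
  refine ⟨M * S.r * Fintype.card κ + 1, fun q x x' hq hx h => ?_⟩
  have h1 : ∀ k, Amp P (q • S.A k + ∑ i, (S.r * (q * x i - x' i) : ℤ) • S.D b i) := fun k => by
    refine hm k q _ hq (lt_of_le_of_lt (Nat.mul_le_mul_right _ (hM ⟨k, rfl⟩)) ?_)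
    have h2 : ∀ i, (M * S.r * Fintype.card κ + 1) * (q * x i - x' i : ℤ).natAbs ≤ q := fun i => by
      have h3 := h i
      rw [Int.abs_eq_natAbs] at h3
      exact_mod_cast h3
    have h3 : (M * S.r * Fintype.card κ + 1) * ∑ i, (q * x i - x' i : ℤ).natAbs ≤
        Fintype.card κ * q := by
      rw [mul_sum]
      exact (sum_le_sum fun i _ => h2 i).trans (by simp)
    simp only [Int.natAbs_mul, Int.natAbs_natCast, ← mul_sum]
    refine lt_of_mul_lt_mul_left (a := M * S.r * Fintype.card κ + 1) ?_ (Nat.zero_le _)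
    nlinarith [Nat.mul_le_mul_left (M * S.r) h3]
  convert Amp.lc h1 hx using 1
  rw [lc_add_fam, lc_const, lc_smul_fam, lc_nsmul]
  have h2 : ∑ i, (S.r * (q * x i - x' i) : ℤ) • S.D b i =
      S.r • (q • lc (S.D b) x - lc (S.D b) x') := by
    simp only [lc, smul_sub, Finset.smul_sum, ← sum_sub_distrib]
    refine sum_congr rfl fun i _ => ?_
    module
  rw [h2]
  module

theorem lift (hL : LiftStmt n) (hlt : ∀ k e₁, e₁ ≠ e → S.c k e₁ < S.r)
    (hc : ∀ k (g : Φ.B'.ι → ℤ), (∀ w, 0 ≤ g w ∧ g w ≤ S.c k (Φ.l w)) → Can Φ.B' Φ.b' S.r g) :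
    ∃ N : ℕ, ∀ p ∈ bm (bb Φ S), (∀ L : ℕ, ∃ (q : ℕ) (x : κ → ℕ), 0 < q ∧
      (∀ i, (N : ℤ) * |(q * p.1 i - x i : ℤ)| ≤ q) ∧ ∃ s ∈ resS (genP Φ S he hA) x, s ≠ 0 ∧
        ∀ j, p.2 j < bb Φ S j p.1 → L * (od Φ.B' j ((pl Φ.p).res (lc (S.D b) x)) -
          log (Φ.B'.v j s)) ≤ q * (L * p.2 j + 1)) →
      (Z Φ S he hA p).Sec ≤ resS (genP Φ S he hA) p.1 := by
  obtain ⟨N, hN⟩ := exists_N (b := b) S
  refine ⟨N, ?_⟩
  rintro ⟨x, g⟩ hp H s' hs'
  have hg : ∀ j, g j ≤ bb Φ S j x := hp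
  rcases eq_or_ne x 0 with rfl | hx
  · obtain rfl : g = 0 := funext fun j => by simpa using hg j
    obtain ⟨c, rfl⟩ := const_of_mem (F := E) (map_zero (Z Φ S he hA) ▸ hs')
    rw [Algebra.algebraMap_eq_smul_one]
    exact Submodule.smul_mem _ c (mult_resS _).one
  obtain ⟨k, hk⟩ := Function.ne_iff.1 hx
  have hk' : 0 < x k := Nat.pos_of_ne_zero hk
  have hm : 0 < (∑ k, x k) * S.r := Nat.mul_pos
    (hk'.trans_le (single_le_sum (f := x) (fun _ _ => Nat.zero_le _) (mem_univ k))) S.r_pos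
  rw [Z_eq Φ S he hA] at hs'
  rw [mem_R Φ S he hA, S.lc_D]
  refine hL F P B b e E Φ _ _ _ (fun j => bb Φ S j x - g j) (Amp.lc S.amp hx) (od_lcA S hA x)
    (c_e S he x) (fun e₁ h₁ => ⟨?_, ?_⟩) hm (fun w => ⟨?_, ?_⟩) ?_ (fun L => ?_) s' hs'
  · rw [Finset.sum_apply]
    exact sum_nonneg fun k _ => nsmul_nonneg (S.c_nonneg k e₁) _
  · rw [Finset.sum_apply, sum_mul, Nat.cast_sum]
    refine sum_lt_sum (fun i _ => ?_) ⟨k, mem_univ k, ?_⟩
    · rw [Pi.smul_apply, nsmul_eq_mul, Nat.cast_mul]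
      exact mul_le_mul_of_nonneg_left (S.c_le i e₁) (Nat.cast_nonneg _)
    · rw [Pi.smul_apply, nsmul_eq_mul, Nat.cast_mul]
      exact mul_lt_mul_of_pos_left (hlt k e₁ h₁) (by exact_mod_cast hk')
  · have := hg w
    omega
  · rw [← bb_cast]
    omega
  · convert can_of Φ S hc (x, fun j => bb Φ S j x - g j) (fun j => Nat.sub_le _ _) using 2 with j
    simp [hg j]
  obtain ⟨q, x', hq, h1, z, hz, h0, h2⟩ := H L
  obtain ⟨s, hs, rfl⟩ := (mem_R Φ S he hA).1 hz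
  rw [← S.lc_D]
  have h3 := hN q x x' hq hx h1
  set m := (∑ k, x k) * S.r
  set T := m • lc (S.D b) x + lc S.A x
  obtain ⟨u, hu⟩ := h3.semi
  have hT : od B e T = 0 := by
    simp only [T, map_add, map_nsmul, od_lcD Φ S he hA, od_lcA S hA, smul_zero, add_zero]
  have hx' := od_lcD Φ S he hA x'
  have h4 : od B e ((u + 1) • (q • T - m • lc (S.D b) x')) = 0 := by
    simp only [map_nsmul, map_sub, hT, hx', smul_zero, sub_zero]
  obtain ⟨τ, hτ, h5, h6⟩ := exists_gen_res Φ (hu (u + 1) u.le_succ) h4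
  have hs1 : Φ.p.v s = 1 := Φ.p.v_eq_one (v_le_one Φ hx' hs) h0
  have hτ1 : Φ.p.v τ = 1 := Φ.v_eq ▸ h5
  have h7 : ((u + 1) * q) • T =
      ((u + 1) * m) • lc (S.D b) x' + (u + 1) • (q • T - m • lc (S.D b) x') := by module
  have h8 : B.v e (s ^ ((u + 1) * m) * τ) = 1 := by
    rw [← Φ.v_eq, map_mul, map_pow, hs1, hτ1, one_pow, one_mul]
  refine ⟨(u + 1) * q, Nat.mul_pos u.succ_pos hq, s ^ ((u + 1) * m) * τ,
    h7 ▸ mul_mem_Sec (pow_mem_Sec hs _) hτ, h8, fun w hw => ?_⟩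
  have h9 := h2 w (by have := hg w; simp only; omega)
  have h10 := h6 w
  have h11 : (pr ℂ (s ^ ((u + 1) * m) * τ)).val (pl Φ.p).V = 1 := by
    rw [val_pr (fun h => by simp [h] at h8), v_one Φ h8]
  have hrτ : Φ.p.r τ ≠ 0 := Φ.p.r_ne_zero hτ1
  rw [Pl.res_sub ((val_iff Φ).2 (by rw [map_nsmul, hT, smul_zero])) h11, Pl.res_pr (v_one Φ h8),
    pl_r, h7, Pl.res_add ((val_iff Φ).2 (by rw [map_nsmul, hx', smul_zero])) ((val_iff Φ).2 h4),
    Pl.res_nsmul ((val_iff Φ).2 hx'), Φ.p.r_mul (Φ.p.v_pow_le hs1.le _) hτ1.le,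
    Φ.p.r_pow hs1.le, map_sub, map_add, map_nsmul,
    od_pr (mul_ne_zero (pow_ne_zero _ h0) hrτ), Res.Out.ord, neg_neg, map_mul, map_pow,
    log_mul (pow_ne_zero _ (by simpa using h0)) (by simpa using hrτ), log_pow, ← bb_cast]
  simp only [nsmul_eq_mul] at h9 ⊢
  have h12 := mul_le_mul_of_nonneg_left h9 (Nat.cast_nonneg (α := ℤ) ((u + 1) * m))
  have h13 := mul_le_mul_of_nonneg_left h10 (Nat.cast_nonneg (α := ℤ) L)
  push_cast at h12 ⊢
  nlinarith

end Fc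

/-- **section 4 and Lemma 6.2** -/
theorem s4Stmt : S4Stmt := by
  intro n hAn hL F _ _ P B b κ _ S e E _ _ Φ he hlt hA hc
  have ht : ∀ j x, ((od Φ.B' j).comp ((Z Φ S he hA).comp (AddMonoidHom.inl _ _))) x =
      od Φ.B' j ((pl Φ.p).res (lc (S.D b) x)) := fun j x => by
    simp [Z_apply]
  let D : Dat ℂ E κ Φ.B'.ι :=
    { R := resS (genP Φ S he hA)
      Ad := fun p => (Z Φ S he hA p).Sec
      v := Φ.B'.v
      t := fun j => (od Φ.B' j).comp ((Z Φ S he hA).comp (AddMonoidHom.inl _ _))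
      b := bb Φ S
      triv := triv Φ.B'
      mR := mult_resS _
      mA := ⟨by rw [map_zero]; exact one_mem_Sec, fun p _ q _ f hf g hg => by
        rw [map_add]; exact mul_mem_Sec hf hg⟩
      fgA := fg_Z Φ S he hA hAn
      R_le := fun x s hs j => by
        rw [ht]
        exact le_exp_ord (hv := triv Φ.B' j) (R_mem Φ S he hA hs)
      A_le := fun p s hs j => by
        have h := le_exp_ord (hv := triv Φ.B' j) hs
        change _ ≤ exp (od Φ.B' j _) at h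
        rwa [Z_apply, map_sub, od_dvs, ← ht] at h
      mem_A := fun p s hs h => mem_Sec_sub_dvs
        (Φ.res_on _ (lc_mem (S.D_mem b) _) (od_lcD Φ S he hA _)) (R_mem Φ S he hA hs) fun j => by
          rw [← ht]
          exact h j
      lift := by
        simp only [ht]
        exact lift Φ S he hA hL hlt hc }
  have h := (rfg_iff (genP Φ S he hA)).2 D.fg
  obtain ⟨N, d, f, h1, h2⟩ := h
  refine ⟨N, d, f, h1, fun x s hs => (h2 x s hs).imp fun g hg => ⟨hg.1, ?_⟩⟩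
  have h3 := hg.2
  rw [vl_eq_one.2 ((val_iff Φ).2 (od_lcD Φ S he hA x)), Φ.v_eq] at h3
  rwa [vl_eq_one_iff.2 (od_lcD Φ S he hA x)]

end Crest.Agent.X262.FG.S4
end
end

-- ▼ part X262/FG/Dj1
section

/-!
# Row 262, FG / DISJ (helper74): independence of the weights of lc places

* `der_monAt` : logarithmic derivatives of monomials;
* `indep`     : crossing lc places of an snc pair have independent weight vectors;
* `sep`       : two independent weight vectors are separated by a monomial (mediant).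
-/

set_option autoImplicit false
set_option linter.unusedSectionVars false

open WithZero Module
open scoped KaehlerDifferential

noncomputable section

namespace Crest.Agent.X262.FG.Dj

open Crest.Agent.X277 Crest.Agent.X277.Lef Crest.Agent.X277.Res Crest.Agent.X277.Res.Out
  Crest.Agent.X277.AN.G1 Crest.Agent.X277.Res.Log

variable {F : Type} [Field F] [Algebra ℂ F] {P P₀ : PModel ℂ F} {n : ℕ}
  {B : Bd P n} {B₀ : Bd P₀ n} {x : Pts P} {x₀ : Pts P₀}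

theorem der_prod_div (ξ : Derivation ℂ F F) {ι : Type*} (s : Finset ι) {f : ι → F}
    (hf : ∀ i, f i ≠ 0) : ξ (∏ i ∈ s, f i) / ∏ i ∈ s, f i = ∑ i ∈ s, ξ (f i) / f i := by
  classical
  induction s using Finset.induction_on with
  | empty => simp
  | insert a s ha ih =>
    rw [Finset.prod_insert ha, Finset.sum_insert ha,
      Link.der_mul_div ξ (hf a) (Finset.prod_ne_zero_iff.2 fun i _ => hf i), ih]

theorem der_monAt (ξ : Derivation ℂ F F) {ε : B.ι → ℤ} (hε : ∀ e, ξ (B.τ e x) = ε e * B.τ e x)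
    {g : F} (hg : B.MonAt x g) : ∃ u, Un (lp x).O u ∧
      ξ g / g = ξ u * u⁻¹ + ((∑ e, ε e * ord (B.v e) g : ℤ) : F) := by
  refine ⟨_, hg, ?_⟩
  have h0 := B.mon_ne x fun e => ord (B.v e) g
  nth_rewrite 1 2 [← div_mul_cancel₀ g h0]
  rw [Link.der_mul_div ξ hg.1 h0, ← div_eq_mul_inv (ξ _)]
  congr 1
  rw [Bd.mon, der_prod_div ξ _ fun e => zpow_ne_zero _ (B.τ_ne e x), Int.cast_sum]
  refine Finset.sum_congr rfl fun e _ => ?_
  rw [Link.der_zpow_div ξ (B.τ_ne e x), hε, mul_div_cancel_right₀ _ (B.τ_ne e x), Int.cast_mul,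
    mul_comm]

theorem prod_ite_eq_mon {t : Fin n → F} {σ : {e // On (B.v e) x} → Fin n}
    (hσ : Function.Injective σ) (h : ∀ e, B.τ e.1 x = t (σ e)) [DecidablePred (· ∈ Set.range σ)] :
    ∏ l, (if l ∈ Set.range σ then t l else 1) = B.mon x 1 := by
  classical
  rw [← Finset.prod_filter, Bd.mon,
    ← Finset.prod_subset (Finset.filter_subset (fun e => On (B.v e) x) Finset.univ),
    Finset.prod_subtype (Finset.filter (fun e => On (B.v e) x) _) (p := fun e => On (B.v e) x)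
      (by simp)]
  · symm
    refine Finset.prod_nbij σ (fun e _ => Finset.mem_filter.2 ⟨Finset.mem_univ _, e, rfl⟩) hσ.injOn
      (fun l hl => by simpa using hl) fun e _ => ?_
    rw [Pi.one_apply, zpow_one, h]
  · infer_instance
  · intro e _ h4
    rw [B.off e x (by simpa using h4), one_zpow]

theorem det_mem {O : Type*} [CommRing O] [Algebra ℂ O] {J : Ideal O} (hJ : J.IsPrime)
    {M : Matrix (Fin n) (Fin n) O} {c : Fin n → ℤ} {l₀ : Fin n} (hc : c l₀ ≠ 0)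
    (h : ∀ m, ∑ l, (c l : O) * M l m ∈ J) : M.det ∈ J := by
  have : Nontrivial (O ⧸ J) := Ideal.Quotient.nontrivial_iff.2 hJ.ne_top
  have : CharZero (O ⧸ J) := charZero_of_injective_algebraMap (algebraMap ℂ _).injective
  rw [← Ideal.Quotient.eq_zero_iff_mem, RingHom.map_det, ← Matrix.exists_vecMul_eq_zero_iff]
  refine ⟨fun l => c l, fun h2 => hc ?_, funext fun m => ?_⟩
  · have h3 := congrFun h2 l₀
    rwa [Pi.zero_apply, Int.cast_eq_zero] at h3
  · have h3 := Ideal.Quotient.eq_zero_iff_mem.2 (h m)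
    simpa [Matrix.vecMul, dotProduct] using h3

theorem der_sum_apply {ι : Type*} (s : Finset ι) (δ : ι → Derivation ℂ F F) (f : F) :
    (∑ i ∈ s, δ i) f = ∑ i ∈ s, δ i f := by
  classical
  induction s using Finset.induction_on with
  | empty => simp
  | insert a s ha ih => rw [Finset.sum_insert ha, Finset.sum_insert ha, Derivation.add_apply, ih]

variable (b : Basis (Fin n) F Ω[F⁄ℂ])

/-- **(IND)** crossing lc places of an snc pair have independent weight vectors -/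
theorem indep (hd : (lp x₀).O ≤ (lp x).O) (hm : ∀ d, B.MonAt x (B₀.τ d x₀)) {t t₀ : Fin n → F}
    (ht : (lp x).Crd t) (ht₀ : (lp x₀).Crd t₀) (hj : B.MonAt x (jac b t₀ / jac b t))
    {a : B.ι → ℤ} (ha : ∀ e, a e ≠ 0 → On (B.v e) x ∧
      ord (B.v e) (jac b t₀ / jac b t) + 1 ≤ ∑ d, ord (B.v e) (B₀.τ d x₀))
    (h : ∀ d, ∑ e, a e * ord (B.v e) (B₀.τ d x₀) = 0) (e₁ : B.ι) : a e₁ = 0 := by
  classical
  by_contra h1
  obtain ⟨s, σ, hs, hσ, hτ⟩ := B.snc x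
  obtain ⟨z, σ₀, hz, hσ₀, hτ₀⟩ := B₀.snc x₀
  have hs' := crd_of_coords hs
  have hz' := crd_of_coords hz
  have h0 := hs'.jac_ne (lp_fin x) b
  let ρ : Fin n → (lp x).O := fun l => if l ∈ Set.range σ then hs.el l else 1
  let γ : Fin n → F := fun m => if m ∈ Set.range σ₀ then z m else 1
  have hρ : ∀ e, ρ (σ e) = hs.el (σ e) := fun e => if_pos ⟨e, rfl⟩
  let δ : Fin n → Derivation ℂ F F := fun l => (ρ l : F) • pdD h0 l
  have hδ : ∀ l f, δ l f = ρ l * pd b s l f := fun l f => by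
    rw [Derivation.smul_apply, pdD_apply, smul_eq_mul]
  have hδO : ∀ l, ∀ f ∈ (lp x).O, δ l f ∈ (lp x).O := fun l f hf =>
    hδ l f ▸ mul_mem (ρ l).2 (hs'.pd_mem (lp_fin x) b l hf)
  let ε : Fin n → B.ι → ℤ := fun l e =>
    if he : On (B.v e) x then (if l = σ ⟨e, he⟩ then 1 else 0) else 0
  have hε : ∀ l e, δ l (B.τ e x) = ε l e * B.τ e x := fun l e => by
    by_cases he : On (B.v e) x
    · simp only [ε, dif_pos he]
      rw [hδ, hτ ⟨e, he⟩, pd_self h0]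
      split_ifs with hl
      · rw [hl, hρ, mul_one, Int.cast_one, one_mul]
        rfl
      · simp
    · simp [ε, dif_neg he, B.off e x he]
  have hM : ∀ l m, δ l (z m) / γ m ∈ (lp x).O := fun l m => by
    simp only [γ]
    split_ifs with hm'
    · obtain ⟨d, rfl⟩ := hm'
      obtain ⟨u, hu, h2⟩ := der_monAt (δ l) (hε l) (hm d.1)
      rw [← hτ₀, h2]
      exact add_mem (mul_mem (hδO l u hu.2.1) hu.2.2) (intCast_mem _ _)
    · rw [div_one]
      exact hδO l _ (hd (hz'.mem m))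
  let M : Matrix (Fin n) (Fin n) (lp x).O := Matrix.of fun l m => ⟨_, hM l m⟩
  let S : Set (Fin n) := σ '' {e | a e.1 ≠ 0}
  let J : Ideal (lp x).O := Ideal.span (hs.el '' S)
  have hJ : J.IsPrime := isPrime_crd (pdO_el b hs) hs.span_eq S
  -- the log vector field
  let c : Fin n → ℤ := fun l => ∑ e, ε l e * a e
  have hcσ : ∀ e : {e // On (B.v e) x}, c (σ e) = a e := fun e => by
    simp only [c]
    rw [Finset.sum_eq_single e.1]
    · simp [ε, dif_pos e.2]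
    · intro e' _ he'
      by_cases h2 : On (B.v e') x
      · simp only [ε, dif_pos h2]
        rw [if_neg fun h3 => he' (congrArg Subtype.val (hσ h3)).symm, zero_mul]
      · simp [ε, dif_neg h2]
    · simp
  have hcS : ∀ l, l ∉ S → c l = 0 := fun l hl => Finset.sum_eq_zero fun e _ => by
    by_cases h2 : On (B.v e) x
    · simp only [ε, dif_pos h2]
      split_ifs with h3
      · rw [one_mul]
        by_contra h4
        exact hl ⟨⟨e, h2⟩, h4, h3.symm⟩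
      · rw [zero_mul]
    · simp [ε, dif_neg h2]
  let ξ : Derivation ℂ F F := ∑ l, (c l : F) • δ l
  have hξ : ∀ f, ξ f = ∑ l, (c l : F) * δ l f := fun f => by
    simp only [ξ, der_sum_apply, Derivation.smul_apply, smul_eq_mul]
  have hξτ : ∀ e, ξ (B.τ e x) = a e * B.τ e x := fun e => by
    simp only [hξ, hε, ← mul_assoc, ← Finset.sum_mul, ← Int.cast_mul, ← Int.cast_sum]
    congr 2
    by_cases he : On (B.v e) x
    · simp only [ε, dif_pos he, mul_ite, mul_one, mul_zero, Finset.sum_ite_eq', Finset.mem_univ,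
        if_true, hcσ]
    · simp only [ε, dif_neg he, mul_zero, Finset.sum_const_zero]
      by_contra h2
      exact he (ha e (Ne.symm h2)).1
  have hξJ : ∀ f ∈ (lp x).O, ∃ g ∈ J, (g : F) = ξ f := fun f hf => by
    refine ⟨∑ l, (c l : (lp x).O) * (ρ l * pdO b hs l ⟨f, hf⟩), J.sum_mem fun l _ => ?_, ?_⟩
    · by_cases hl : l ∈ S
      · obtain ⟨e, he, rfl⟩ := hl
        exact J.mul_mem_left _ (J.mul_mem_right _ (hρ e ▸ Ideal.subset_span ⟨_, ⟨e, he, rfl⟩, rfl⟩))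
      · rw [hcS l hl, Int.cast_zero, zero_mul]
        exact zero_mem _
    · simp only [hξ, hδ, AddSubmonoidClass.coe_finsetSum, MulMemClass.coe_mul, coe_pdO,
        SubringClass.coe_intCast]
  have hrow : ∀ m, ∑ l, (c l : (lp x).O) * M l m ∈ J := fun m => by
    have h2 : ((∑ l, (c l : (lp x).O) * M l m : (lp x).O) : F) = ξ (z m) / γ m := by
      simp only [hξ, M, AddSubmonoidClass.coe_finsetSum, MulMemClass.coe_mul, Matrix.of_apply,
        SubringClass.coe_intCast, Finset.sum_div, mul_div_assoc]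
    simp only [γ] at h2
    split_ifs at h2 with hm'
    · obtain ⟨d, rfl⟩ := hm'
      obtain ⟨u, hu, h3⟩ := der_monAt ξ hξτ (hm d.1)
      obtain ⟨g, hg, h4⟩ := hξJ u hu.2.1
      rw [← hτ₀, h3, h, Int.cast_zero, add_zero, ← h4] at h2
      rw [show ∑ l, (c l : (lp x).O) * M l (σ₀ d) = g * ⟨_, hu.2.2⟩ from Subtype.ext h2]
      exact J.mul_mem_right _ hg
    · obtain ⟨g, hg, h4⟩ := hξJ _ (hd (hz'.mem m))
      rw [div_one, ← h4] at h2
      rwa [Subtype.ext h2]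
  have hdet : M.det ∈ J :=
    det_mem hJ (l₀ := σ ⟨e₁, (ha e₁ h1).1⟩) (by rw [hcσ]; exact h1) hrow
  -- the determinant is a monomial
  have hγ0 : ∀ m, γ m ≠ 0 := fun m => by
    simp only [γ]
    split_ifs
    exacts [hz.ne_zero m, one_ne_zero]
  have hdet' : (M.det : F) = B.mon x 1 * ((B₀.mon x₀ 1)⁻¹ * (jac b z / jac b s)) := by
    have h2 := RingHom.map_det (lp x).O.val.toRingHom M
    have h3 : (lp x).O.val.toRingHom.mapMatrix M = Matrix.of fun l m =>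
        (ρ l : F) * (Matrix.of fun l m => (γ m)⁻¹ * (Matrix.of fun l m => pd b s l (z m)) l m) l m := by
      ext l m
      change δ l (z m) / γ m = _
      rw [hδ, Matrix.of_apply, Matrix.of_apply, Matrix.of_apply, mul_div_assoc, div_eq_inv_mul]
    rw [h3, Matrix.det_mul_column, Matrix.det_mul_row, ← jac_div_eq_det h0, Finset.prod_inv_distrib,
      prod_ite_eq_mon hσ₀ hτ₀] at h2
    rw [← prod_ite_eq_mon hσ hτ]
    refine h2.trans (congrArg (· * _) (Finset.prod_congr rfl fun l _ => ?_))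
    simp only [ρ]
    split_ifs <;> rfl
  have hz0 := hz'.jac_ne (lp_fin x₀) b
  have ht0 := ht.jac_ne (lp_fin x) b
  have ht₀0 := ht₀.jac_ne (lp_fin x₀) b
  have hu1 : Un (lp x).O (jac b t / jac b s) := un_iff.2 (hs'.v_jac_div_ne (lp_fin x) b ht)
  have hu2 : Un (lp x).O (jac b z / jac b t₀) :=
    (un_iff.2 (ht₀.v_jac_div_ne (lp_fin x₀) b hz')).mono hd
  have hjs : jac b z / jac b s = jac b z / jac b t₀ * (jac b t₀ / jac b t) * (jac b t / jac b s) := by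
    field_simp
  have hm1 : B.MonAt x (B₀.mon x₀ 1) := Bd.MonAt.prod _ fun d _ => (hm d).zpow _
  have hmon : B.MonAt x (M.det : F) := by
    rw [hdet', hjs]
    exact (Bd.monAt_mon 1).mul (hm1.inv.mul (((Bd.monAt_un hu2).mul hj).mul (Bd.monAt_un hu1)))
  have hord : ∀ e, a e ≠ 0 → ord (B.v e) (M.det : F) ≤ 0 := fun e he => by
    have h2 := (ha e he).1
    have h3 := (ha e he).2
    rw [hdet', hjs, ord_mul (B.mon_ne x 1) (mul_ne_zero (inv_ne_zero hm1.ne)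
        (mul_ne_zero (mul_ne_zero hu2.1 hj.ne) hu1.1)),
      ord_mul (inv_ne_zero hm1.ne) (mul_ne_zero (mul_ne_zero hu2.1 hj.ne) hu1.1),
      ord_mul (mul_ne_zero hu2.1 hj.ne) hu1.1, ord_mul hu2.1 hj.ne, h2.ord_un hu1, h2.ord_un hu2,
      Bd.ord_mon h2, ord_inv, Bd.ord_mon']
    simp only [Pi.one_apply, one_mul]
    omega
  let τ : B.ι → (lp x).O := fun e => ⟨_, B.τ_mem e x⟩
  have hfac : M.det = ⟨_, hmon.2.1⟩ * ∏ e, τ e ^ (ord (B.v e) (M.det : F)).toNat := by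
    refine Subtype.ext ?_
    have h2 : ((∏ e, τ e ^ (ord (B.v e) (M.det : F)).toNat : (lp x).O) : F) =
        B.mon x fun e => ord (B.v e) (M.det : F) := by
      rw [Bd.mon_congr (m' := fun e => (ord (B.v e) (M.det : F)).toNat) fun e he =>
        (Int.toNat_of_nonneg (ord_nonneg (he _ M.det.2))).symm]
      simp only [SubmonoidClass.coe_finsetProd, SubmonoidClass.coe_pow, τ, Bd.mon, zpow_natCast]
    rw [MulMemClass.coe_mul, h2, div_mul_cancel₀ _ (B.mon_ne x _)]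
  rw [hfac] at hdet
  rcases hJ.mem_or_mem hdet with h2 | h2
  · refine hJ.ne_top (J.eq_top_of_isUnit_mem h2 ?_)
    exact IsUnit.of_mul_eq_one ⟨_, hmon.2.2⟩ (Subtype.ext (mul_inv_cancel₀ hmon.1))
  · obtain ⟨e, -, h3⟩ := Ideal.IsPrime.prod_mem_iff.1 h2
    have h4 := hJ.mem_of_pow_mem _ h3
    by_cases he : On (B.v e) x
    · rw [show τ e = hs.el (σ ⟨e, he⟩) from Subtype.ext (hτ ⟨e, he⟩)] at h4
      refine notMem_crd (pdO_el b hs) hs.span_eq (fun h5 => ?_) h4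
      obtain ⟨e', he', h6⟩ := h5
      obtain rfl := hσ h6
      rw [Int.toNat_eq_zero.2 (hord _ he'), pow_zero] at h3
      exact hJ.ne_top ((Ideal.eq_top_iff_one _).2 h3)
    · rw [show τ e = 1 from Subtype.ext (B.off e x he)] at h4
      exact hJ.ne_top ((Ideal.eq_top_iff_one _).2 h4)

end Crest.Agent.X262.FG.Dj
end
end

-- ▼ part X262/FG/Dj2
section

/-!
# Row 262, FG / DISJ (helper74): a criterion for canonical pairs

* `ord_jac_ge'`, `ord_τ_le_jac'` : discrepancy bounds along any prime divisor of a model;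
* `crep_nonpos`  : places other than the components have crepant coefficient at most zero;
* `can_of_cross` : `c e + c e' ≤ r` for crossing components implies canonical.
-/

set_option autoImplicit false
set_option linter.unusedSectionVars false

open WithZero Module
open scoped KaehlerDifferential

noncomputable section

namespace Crest.Agent.X262.FG.Dj

open Crest.Agent.X277 Crest.Agent.X277.Lef Crest.Agent.X277.Res Crest.Agent.X277.Res.Out
  Crest.Agent.X277.AN.G1 Crest.Agent.X277.Res.Log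
open Crest.Agent.X277.Link (IsPD)
open Crest.Agent.X277.BD.Br (At oP kP)

variable {F : Type} [Field F] [Algebra ℂ F] {P P₀ : PModel ℂ F} {n : ℕ}
  (b : Basis (Fin n) F Ω[F⁄ℂ]) {B₀ : Bd P₀ n} {x : Pts P} {x₀ : Pts P₀} {v : Valuation F ℤᵐ⁰}
  {t t₀ : Fin n → F}

/-- every prime divisor is a component of a boundary on a higher model -/
theorem exists_comp (hv : IsPD P v) (hx : On v x) (ht : (lp x).Crd t) :
    ∃ (Q : PModel ℂ F) (C : Bd Q n) (e : C.ι) (y : Pts Q) (s : Fin n → F), C.v e = v ∧ On v y ∧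
      (lp y).Crd s ∧ ord v (jac b s) = ord v (jac b t) := by
  obtain ⟨f, hf⟩ := hv.nrm
  obtain ⟨Q, C, h⟩ := exists_logRes' b P {{f}}
  obtain ⟨e, he⟩ := Up.exists_lab h.isoOff hv (h.mon _ (Finset.mem_singleton_self _) f
    (Finset.mem_singleton_self _) (Link.ne_zero_of_v hf)) (hf ▸ Link.exp_neg_one_lt.ne)
  obtain ⟨y, hy⟩ := C.ne e
  obtain ⟨s, hs⟩ := exists_crd b y
  rw [he] at hy
  exact ⟨Q, C, e, y, s, he, hy, hs, by rw [ord, ord, Up.v_jac_up b h.isoOff hv hy hx hs ht]⟩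

theorem ord_jac_ge' (hv : IsPD P v) (hx : On v x) (h₀ : On v x₀) (ht : (lp x).Crd t)
    (ht₀ : (lp x₀).Crd t₀) : ∑ d, ord v (B₀.τ d x₀) ≤ ord v (jac b t₀ / jac b t) + 1 := by
  obtain ⟨Q, C, e, y, s, rfl, hy, hs, h⟩ := exists_comp b hv hx ht
  have h1 := Bd.ord_jac_ge (B₀ := B₀) b hy h₀ hs ht₀
  rwa [ord_div (ht₀.jac_ne (lp_fin x₀) b) (hs.jac_ne (lp_fin y) b), h,
    ← ord_div (ht₀.jac_ne (lp_fin x₀) b) (ht.jac_ne (lp_fin x) b)] at h1

theorem ord_τ_le_jac' (hv : IsPD P v) (hx : On v x) (h₀ : On v x₀) {d : B₀.ι}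
    (hd : On (B₀.v d) x₀) (hne : v ≠ B₀.v d) (ht : (lp x).Crd t) (ht₀ : (lp x₀).Crd t₀) :
    ord v (B₀.τ d x₀) ≤ ord v (jac b t₀ / jac b t) := by
  obtain ⟨Q, C, e, y, s, rfl, hy, hs, h⟩ := exists_comp b hv hx ht
  have h1 := ord_τ_le_jac b hy h₀ hd hne hs ht₀
  rwa [ord_div (ht₀.jac_ne (lp_fin x₀) b) (hs.jac_ne (lp_fin y) b), h,
    ← ord_div (ht₀.jac_ne (lp_fin x₀) b) (ht.jac_ne (lp_fin x) b)] at h1

theorem on_of_ord_pos {d : B₀.ι} (h : 0 < ord v (B₀.τ d x₀)) : On (B₀.v d) x₀ :=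
  Bd.on_of_v_τ_lt ((v_lt_one_iff (B₀.τ_ne d x₀)).2 h)

/-- an lc place other than the components lies over two components -/
theorem exists_two (hv : IsPD P v) (hx : On v x) (hd : (lp x₀).O ≤ (lp x).O) (ht : (lp x).Crd t)
    (ht₀ : (lp x₀).Crd t₀) (h : ord v (jac b t₀ / jac b t) + 1 ≤ ∑ d, ord v (B₀.τ d x₀))
    {d₀ : B₀.ι} (hne : v ≠ B₀.v d₀) : ∃ d ≠ d₀, 0 < ord v (B₀.τ d x₀) := by
  classical
  by_contra h1
  push Not at h1
  have h₀ : On v x₀ := fun f hf => hx f (hd hf)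
  rw [Finset.sum_eq_single d₀ (fun d _ h2 => le_antisymm (h1 d h2) (Bd.ord_τ_nonneg h₀ d))
    (by simp)] at h
  have h2 := Bd.ord_jac_nonneg b hx hd ht ht₀
  have h3 := ord_τ_le_jac' b hv hx h₀ (on_of_ord_pos (v := v) (d := d₀) (by omega)) hne ht ht₀
  omega

variable {r : ℕ} {c : B₀.ι → ℤ}

theorem crep_eq' (ht : (lp x).Crd t) (ht₀ : (lp x₀).Crd t₀) : B₀.crep b r c v x₀ t t₀ =
    r - r * (ord v (jac b t₀ / jac b t) + 1 - ∑ d, ord v (B₀.τ d x₀)) -
      ∑ d, (r - c d) * ord v (B₀.τ d x₀) := by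
  simp only [Bd.crep_eq b _ ht ht₀, sub_mul, Finset.sum_sub_distrib, ← Finset.mul_sum]
  ring

/-- a place with positive crepant coefficient is an lc place of the reduced boundary -/
theorem lc_of_crep_pos (hc : ∀ d, c d ≤ r) (hv : IsPD P v) (hx : On v x) (h₀ : On v x₀)
    (ht : (lp x).Crd t) (ht₀ : (lp x₀).Crd t₀) (h : 0 < B₀.crep b r c v x₀ t t₀) :
    ord v (jac b t₀ / jac b t) + 1 ≤ ∑ d, ord v (B₀.τ d x₀) ∧
      ∑ d, (r - c d) * ord v (B₀.τ d x₀) < r := by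
  have h1 := ord_jac_ge' (B₀ := B₀) b hv hx h₀ ht ht₀
  have h2 : 0 ≤ ∑ d, (r - c d) * ord v (B₀.τ d x₀) := Finset.sum_nonneg fun d _ =>
    mul_nonneg (sub_nonneg.2 (hc d)) (Bd.ord_τ_nonneg h₀ d)
  rw [crep_eq' b ht ht₀] at h
  have h3 := mul_nonneg (Int.natCast_nonneg r) (sub_nonneg.2 h1)
  refine ⟨?_, by linarith⟩
  by_contra h4
  have h5 := mul_le_mul_of_nonneg_left (show 1 ≤ ord v (jac b t₀ / jac b t) + 1 -
    ∑ d, ord v (B₀.τ d x₀) by omega) (Int.natCast_nonneg r)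
  linarith

/-- **(CAN1)** -/
theorem crep_nonpos (hc : ∀ d, c d ≤ r)
    (hcr : ∀ d d', d ≠ d' → On (B₀.v d) x₀ → On (B₀.v d') x₀ → c d + c d' ≤ r) (hv : IsPD P v)
    (hx : On v x) (hd : (lp x₀).O ≤ (lp x).O) (ht : (lp x).Crd t) (ht₀ : (lp x₀).Crd t₀)
    (hne : ∀ d, v ≠ B₀.v d) : B₀.crep b r c v x₀ t t₀ ≤ 0 := by
  classical
  by_contra h
  have h₀ : On v x₀ := fun f hf => hx f (hd hf)
  obtain ⟨h1, h2⟩ := lc_of_crep_pos b hc hv hx h₀ ht ht₀ (not_le.1 h)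
  obtain ⟨d₀, -, -⟩ := Bd.crep_pos b hx hd ht ht₀ (not_le.1 h)
  obtain ⟨d, -, h3⟩ := exists_two b hv hx hd ht ht₀ h1 (hne d₀)
  obtain ⟨d', h4, h5⟩ := exists_two b hv hx hd ht ht₀ h1 (hne d)
  have h6 := Finset.sum_le_sum_of_subset_of_nonneg (f := fun d => (r - c d) * ord v (B₀.τ d x₀))
    (Finset.subset_univ {d', d}) fun d _ _ =>
      mul_nonneg (sub_nonneg.2 (hc d)) (Bd.ord_τ_nonneg h₀ d)
  rw [Finset.sum_pair h4] at h6
  have h7 := hcr d' d h4 (on_of_ord_pos h5) (on_of_ord_pos h3)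
  have h8 := mul_le_mul_of_nonneg_left (show 1 ≤ ord v (B₀.τ d x₀) from h3) (sub_nonneg.2 (hc d))
  have h9 := mul_le_mul_of_nonneg_left (show 1 ≤ ord v (B₀.τ d' x₀) from h5) (sub_nonneg.2 (hc d'))
  linarith

/-- a place other than `d₀` has coefficient less than one if only `d₀` has coefficient one -/
theorem crep_lt (hr : 0 < r) {d₀ : B₀.ι} (hc₀ : c d₀ ≤ r) (hc : ∀ d ≠ d₀, c d < r) (hv : IsPD P v)
    (hx : On v x) (hd : (lp x₀).O ≤ (lp x).O) (ht : (lp x).Crd t) (ht₀ : (lp x₀).Crd t₀)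
    (hne : v ≠ B₀.v d₀) : B₀.crep b r c v x₀ t t₀ < r := by
  by_contra h
  have hc' : ∀ d, c d ≤ r := fun d => (eq_or_ne d d₀).elim (fun h => h ▸ hc₀) fun h => (hc d h).le
  have h₀ : On v x₀ := fun f hf => hx f (hd hf)
  have h1 := (lc_of_crep_pos b hc' hv hx h₀ ht ht₀
    ((Int.natCast_pos.2 hr).trans_le (not_lt.1 h))).1
  obtain ⟨d, h2, h3⟩ := exists_two b hv hx hd ht ht₀ h1 hne
  have h4 := Finset.single_le_sum (f := fun d => (r - c d) * ord v (B₀.τ d x₀))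
    (fun d _ => mul_nonneg (sub_nonneg.2 (hc' d)) (Bd.ord_τ_nonneg h₀ d)) (Finset.mem_univ d)
  have h5 := mul_pos (sub_pos.2 (hc d h2)) h3
  have h6 := mul_nonneg (Int.natCast_nonneg r)
    (sub_nonneg.2 (ord_jac_ge' (B₀ := B₀) b hv hx h₀ ht ht₀))
  rw [crep_eq' b ht ht₀] at h
  linarith

theorem exists_centre (h : oP P₀ ∈ BD.Br.On P) (x : Pts P) :
    ∃ x₀ : Pts P₀, (lp x₀).O ≤ (lp x).O := by
  obtain ⟨i, hi⟩ := BD.Br.gn_of_mem ⟨0, P₀.y_ne 0⟩ h x
  obtain ⟨x₀, -, h1⟩ := exists_dom (lp x) hi.2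
  exact ⟨x₀, h1.le⟩

theorem at_up {a : BD ℂ F} {g : F} (hd : (lp x₀).O ≤ (lp x).O) (h : At a x₀ g) : At a x g :=
  fun V hV => h V fun f hf => hV f (hd hf)

theorem at_adj (B : Bd P n) (r : ℕ) (c : B.ι → ℤ) (ht : (lp x).Crd t) :
    At (r • kP P b + dvs B c) x (jac b t ^ r / B.mon x c) := by
  rw [div_eq_mul_inv]
  exact ((BD.Br.at_kP b ht).nsmul r).add (at_dvs B c x)

theorem ord_mon_of_ne {B : Bd P n} (hv : IsPD P v) (hx : On v x) (h : ∀ e, B.v e ≠ v)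
    (m : B.ι → ℤ) : ord v (B.mon x m) = 0 := by
  rw [Bd.ord_mon']
  refine Finset.sum_eq_zero fun e _ => ?_
  by_cases he : On (B.v e) x
  · rw [ord_eq_zero ((Bd.eqn he).v_ne hv hx (h e).symm), mul_zero]
  · rw [B.off e x he, ord_one, mul_zero]

/-- **crossing components with small coefficients form a canonical pair** -/
theorem can_of_cross (hc : ∀ d, c d ≤ r)
    (hcr : ∀ (x₀ : Pts P₀) d d', d ≠ d' → On (B₀.v d) x₀ → On (B₀.v d') x₀ → c d + c d' ≤ r) :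
    Can B₀ b r c := by
  intro Q C c' hQ h1 h2
  refine BD.Br.le_of_at (P := Q) fun x => ?_
  obtain ⟨x₀, hd⟩ := exists_centre hQ x
  obtain ⟨t, ht⟩ := exists_crd b x
  obtain ⟨t₀, ht₀⟩ := exists_crd b x₀
  refine ⟨_, _, at_up hd (at_adj b B₀ r c ht₀), at_adj b C r c' ht,
    Link.mem_lp_of_v fun v hv hx => ?_⟩
  have h3 := pow_ne_zero r (ht.jac_ne (lp_fin x) b)
  have h4 := div_ne_zero (pow_ne_zero r (ht₀.jac_ne (lp_fin x₀) b)) (B₀.mon_ne x₀ c)
  have h5 : B₀.crep b r c v x₀ t t₀ ≤ ord v (C.mon x c') := by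
    have h6 : 0 ≤ ord v (C.mon x c') := ord_nonneg (hx _ (Bd.mon_mem fun e _ => h2 e))
    by_cases h7 : ∃ d, v = B₀.v d
    · obtain ⟨d, rfl⟩ := h7
      rw [Bd.crep_self b (fun f hf => hx f (hd hf)) hx hd ht ht₀]
      rcases eq_or_ne (c d) 0 with h8 | h8
      · rwa [h8]
      · obtain ⟨e, h9, h10⟩ := h1 d h8
        rw [← h9] at hx ⊢
        rwa [Bd.ord_mon hx]
    · exact (crep_nonpos b hc (hcr x₀) hv hx hd ht ht₀ fun d h => h7 ⟨d, h⟩).trans h6
  rw [Bd.crep, ord_div h3 h4] at h5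
  rw [Link.v_div_le (div_ne_zero h3 (C.mon_ne x c')), v_le_iff h4 (div_ne_zero h3 (C.mon_ne x c')),
    ord_div h3 (C.mon_ne x c')]
  omega

end Crest.Agent.X262.FG.Dj
end
end

-- ▼ part X262/FG/Dj3
section

/-!
# Row 262, FG / DISJ (helper74): one log resolution separates the lc places of bounded weight

* `Sep B₀ P N`   : the ideals `(τ_d ^ a, τ_d' ^ a')`, `a, a' ≤ N`, are principal on `P`;
* `exists_sep`   : every log resolution of a suitable finite family has this property;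
* `disj`, `crep_disj` : along the strict transform of `d₀` two crossing components do not both have
  positive crepant coefficients.
-/

set_option autoImplicit false
set_option linter.unusedSectionVars false

open WithZero Module Filter Topology
open scoped KaehlerDifferential

noncomputable section

namespace Crest.Agent.X262.FG.Dj

open Crest.Agent.X277 Crest.Agent.X277.Lef Crest.Agent.X277.Res Crest.Agent.X277.Res.Out
  Crest.Agent.X277.AN.G1 Crest.Agent.X277.Res.Log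
open Crest.Agent.X277.Link (IsPD)

variable {F : Type} [Field F] [Algebra ℂ F] {P P₀ : PModel ℂ F} {n : ℕ}

/-- the ideals `(τ_d ^ a, τ_d' ^ a')`, `a, a' ≤ N`, are principal on `P` -/
def Sep (B₀ : Bd P₀ n) (P : PModel ℂ F) (N : ℕ) : Prop :=
  ∀ (x : Pts P) (x₀ : Pts P₀), (lp x₀).O ≤ (lp x).O → ∀ (d d' : B₀.ι) (a a' : ℕ), a ≤ N → a' ≤ N →
    B₀.τ d x₀ ^ a / B₀.τ d' x₀ ^ a' ∈ (lp x).O ∨ B₀.τ d' x₀ ^ a' / B₀.τ d x₀ ^ a ∈ (lp x).O

theorem exists_sep (B₀ : Bd P₀ n) (N : ℕ) : ∃ 𝒢 : Finset (Finset F), ∀ {P : PModel ℂ F}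
    {B : Bd P n}, LogRes P₀.y 𝒢 B → Sep B₀ P N := by
  classical
  obtain ⟨T, hT⟩ := CompactSpace.elim_nhds_subcover
    (fun z : Pts P₀ => {x₀ | ∀ d, Un (lp x₀).O (B₀.τ d x₀ / B₀.τ d z)})
    fun z => eventually_all.2 fun d => B₀.coh d z
  refine ⟨(T ×ˢ (Finset.univ ×ˢ Finset.univ) ×ˢ Finset.range (N + 1) ×ˢ Finset.range (N + 1)).image
    fun q => {B₀.τ q.2.1.1 q.1 ^ q.2.2.1, B₀.τ q.2.1.2 q.1 ^ q.2.2.2},
    fun h x x₀ hd d d' a a' ha ha' => ?_⟩
  obtain ⟨z, hz, h1⟩ : ∃ z ∈ T, ∀ d, Un (lp x₀).O (B₀.τ d x₀ / B₀.τ d z) := by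
    simpa using Set.eq_univ_iff_forall.1 hT x₀
  have key : ∀ d d' (a a' : ℕ), B₀.τ d z ^ a / B₀.τ d' z ^ a' ∈ (lp x).O →
      B₀.τ d x₀ ^ a / B₀.τ d' x₀ ^ a' ∈ (lp x).O := fun d d' a a' h2 => by
    have h3 := mul_mem h2 (hd (((h1 d).pow a).div ((h1 d').pow a')).2.1)
    have := B₀.τ_ne d z
    have := B₀.τ_ne d' z
    convert h3 using 1
    rw [div_pow, div_pow]
    field_simp
  obtain ⟨g, h2, -, h3⟩ := h.prin x _ (Finset.mem_image_of_mem _ (show (z, (d, d'), a, a') ∈ _ by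
    simp [hz, ha, ha'])) ⟨_, Finset.mem_insert_self _ _, pow_ne_zero _ (B₀.τ_ne d z)⟩
  rcases Finset.mem_insert.1 h2 with rfl | h2
  · exact Or.inr (key _ _ _ _ (h3 _ (by simp)))
  · rw [Finset.mem_singleton.1 h2] at h3
    exact Or.inl (key _ _ _ _ (h3 _ (by simp)))

/-- proportional vectors are dependent -/
theorem exists_rel {ι : Type*} {p : ι → Prop} {w w' : ι → ℤ}
    (h : ∀ d d', p d → p d' → w d * w' d' = w' d * w d') :
    ∃ α β : ℤ, (α ≠ 0 ∨ β ≠ 0) ∧ ∀ d, p d → α * w d + β * w' d = 0 := by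
  by_cases h1 : ∃ d, p d ∧ w d ≠ 0
  · obtain ⟨d₁, h2, h3⟩ := h1
    exact ⟨-w' d₁, w d₁, Or.inr h3, fun d hd => by rw [h d₁ d h2 hd]; ring⟩
  · push Not at h1
    exact ⟨1, 0, Or.inl one_ne_zero, fun d hd => by rw [h1 d hd]; ring⟩

variable (b : Basis (Fin n) F Ω[F⁄ℂ]) {B : Bd P n} {B₀ : Bd P₀ n} {x : Pts P} {x₀ : Pts P₀}
  {t t₀ : Fin n → F} {N : ℕ}

/-- the mediant separates -/
theorem Sep.le (hs : Sep B₀ P (2 * N)) (hd : (lp x₀).O ≤ (lp x).O) {v w : Valuation F ℤᵐ⁰}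
    (hv : On v x) (hw : On w x) {d d' : B₀.ι} (h1 : ord v (B₀.τ d x₀) ≤ N)
    (h2 : ord w (B₀.τ d x₀) ≤ N) (h3 : ord v (B₀.τ d' x₀) ≤ N) (h4 : ord w (B₀.τ d' x₀) ≤ N) :
    ord w (B₀.τ d x₀) * ord v (B₀.τ d' x₀) ≤ ord v (B₀.τ d x₀) * ord w (B₀.τ d' x₀) := by
  by_contra h
  have hv₀ : On v x₀ := fun f hf => hv f (hd hf)
  have hw₀ : On w x₀ := fun f hf => hw f (hd hf)
  obtain ⟨a₁, ha₁⟩ := Int.eq_ofNat_of_zero_le (Bd.ord_τ_nonneg hv₀ d)
  obtain ⟨a₂, ha₂⟩ := Int.eq_ofNat_of_zero_le (Bd.ord_τ_nonneg hw₀ d)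
  obtain ⟨b₁, hb₁⟩ := Int.eq_ofNat_of_zero_le (Bd.ord_τ_nonneg hv₀ d')
  obtain ⟨b₂, hb₂⟩ := Int.eq_ofNat_of_zero_le (Bd.ord_τ_nonneg hw₀ d')
  have h0 := pow_ne_zero (b₁ + b₂) (B₀.τ_ne d x₀)
  have h0' := pow_ne_zero (a₁ + a₂) (B₀.τ_ne d' x₀)
  rcases hs x x₀ hd d d' (b₁ + b₂) (a₁ + a₂) (by omega) (by omega) with h5 | h5
  · have h6 := ord_nonneg (hv _ h5)
    rw [ord_div h0 h0', ord_pow, ord_pow] at h6
    rw [ha₁, hb₁] at h6
    rw [ha₁, ha₂, hb₁, hb₂] at h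
    push_cast at h6
    linarith
  · have h6 := ord_nonneg (hw _ h5)
    rw [ord_div h0' h0, ord_pow, ord_pow] at h6
    rw [ha₂, hb₂] at h6
    rw [ha₁, ha₂, hb₁, hb₂] at h
    push_cast at h6
    linarith

theorem lc_self {d₀ : B₀.ι} (hx : On (B₀.v d₀) x) (h₀ : On (B₀.v d₀) x₀) (ht : (lp x).Crd t)
    (ht₀ : (lp x₀).Crd t₀) :
    ord (B₀.v d₀) (jac b t₀ / jac b t) + 1 ≤ ∑ d, ord (B₀.v d₀) (B₀.τ d x₀) := by
  have h1 := v_jac_le_of_loc b (Bd.eqn h₀).loc ht₀ fun l => hx _ (ht.mem l)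
  have h4 := ht.jac_ne (lp_fin x) b
  have h5 := ht₀.jac_ne (lp_fin x₀) b
  have h2 := Bd.ord_mon' (x₀ := x₀) (B₀.v d₀) (1 : B₀.ι → ℤ)
  rw [v_le_iff h4 h5] at h1
  simp only [Bd.ord_mon h₀, Pi.one_apply, one_mul] at h2
  rw [ord_div h5 h4]
  omega

/-- **(DISJ)** lc places of bounded weight do not cross on the strict transform of `d₀` -/
theorem disj (hs : Sep B₀ P (2 * N)) (hd : (lp x₀).O ≤ (lp x).O)
    (hm : ∀ d, B.MonAt x (B₀.τ d x₀)) (ht : (lp x).Crd t) (ht₀ : (lp x₀).Crd t₀)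
    (hj : B.MonAt x (jac b t₀ / jac b t)) {d₀ : B₀.ι} {e₀ e₁ e₂ : B.ι} (h₀ : B.v e₀ = B₀.v d₀)
    (h1 : e₁ ≠ e₀) (h2 : e₂ ≠ e₀) (h12 : e₁ ≠ e₂) (he₀ : On (B.v e₀) x) (he₁ : On (B.v e₁) x)
    (he₂ : On (B.v e₂) x)
    (l1 : ord (B.v e₁) (jac b t₀ / jac b t) + 1 ≤ ∑ d, ord (B.v e₁) (B₀.τ d x₀))
    (l2 : ord (B.v e₂) (jac b t₀ / jac b t) + 1 ≤ ∑ d, ord (B.v e₂) (B₀.τ d x₀))
    (b1 : ∀ d ≠ d₀, ord (B.v e₁) (B₀.τ d x₀) ≤ N) (b2 : ∀ d ≠ d₀, ord (B.v e₂) (B₀.τ d x₀) ≤ N) :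
    False := by
  classical
  obtain ⟨α, β, h3, h4⟩ := exists_rel (p := (· ≠ d₀)) (w := fun d => ord (B.v e₁) (B₀.τ d x₀))
    (w' := fun d => ord (B.v e₂) (B₀.τ d x₀)) fun d d' h h' => le_antisymm
      (hs.le hd he₂ he₁ (b2 d h) (b1 d h) (b2 d' h') (b1 d' h'))
      (hs.le hd he₁ he₂ (b1 d h) (b2 d h) (b1 d' h') (b2 d' h'))
  have he₀' : On (B₀.v d₀) x₀ := fun f hf => h₀ ▸ he₀ f (hd hf)
  let γ := α * ord (B.v e₁) (B₀.τ d₀ x₀) + β * ord (B.v e₂) (B₀.τ d₀ x₀)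
  have h5 := indep b hd hm ht ht₀ hj
    (a := Pi.single e₁ α + Pi.single e₂ β - Pi.single e₀ γ) (fun e he => ?_) fun d => ?_
  · have h6 := h5 e₁
    have h7 := h5 e₂
    simp [h1, h2, h12, h12.symm] at h6 h7
    exact h3.elim (· h6) (· h7)
  · by_cases h6 : e = e₁
    · exact h6 ▸ ⟨he₁, l1⟩
    by_cases h7 : e = e₂
    · exact h7 ▸ ⟨he₂, l2⟩
    by_cases h8 : e = e₀
    · refine h8 ▸ ⟨he₀, ?_⟩
      rw [h₀] at he₀ ⊢
      exact lc_self b he₀ he₀' ht ht₀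
    · simp [h6, h7, h8] at he
  · simp only [Pi.sub_apply, Pi.add_apply, sub_mul, add_mul, Finset.sum_sub_distrib,
      Finset.sum_add_distrib, Pi.single_apply, ite_mul, zero_mul, Finset.sum_ite_eq',
      Finset.mem_univ, if_true]
    rcases eq_or_ne d d₀ with rfl | h6
    · rw [h₀, Bd.ord_τ_self he₀', mul_one, sub_self]
    · rw [h4 d h6, h₀, Bd.ord_τ_ne he₀' h6.symm, mul_zero, sub_zero]

theorem ord_le_of_lt {r : ℕ} {c : B₀.ι → ℤ} {d₀ : B₀.ι} (hc₀ : c d₀ ≤ r) (hc : ∀ d ≠ d₀, c d < r)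
    {v : Valuation F ℤᵐ⁰} (h₀ : On v x₀) (h : ∑ d, (r - c d) * ord v (B₀.τ d x₀) < r) :
    ∀ d ≠ d₀, ord v (B₀.τ d x₀) ≤ r := fun d hd => by
  have hc' : ∀ d, c d ≤ r := fun d => (eq_or_ne d d₀).elim (fun h => h ▸ hc₀) fun h => (hc d h).le
  have h4 := Finset.single_le_sum (f := fun d => (r - c d) * ord v (B₀.τ d x₀))
    (fun d _ => mul_nonneg (sub_nonneg.2 (hc' d)) (Bd.ord_τ_nonneg h₀ d)) (Finset.mem_univ d)
  have h5 := mul_le_mul_of_nonneg_right (show 1 ≤ r - c d by have := hc d hd; omega)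
    (Bd.ord_τ_nonneg h₀ d)
  linarith

/-- **(DISJ)** in terms of crepant coefficients -/
theorem crep_disj {r : ℕ} (hs : Sep B₀ P (2 * r)) (h : IsoOff P₀ B) (hd : (lp x₀).O ≤ (lp x).O)
    (hm : ∀ d, B.MonAt x (B₀.τ d x₀)) (ht : (lp x).Crd t) (ht₀ : (lp x₀).Crd t₀)
    {d₀ : B₀.ι} {e₀ e₁ e₂ : B.ι} (h₀ : B.v e₀ = B₀.v d₀)
    (h1 : e₁ ≠ e₀) (h2 : e₂ ≠ e₀) (h12 : e₁ ≠ e₂) (he₀ : On (B.v e₀) x) (he₁ : On (B.v e₁) x)
    (he₂ : On (B.v e₂) x) {c c' : B₀.ι → ℤ} (hc₀ : c d₀ ≤ r) (hc : ∀ d ≠ d₀, c d < r)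
    (hc₀' : c' d₀ ≤ r) (hc' : ∀ d ≠ d₀, c' d < r) :
    B₀.crep b r c (B.v e₁) x₀ t t₀ ≤ 0 ∨ B₀.crep b r c' (B.v e₂) x₀ t t₀ ≤ 0 := by
  by_contra h3
  push Not at h3
  have h4 : On (B.v e₁) x₀ := fun f hf => he₁ f (hd hf)
  have h5 : On (B.v e₂) x₀ := fun f hf => he₂ f (hd hf)
  have h6 := lc_of_crep_pos b (fun d => (eq_or_ne d d₀).elim (fun h => h ▸ hc₀)
    fun h => (hc d h).le) (B.isPD e₁) he₁ h4 ht ht₀ h3.1
  have h7 := lc_of_crep_pos b (fun d => (eq_or_ne d d₀).elim (fun h => h ▸ hc₀')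
    fun h => (hc' d h).le) (B.isPD e₂) he₂ h5 ht ht₀ h3.2
  exact disj b hs hd hm ht ht₀ (h.monAt_jac b hd ht₀ ht) h₀ h1 h2 h12 he₀ he₁ he₂ h6.1 h7.1
    (ord_le_of_lt hc₀ hc h4 h6.2) (ord_le_of_lt hc₀' hc' h5 h7.2)

end Crest.Agent.X262.FG.Dj
end
end

-- ▼ part X262/FG/Dj4
section

/-!
# Row 262, FG / DISJ (helper74): facets and crepant pull-backs

* `Fc.cross`     : crossing components of a facet come from different crossing components;
* `monAt_mon`, `cr`, `adj_eq`, `cr_eq` : the crepant pull-back of `r K + ∑ c d • D d`;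
* `sec_add_exc`  : exceptional effective divisors do not change the sections.
-/

set_option autoImplicit false
set_option linter.unusedSectionVars false

open WithZero Module
open scoped KaehlerDifferential

noncomputable section

namespace Crest.Agent.X262.FG.Dj

open Crest.Agent.X277 Crest.Agent.X277.Lef Crest.Agent.X277.Res Crest.Agent.X277.Res.Out
  Crest.Agent.X277.AN.G1 Crest.Agent.X277.Res.Log
open Crest.Agent.X277.Link (IsPD)
open Crest.Agent.X277.BD.Br (At oP kP)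
open Crest.Agent.X277.Glue (Ovr)

variable {F : Type} [Field F] [Algebra ℂ F] {P P₀ : PModel ℂ F} {n : ℕ}

section Facet

variable {B : Bd P (n + 1)} {b : Basis (Fin (n + 1)) F Ω[F⁄ℂ]} {e : B.ι} {E : Type} [Field E]
  [Algebra ℂ E] (Φ : Fc B b e E) {x : Pts P} {x' : Pts Φ.P'} {w w' : Φ.B'.ι}

theorem on_of_ovr (h : Ovr Φ.p x' x) : On (B.v e) x := fun f hf => Φ.v_eq ▸ h.le f hf

theorem ord_lab (h : Ovr Φ.p x' x) (hw : On (Φ.B'.v w) x') :
    ord (Φ.B'.v w) (Φ.p.r (B.τ (Φ.l w) x)) = 1 := by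
  rw [Bd.ord_eq_of_un (Φ.lab x' x h _ (Φ.l_ne w)) hw, if_pos rfl]

theorem on_lab (h : Ovr Φ.p x' x) (hw : On (Φ.B'.v w) x') : On (B.v (Φ.l w)) x := by
  rw [Bd.on_iff, ← h.ev_eq _ (B.τ_mem _ x)]
  refine hw.ev_eq ((v_lt_one_iff fun h0 => ?_).2 (by rw [ord_lab Φ h hw]; exact one_pos))
  have h1 := ord_lab Φ h hw
  rw [h0, ord_zero] at h1
  exact zero_ne_one h1

theorem lab_ne (h : Ovr Φ.p x' x) (hw : On (Φ.B'.v w) x') (hw' : On (Φ.B'.v w') x')
    (hne : w ≠ w') : Φ.l w ≠ Φ.l w' := by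
  intro hl
  have he := on_of_ovr Φ h
  have h1 := on_lab Φ h hw
  have h2 := h.mem _ (B.τ_mem (Φ.l w) x)
  have h0 : Φ.p.r (B.τ (Φ.l w) x) ≠ 0 := fun h0 => by
    have h1 := ord_lab Φ h hw
    rw [h0, ord_zero] at h1
    exact zero_ne_one h1
  have h3 := Bd.div_mem hw h2 ((v_lt_one_iff h0).2 (by rw [ord_lab Φ h hw]; exact one_pos))
  have h4 : ev (Φ.p.r (B.τ (Φ.l w) x) / Φ.B'.τ w x') x' = 0 := by
    refine hw'.ev_eq ((v_lt_one_iff (div_ne_zero h0 (Φ.B'.τ_ne w x'))).2 ?_)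
    rw [ord_div h0 (Φ.B'.τ_ne w x'), Bd.ord_τ_ne hw' hne.symm, hl, ord_lab Φ h hw']
    exact one_pos
  obtain ⟨a, ha, h5⟩ := h.surj _ h3
  obtain ⟨c, hc, h6⟩ := h.surj _ (Φ.B'.τ_mem w x')
  have h7 : ev a x = 0 := by rw [← h.ev_eq a ha, h5, h4]
  have h8 : ev c x = 0 := by rw [← h.ev_eq c hc, h6, Bd.on_iff.1 hw]
  have h9 : B.v e (B.τ (Φ.l w) x - a * c) < 1 := by
    rw [← Φ.v_eq, ← Φ.p.r_eq_zero (h.le _ (sub_mem (B.τ_mem _ x) (mul_mem ha hc))),
      Φ.p.r_sub (h.le _ (B.τ_mem _ x)) (h.le _ (mul_mem ha hc)), Φ.p.r_mul (h.le a ha) (h.le c hc),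
      h5, h6, div_mul_cancel₀ _ (Φ.B'.τ_ne w x'), sub_self]
  have h10 := Bd.div_mem he (sub_mem (B.τ_mem _ x) (mul_mem ha hc)) h9
  obtain ⟨t, σ, ht, hσ, hτ⟩ := B.snc x
  obtain ⟨d, hd, hd'⟩ := ht.der
  set q := (B.τ (Φ.l w) x - a * c) / B.τ e x with hq
  have h11 : B.τ (Φ.l w) x = a * c + q * B.τ e x := by
    rw [hq, div_mul_cancel₀ _ (B.τ_ne e x), add_sub_cancel]
  have h12 := congrArg (fun f => ev (d (σ ⟨_, h1⟩) f) x) h11
  have h13 : d (σ ⟨_, h1⟩) (B.τ e x) = 0 := by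
    rw [hτ ⟨e, he⟩, hd', if_neg fun h => Φ.l_ne w (congrArg Subtype.val (hσ h))]
  have h14 : d (σ ⟨_, h1⟩) (B.τ (Φ.l w) x) = 1 := by rw [hτ ⟨_, h1⟩, hd', if_pos rfl]
  have h15 : ev (B.τ e x) x = 0 := Bd.on_iff.1 he
  simp only [map_add, Derivation.leibniz, smul_eq_mul, h13, h14, mul_zero, zero_add, ev] at h12
  rw [(lp x).v_add (add_mem (mul_mem ha (hd _ c hc)) (mul_mem hc (hd _ a ha)))
      (mul_mem (B.τ_mem e x) (hd _ q h10)),
    (lp x).v_add (mul_mem ha (hd _ c hc)) (mul_mem hc (hd _ a ha)), (lp x).v_mul ha (hd _ c hc),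
    (lp x).v_mul hc (hd _ a ha), (lp x).v_mul (B.τ_mem e x) (hd _ q h10), (lp x).v_one] at h12
  simp only [ev] at h7 h8 h15
  simp [h7, h8, h15] at h12

end Facet

variable {B : Bd P n} {B₀ : Bd P₀ n} {x : Pts P} {x₀ : Pts P₀} {v : Valuation F ℤᵐ⁰}
  (b : Basis (Fin n) F Ω[F⁄ℂ])

theorem mem_On_up (h : IsoOff P₀ B) {a : BD ℂ F} (ha : a ∈ BD.Br.On P₀) : a ∈ BD.Br.On P :=
  fun x => (ha (h.mor.map x)).imp fun _ => at_up (h.le x)

theorem at_dvs_off (h : IsoOff P₀ B) (hl : ∀ d, ∃ e, B.v e = B₀.v d) (c : B₀.ι → ℤ)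
    (hx : B.Off x) : At (dvs B₀ c) x 1 :=
  (at_up (h.le x) (at_dvs B₀ c _)).of_ev (by
    rw [div_one]
    exact un_iff.1 (Up.un_mon_of_lab h hl c hx).inv)

theorem monAt_mon (h : IsoOff P₀ B) (hl : ∀ d, ∃ e, B.v e = B₀.v d) (hd : (lp x₀).O ≤ (lp x).O)
    (c : B₀.ι → ℤ) : B.MonAt x (B₀.mon x₀ c) := by
  have h1 := at_up hd (at_dvs B₀ c x₀)
  rw [eq_dvs (mem_On_up h (dvs_mem B₀ c)) fun _ => at_dvs_off h hl c] at h1
  have h2 := un_iff.2 ((at_dvs B _ x).ev_div_ne h1)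
  rw [inv_div_inv] at h2
  exact Bd.monAt_of_un h2

theorem monAt_τ (h : IsoOff P₀ B) (hl : ∀ d, ∃ e, B.v e = B₀.v d) (hd : (lp x₀).O ≤ (lp x).O)
    (d : B₀.ι) : B.MonAt x (B₀.τ d x₀) := by
  classical
  have h1 := monAt_mon h hl hd (Pi.single d 1)
  rwa [Bd.mon, Finset.prod_eq_single d, Pi.single_eq_same, zpow_one] at h1
  · intro e' _ he
    rw [Pi.single_eq_of_ne he, zpow_zero]
  · simp

variable (B) in
/-- the crepant coefficients -/
def cr (r : ℕ) (c : B₀.ι → ℤ) (e : B.ι) : ℤ := od B e (r • kP P₀ b + dvs B₀ c - r • kP P b)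

variable {r : ℕ} {c : B₀.ι → ℤ} {e : B.ι}

theorem adj_eq (h : IsoOff P₀ B) (hl : ∀ d, ∃ e, B.v e = B₀.v d) (r : ℕ) (c : B₀.ι → ℤ) :
    r • kP P₀ b + dvs B₀ c = r • kP P b + dvs B (cr B b r c) := by
  rw [← sub_eq_iff_eq_add']
  refine eq_dvs (sub_mem (mem_On_up h (add_mem (nsmul_mem (BD.Br.kP_mem b) r) (dvs_mem B₀ c)))
    (nsmul_mem (BD.Br.kP_mem b) r)) fun x hx => ?_
  obtain ⟨t, ht⟩ := exists_crd b x
  have h1 := ((at_up (h.le x) (BD.Br.at_kP b (x := h.mor.map x)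
    (by rwa [h.lp_map hx]))).nsmul r).add (at_dvs_off h hl c hx) |>.sub ((BD.Br.at_kP b ht).nsmul r)
  rwa [mul_one, div_self (pow_ne_zero _ (ht.jac_ne (lp_fin x) b))] at h1

theorem cr_eq (he : On (B.v e) x) (hd : (lp x₀).O ≤ (lp x).O) {t t₀ : Fin n → F} (ht : (lp x).Crd t)
    (ht₀ : (lp x₀).Crd t₀) : cr B b r c e = B₀.crep b r c (B.v e) x₀ t t₀ := by
  rw [cr, od_of_at ((at_up hd (at_adj b B₀ r c ht₀)).sub ((BD.Br.at_kP b ht).nsmul r)) he, Bd.crep,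
    ← ord_inv, inv_div]

include b in
theorem exists_frame (h : IsoOff P₀ B) (x : Pts P) : ∃ (x₀ : Pts P₀) (t t₀ : Fin n → F),
    (lp x₀).O ≤ (lp x).O ∧ (lp x).Crd t ∧ (lp x₀).Crd t₀ := by
  obtain ⟨t, ht⟩ := exists_crd b x
  obtain ⟨t₀, ht₀⟩ := exists_crd b (h.mor.map x)
  exact ⟨_, t, t₀, h.le x, ht, ht₀⟩

theorem cr_self (h : IsoOff P₀ B) {d : B₀.ι} (he : B.v e = B₀.v d) : cr B b r c e = c d := by
  obtain ⟨x, hx⟩ := B.ne e
  obtain ⟨x₀, t, t₀, hd, ht, ht₀⟩ := exists_frame b h x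
  rw [cr_eq b hx hd ht ht₀, he]
  rw [he] at hx
  exact Bd.crep_self b (fun f hf => hx f (hd hf)) hx hd ht ht₀


theorem cr_lt (h : IsoOff P₀ B) (hr : 0 < r) {d₀ : B₀.ι} (hc₀ : c d₀ ≤ r) (hc : ∀ d ≠ d₀, c d < r)
    (he : B.v e ≠ B₀.v d₀) : cr B b r c e < r := by
  obtain ⟨x, hx⟩ := B.ne e
  obtain ⟨x₀, t, t₀, hd, ht, ht₀⟩ := exists_frame b h x
  rw [cr_eq b hx hd ht ht₀]
  exact crep_lt b hr hc₀ hc (B.isPD e) hx hd ht ht₀ he

theorem cr_nonneg (h : IsoOff P₀ B) (hc : ∀ d, 0 ≤ c d) (he : IsPD P₀ (B.v e)) :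
    0 ≤ cr B b r c e := by
  obtain ⟨x, hx⟩ := B.ne e
  obtain ⟨x₀, t, t₀, hd, ht, ht₀⟩ := exists_frame b h x
  have h₀ : On (B.v e) x₀ := fun f hf => hx f (hd hf)
  rw [cr_eq b hx hd ht ht₀, Bd.crep_eq b _ ht ht₀, ord_eq_zero
    ((Link.v_div_eq (ht.jac_ne (lp_fin x) b)).2 (Up.v_jac_up b h he hx h₀ ht ht₀).symm),
    mul_zero, sub_zero]
  exact Finset.sum_nonneg fun d _ => mul_nonneg (hc d) (Bd.ord_τ_nonneg h₀ d)

theorem cr_disj (hs : Sep B₀ P (2 * r)) (h : IsoOff P₀ B) (hl : ∀ d, ∃ e, B.v e = B₀.v d)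
    {d₀ : B₀.ι} {e₀ e₁ e₂ : B.ι} (h₀ : B.v e₀ = B₀.v d₀)
    (h1 : e₁ ≠ e₀) (h2 : e₂ ≠ e₀) (h12 : e₁ ≠ e₂) (he₀ : On (B.v e₀) x) (he₁ : On (B.v e₁) x)
    (he₂ : On (B.v e₂) x) {c c' : B₀.ι → ℤ} (hc₀ : c d₀ ≤ r) (hc : ∀ d ≠ d₀, c d < r)
    (hc₀' : c' d₀ ≤ r) (hc' : ∀ d ≠ d₀, c' d < r) : cr B b r c e₁ ≤ 0 ∨ cr B b r c' e₂ ≤ 0 := by
  obtain ⟨x₀, t, t₀, hd, ht, ht₀⟩ := exists_frame b h x
  rw [cr_eq b he₁ hd ht ht₀, cr_eq b he₂ hd ht ht₀]
  exact crep_disj b hs h hd (monAt_τ h hl hd) ht ht₀ h₀ h1 h2 h12 he₀ he₁ he₂ hc₀ hc hc₀' hc'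

/-- exceptional effective divisors do not change the sections -/
theorem sec_add_exc (h : IsoOff P₀ B) {g : B.ι → ℤ} (h0 : ∀ e, 0 ≤ g e)
    (hg : ∀ e, IsPD P₀ (B.v e) → g e = 0) {a : BD ℂ F} (ha : a ∈ BD.Br.On P₀) :
    (a + dvs B g).Sec = a.Sec := by
  refine le_antisymm (fun f hf => BD.Br.mem_Sec_of (P := P₀) fun x₀ => ?_)
    (BD.Sec_mono (le_add_of_nonneg_right (dvs_nonneg h0)))
  obtain ⟨u, hu⟩ := ha x₀
  refine ⟨u, hu, Link.mem_lp_of_v fun v hv hx₀ => ?_⟩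
  obtain ⟨x, hx⟩ := Top.exists_ov P (BD.rz v hv.triv)
  obtain ⟨u', hu'⟩ := mem_On_up h ha x
  have h1 : v (f / (u' * (B.mon x g)⁻¹)) ≤ 1 := hx _ ((hu'.add (at_dvs B g x)).div_mem hf)
  have h2 : v u' = v u := (BD.v_rz_eq_iff v hv.triv).1 ((hu' _ hx).trans (hu (BD.rz v hv.triv) hx₀).symm)
  have h3 : v (B.mon x g) = 1 := by
    rw [v_eq_one_iff (B.mon_ne x g)]
    by_cases h4 : ∃ e, B.v e = v
    · obtain ⟨e, rfl⟩ := h4
      rw [Bd.ord_mon hx, hg e hv]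
    · exact ord_mon_of_ne (Up.isPD_up h hv) hx (fun e he => h4 ⟨e, he⟩) g
  rwa [map_div₀, map_mul, map_inv₀, h3, inv_one, mul_one, h2, ← map_div₀] at h1

end Crest.Agent.X262.FG.Dj
end
end

-- ▼ part X262/FG/Dj5
section

/-!
# Row 262, FG / DISJ (helper74): the change of the model

* `exists_good` : a plt system goes up to a model on which crossing components along `e` have
  small coefficients;
* `disjStmt_of` : `DisjStmt`.
-/

set_option autoImplicit false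
set_option linter.unusedSectionVars false

open WithZero Module
open scoped KaehlerDifferential

noncomputable section

namespace Crest.Agent.X262.FG.Dj

open Crest.Agent.X277 Crest.Agent.X277.Lef Crest.Agent.X277.Res Crest.Agent.X277.Res.Out
  Crest.Agent.X277.AN.G1 Crest.Agent.X277.Res.Log
open Crest.Agent.X277.Link (IsPD)
open Crest.Agent.X277.BD.Br (At oP kP)

/-- a relatively ample exceptional divisor -/
def ExcAmp : Prop := ∀ (F : Type) [Field F] [Algebra ℂ F] (n : ℕ) (P Q : PModel ℂ F) (C : Bd Q n),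
  IsoOff P C → ∃ (N : ℕ) (g : C.ι → ℤ), (∀ e, 0 ≤ g e) ∧ (∀ e, IsPD P (C.v e) → g e = 0) ∧
    Amp Q (N • oP P - dvs C g)

variable {F : Type} [Field F] [Algebra ℂ F] {P : PModel ℂ F} {n : ℕ} {B : Bd P n} {κ : Type}

/-- a plt system on a higher model: along the strict transform of `e` crossing components have
coefficients with sum at most one -/
theorem exists_good (hE : ExcAmp) [Finite κ] (S : Sys B κ) {e : B.ι} (he : ∀ k, S.c k e = S.r)
    (hk : ∀ k, ∀ d ≠ e, S.c k d < S.r) : ∃ (Q : PModel ℂ F) (C : Bd Q n) (e₁ : C.ι),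
      IsoOff P C ∧ C.v e₁ = B.v e ∧ ∀ b : Basis (Fin n) F Ω[F⁄ℂ],
      ∃ (S' : Sys C κ) (M : ℕ) (η : κ → C.ι → ℤ), 0 < M ∧
        (∀ k, S'.c k e₁ = S'.r) ∧ (∀ k, ∀ e' ≠ e₁, S'.c k e' < S'.r) ∧
        (∀ k, od C e₁ (S'.A k) = 0) ∧
        (∀ k (x : Pts Q) e' e'', e' ≠ e₁ → e'' ≠ e₁ → e' ≠ e'' → On (C.v e₁) x → On (C.v e') x →
          On (C.v e'') x → S'.c k e' + S'.c k e'' ≤ S'.r) ∧
        (∀ k e', 0 ≤ η k e') ∧ (∀ k e', IsPD P (C.v e') → η k e' = 0) ∧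
        ∀ k, BD.Lin (M • S.D b k + dvs C (η k)) (S'.D b k) := by
  obtain ⟨b₀⟩ := B.exists_basis
  obtain ⟨𝒢, h𝒢⟩ := exists_sep B (2 * S.r)
  obtain ⟨Q, C, hL, hl, -⟩ := Up.exists_res b₀ B 𝒢 (ι := Empty) Empty.elim
  have h := hL.isoOff
  obtain ⟨e₁, he₁⟩ := hl e
  refine ⟨Q, C, e₁, h, he₁, fun b => ?_⟩
  obtain ⟨N, g, hg0, hg, hA⟩ := hE F n P Q C h
  choose m hm using fun k => (S.amp k).exists_free (neg_mem (nsmul_mem BD.Br.oP_mem N))
  obtain ⟨M₁, hM₁⟩ := (Set.finite_range m).bddAbove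
  obtain ⟨M₂, hM₂⟩ := (Set.finite_range fun e' => (g e').toNat).bddAbove
  set M := M₁ + 2 * M₂ + 1 with hM
  have h1 : ∀ e', 2 * g e' < M := fun e' => by
    have h2 : (g e').toNat ≤ M₂ := hM₂ ⟨e', rfl⟩
    omega
  have h2 : ∀ k, Amp Q (M • S.A k - dvs C g) := fun k => by
    have h3 : m k ≤ M₁ := hM₁ ⟨k, rfl⟩
    convert hA.add_free (mem_On_up h (add_mem (nsmul_mem (S.amp k).1 M)
      (neg_mem (nsmul_mem BD.Br.oP_mem N)))) (hm k M (by omega)) using 1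
    abel
  choose f hf0 hf using fun k => exists_od_zero C e₁ (M • S.A k - dvs C g)
  have hr : (0 : ℤ) < S.r := Int.natCast_pos.2 S.r_pos
  have hM0 : (0 : ℤ) < M := by omega
  have h3 : ∀ k, ∀ e' ≠ e₁, cr C b S.r (S.c k) e' < S.r := fun k e' h3 =>
    cr_lt b h S.r_pos (he k).le (hk k) fun h4 => h3 (C.v_injective (h4.trans he₁.symm))
  have h4 : ∀ k, M * max (cr C b S.r (S.c k) e₁) 0 + g e₁ = (M * S.r : ℕ) := fun k => by
    rw [cr_self b h he₁, he, max_eq_left hr.le, hg e₁ (he₁ ▸ B.isPD e), add_zero, Nat.cast_mul]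
  have h5 : ∀ k, ∀ e' ≠ e₁, M * max (cr C b S.r (S.c k) e') 0 + M ≤ (M * S.r : ℕ) :=
    fun k e' h5 => by
      rw [Nat.cast_mul, ← mul_add_one]
      exact mul_le_mul_of_nonneg_left (max_lt (h3 k e' h5) hr) hM0.le
  have h6 : ∀ k, ∀ e' ≠ e₁, M * max (cr C b S.r (S.c k) e') 0 + g e' < (M * S.r : ℕ) :=
    fun k e' h6 => by
      have := h5 k e' h6
      have := h1 e'
      have := hg0 e'
      omega
  refine ⟨⟨M * S.r, Nat.mul_pos (by omega) S.r_pos, fun k => M • S.A k - dvs C g - BD.pr ℂ (f k),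
    fun k => (h2 k).sub_pr _, fun k e' => M * max (cr C b S.r (S.c k) e') 0 + g e',
    fun k e' => add_nonneg (mul_nonneg hM0.le (le_max_right _ _)) (hg0 e'),
    fun k e' => (eq_or_ne e' e₁).elim (fun h => h ▸ (h4 k).le) fun h => (h6 k e' h).le⟩, M,
    fun k e' => M * max (-cr C b S.r (S.c k) e') 0, by omega, h4, h6, hf,
    fun k x e' e'' h7 h8 h9 h10 h11 h12 => ?_, fun k e' => mul_nonneg hM0.le (le_max_right _ _),
    fun k e' h7 => ?_, fun k => ⟨f k, hf0 k, ?_⟩⟩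
  · have := h1 e'
    have := h1 e''
    have := h5 k e' h7
    have := h5 k e'' h8
    dsimp only
    rcases cr_disj b (h𝒢 hL) h hl he₁ h7 h8 h9 h10 h11 h12 (he k).le (hk k) (he k).le (hk k)
      with h13 | h13 <;> rw [max_eq_right h13] <;> omega
  · dsimp only
    rw [max_eq_right (neg_nonpos.2 (cr_nonneg b h (S.c_nonneg k) h7)), mul_zero]
  · have h7 : (fun e' => M * max (cr C b S.r (S.c k) e') 0 + g e') =
        M • cr C b S.r (S.c k) + (fun e' => M * max (-cr C b S.r (S.c k) e') 0) + g := by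
      funext e'
      rw [Pi.add_apply, Pi.add_apply, Pi.smul_apply, nsmul_eq_mul, ← mul_add]
      congr 2
      rcases le_total (cr C b S.r (S.c k) e') 0 with h7 | h7
      · rw [max_eq_right h7, max_eq_left (neg_nonneg.2 h7), add_neg_cancel]
      · rw [max_eq_left h7, max_eq_right (neg_nonpos.2 h7), add_zero]
    simp only [Sys.D]
    rw [h7, dvs_add, dvs_add, dvs_nsmul, add_right_comm (S.r • kP P b), adj_eq b h hl, mul_smul]
    simp only [smul_add]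
    abel

theorem rfg_congr_v [Fintype κ] {v w : Valuation F ℤᵐ⁰} (h : v = w)
    {hv : ∀ c : ℂ, v (algebraMap ℂ F c) ≤ 1} {hw : ∀ c : ℂ, w (algebraMap ℂ F c) ≤ 1}
    {D : κ → BD ℂ F} (H : RFG v hv D) : RFG w hw D := by
  subst h
  exact H

/-- **DISJ** -/
theorem disjStmt_of (hE : ExcAmp) (hF : FacStmt) : DisjStmt := by
  intro n hG F _ _ P B b κ _ S e he
  obtain ⟨M₁, S₁, hM₁, hr, hD, hI, hk, -, -⟩ := S.exists_klt {e}
  obtain ⟨Q, C, e₁, h, he₁, H⟩ := exists_good hE S₁ (e := e)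
    (fun k => by rw [hI k e rfl, he, hr, Nat.cast_mul]) fun k d hd => hk k d hd
  obtain ⟨b', E, _, _, ⟨Φ⟩⟩ := hF F n Q C e₁
  obtain ⟨S', M, η, hM, h1, h2, h3, h4, h5, h6, h7⟩ := H b'
  have h8 := hG F Q C b' κ S' e₁ E Φ h1 h2 h3 fun k g hg => can_of_cross Φ.b'
    (fun w => (hg w).2.trans (S'.c_le k _)) fun x' w w' hne hw hw' => by
      obtain ⟨x, hx⟩ := Φ.up x'
      exact (add_le_add (hg w).2 (hg w').2).trans (h4 k x _ _ (Φ.l_ne w) (Φ.l_ne w')
        (lab_ne Φ hx hw hw' hne) (on_of_ovr Φ hx) (on_lab Φ hx hw) (on_lab Φ hx hw'))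
  have hn := nrm C e₁
  have h9 : RFG (C.v e₁) (triv C e₁) fun k => M • S₁.D b' k := by
    refine (h8.of_lin hn h7).congr (fun x => ?_) fun k => ?_
    · rw [lc_add_fam, lc_dvs]
      refine sec_add_exc h (fun e' => ?_) (fun e' h9 => ?_)
        (lc_mem (fun k => nsmul_mem (S₁.D_mem b' k) M) x)
      · rw [Finset.sum_apply]
        exact Finset.sum_nonneg fun k _ => nsmul_nonneg (h5 k e') _
      · rw [Finset.sum_apply]
        exact Finset.sum_eq_zero fun k _ => by rw [Pi.smul_apply, h6 k e' h9, smul_zero]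
    · rw [← exp_od, ← exp_od, map_add, od_dvs, h6 k e₁ (he₁ ▸ B.isPD e), add_zero]
  have h10 := RFG.of_nsmul hn hM h9
  simp only [funext (hD b')] at h10
  refine rfg_congr_v he₁ ((RFG.of_nsmul hn hM₁ h10).of_lin hn fun k => ?_)
  exact (((BD.Br.lin_kP b b').nsmul S.r).add BD.Lin.rfl).add BD.Lin.rfl

end Crest.Agent.X262.FG.Dj
end
end

-- ▼ part X262/FG/Dj6
section

/-!
# Row 262, FG / DISJ (helper74): `DisjStmt` from `FacStmt`
-/

set_option autoImplicit false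

namespace Crest.Agent.X262.FG.Dj

theorem excAmp : ExcAmp := fun _ _ _ _ _ _ _ h => by
  obtain ⟨N, g, -, h1, h2⟩ := exists_amp h
  exact ⟨N, g, h1.1, h1.2, h2⟩

theorem disjStmt_of_fac (hF : FacStmt) : DisjStmt := disjStmt_of excAmp hF

end Crest.Agent.X262.FG.Dj
end

-- ▼ part X262/Rho82/Nz

/-!
# Row 262, RHO (helper82): the statement `NZStmt` of the non-vanishing package
-/

set_option autoImplicit false

namespace Crest.Agent.X262.Rho82

theorem nzStmt : FG.NZStmt := fun _ _ _ _ _ _ hz h => nef_of_on hz h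

end Crest.Agent.X262.Rho82
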