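import Crest.Agent.X262.Rho82.Nz
import Crest.Agent.X262.FG.Fin0
import Crest.Agent.X262.FG.Fin1
import Crest.Agent.X262.FG.Fin2
import Crest.Agent.X262.FG.Fin3
import Crest.Agent.X262.FG.Fin4
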